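import Vale.Agent.P214.REF.Minimal
import Vale.Agent.P214.KMS.Sheet
import Vale.Agent.P214.Skel.Defs

/-!
# P214, skeleton of section WIN: exact statements (definitions of propositions only)

Ordinals refer to helper970's text (TXT-WIN-0 .. ).  NORMALISATION: the unit ball `B_1` of the text
is the base ball of radius `3/16`, `B_{3/2}` is `9/32` and `B_2` is `3/8` (REF works on a torus of
side 1).  References are maps `u : Fin n → REF.E m → ℝ` in orthonormal coordinates `F : Frame m n T`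
of `T` and `Tᗮ`; `F.lift u : E → E` is the corresponding base dependent map with values in `Tᗮ`
(the `w` of the text), `KMS.rel T (F.lift u)` the relative height `v`.
-/

open Set Filter Topology MeasureTheory Metric
open scoped RealInnerProductSpace ENNReal ContDiff

namespace Vale.Agent.P214.WIN

noncomputable section

variable {E : Type*} [NormedAddCommGroup E] [InnerProductSpace ℝ E] [FiniteDimensional ℝ E]

/-! ### coordinates -/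

/-- orthonormal coordinates of the base plane and of its complement -/
structure Frame (m n : ℕ) (T : Submodule ℝ E) where
  /-- basis of the plane -/
  bT : OrthonormalBasis (Fin m) ℝ T
  /-- basis of the complement -/
  bN : OrthonormalBasis (Fin n) ℝ Tᗮ

variable {m n : ℕ} {T : Submodule ℝ E}

/-- base coordinates of `y` -/
def Frame.xc (F : Frame m n T) (y : E) : REF.E m := F.bT.repr (T.orthogonalProjectionOnto y)

/-- the point of `T` with base coordinates `x` -/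
def Frame.up (F : Frame m n T) (x : REF.E m) : E := ((F.bT.repr.symm x : T) : E)

/-- the base dependent map with components `u` -/
def Frame.lift (F : Frame m n T) (u : Fin n → REF.E m → ℝ) (y : E) : E :=
  ∑ a, u a (F.xc y) • ((F.bN a : Tᗮ) : E)

/-- component `a` of the relative height: `v_a(Y) = ⟪e_a, Y⟫ - u_a(x)` -/
def Frame.ht (F : Frame m n T) (u : Fin n → REF.E m → ℝ) (a : Fin n) (y : E) : ℝ :=
  ⟪((F.bN a : Tᗮ) : E), y⟫ - u a (F.xc y)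

/-! ### references -/

/-- the number of derivatives which is controlled -/
def sW (m : ℕ) : ℕ := 4 * m + 16

/-- an admissible reference: smooth, supported in `B_2`, small in `C^{sW m}`, exact minimal graph
over `|x| < r` -/
structure Refe (ε r : ℝ) (u : Fin n → REF.E m → ℝ) : Prop where
  smooth : ∀ a, ContDiff ℝ ∞ (u a)
  supp : ∀ a x, 3 / 8 ≤ ‖x‖ → u a x = 0
  small : ∀ a, ∀ k ≤ sW m, ∀ x, ‖iteratedFDeriv ℝ k (u a) x‖ ≤ ε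
  exact : ∀ a x, ‖x‖ < r → REF.Mop u a x = 0

/-- vector valued test functions of the base variable -/
structure Tst (K : ℕ) (r M : ℝ) (φ : Fin n → REF.E m → ℝ) : Prop where
  smooth : ∀ a, ContDiff ℝ ∞ (φ a)
  supp : ∀ a x, r ≤ ‖x‖ → φ a x = 0
  bd : ∀ a, ∀ k ≤ K, ∀ x, ‖iteratedFDeriv ℝ k (φ a) x‖ ≤ M

/-! ### linearised operator of `REF.Mop` at `u` -/

/-- principal coefficients `adj(g)_ij` -/
def Aco (u : Fin n → REF.E m → ℝ) (i j : Fin m) (x : REF.E m) : ℝ := (REF.gm u x).adjugate i j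

/-- first order coefficients `b^k_{ab} = ∑_ij (∂ adj(g)_ij / ∂(∂_k u_b)) ∂_ij u_a` -/
def bco (u : Fin n → REF.E m → ℝ) (a b : Fin n) (k : Fin m) (x : REF.E m) : ℝ :=
  -∑ i, ∑ j, MvPolynomial.eval (fun s : Fin m × Fin n => REF.pd s.1 (u s.2) x)
    (MvPolynomial.pderiv (k, b) (REF.cp m n i j)) * REF.pd i (REF.pd j (u a)) x

/-- `L_w f` -/
def Lw (u f : Fin n → REF.E m → ℝ) (a : Fin n) (x : REF.E m) : ℝ :=
  ∑ i, ∑ j, Aco u i j x * REF.pd i (REF.pd j (f a)) x + ∑ b, ∑ k, bco u a b k x * REF.pd k (f b) x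

/-- the formal adjoint `L_w^t φ` -/
def Ltw (u φ : Fin n → REF.E m → ℝ) (b : Fin n) (x : REF.E m) : ℝ :=
  ∑ i, ∑ j, REF.pd i (REF.pd j fun x => Aco u i j x * φ b x) x
    - ∑ a, ∑ k, REF.pd k (fun x => bco u a b k x * φ a x) x

variable [MeasurableSpace E] [BorelSpace E]

/-! ### quantities of the varifold -/

/-- `∫_{C_r} |v|² dν` -/
def hE (T : Submodule ℝ E) (w : E → E) (ν : Measure E) (r : ℝ) : ℝ :=
  ∫ y in Skel.cylSet T 0 r, ‖KMS.rel T w y‖ ^ 2 ∂ν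

/-- `∫_{C_r(x)} e_w dν` -/
def eE (T : Submodule ℝ E) (w : E → E) (ν : Measure E) (P : E → E →L[ℝ] E) (x : E) (r : ℝ) : ℝ :=
  ∫ y in Skel.cylSet T x r, FV.gsq (KMS.rel T w) (P y) y ∂ν

/-- `Θ(z) ≥ Q`, in terms of the smoothed ratios, for `z` over the base ball of radius `R` -/
def HighD (m Q : ℕ) (T : Submodule ℝ E) (ν : Measure E) (R : ℝ) (z : E) : Prop :=
  ∀ s, 0 < s → ‖T.starProjection z‖ + s < R → (Q : ℝ) * cg m ≤ ratio m ν z s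

/-! ### the propositions -/

/-- **[LINW]** (helper874, helper95) = linearisation + WEYL + REF2 (items (3), (4) of STEP).  `z`,
`πx` on the measure space `(E, ν)`.  Only the low norms of the increment are wanted (the high ones
come from [RECUT]). -/
def LinwStmt (E : Type*) [MeasurableSpace E] (m n : ℕ) : Prop :=
  ∃ ε C : ℝ, 0 < ε ∧ 1 ≤ C ∧ ∀ (u : Fin n → REF.E m → ℝ) (r θ A D : ℝ) (ν : Measure E)
    (πx : E → REF.E m) (z : Fin n → E → ℝ), Refe ε r u → 1 / 16 ≤ r → r ≤ 3 / 16 → 0 < θ →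
    θ ≤ 1 / 640 → IsFiniteMeasure ν → Measurable πx → (∀ a, Integrable (z a) ν) →
    (∀ᵐ y ∂ν, ∀ a, z a y ≠ 0 → ‖πx y‖ < r) → ∑ a, ∫ y, |z a y| ∂ν ≤ A → 0 ≤ D →
    (∀ (φ : Fin n → REF.E m → ℝ) (M : ℝ), Tst 2 (r - θ) M φ →
      |∫ y, ∑ b, z b y * Ltw u φ b (πx y) ∂ν| ≤ D * M) →
    C * θ⁻¹ ^ C * (A + D) ≤ ε →
    ∃ u' : Fin n → REF.E m → ℝ, (∀ a, ContDiff ℝ ∞ (u' a)) ∧
      (∀ a, ∀ k ≤ 2 * m + 1, ∀ x, ‖x‖ < r - 5 * θ →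
        ‖iteratedFDeriv ℝ k (fun x => u' a x - u a x) x‖ ≤ C * θ⁻¹ ^ C * (A + D)) ∧
      (∀ a x, ‖x‖ < r - 5 * θ → REF.Mop u' a x = 0) ∧
      ∀ (φ : Fin n → REF.E m → ℝ) (M : ℝ), Tst (2 * m + 4) (r - 5 * θ) M φ →
        |∫ y, ∑ b, z b y * φ b (πx y) ∂ν - ∫ x, ∑ b, (u' b x - u b x) * φ b x|
          ≤ C * θ⁻¹ ^ C * (D + (A + D) ^ 2) * M

/-- **[REG]** (helper308, (A'), scaled): difference of two exact solutions on a ball of radius `t` -/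
def RegDiffStmt (m n : ℕ) : Prop :=
  ∃ ε : ℝ, 0 < ε ∧ ∀ q : ℕ, ∃ C : ℝ, 0 ≤ C ∧ ∀ (u u' : Fin n → REF.E m → ℝ) (x₀ : REF.E m)
    (t Z : ℝ), 0 < t → t ≤ 1 → (∀ a, ContDiff ℝ ∞ (u a)) → (∀ a, ContDiff ℝ ∞ (u' a)) →
    (∀ a, ∀ k, 1 ≤ k → k ≤ 2 * m + 1 → ∀ x, ‖x - x₀‖ < t → ‖iteratedFDeriv ℝ k (u a) x‖ ≤ ε) →
    (∀ a, ∀ k, 1 ≤ k → k ≤ 2 * m + 1 → ∀ x, ‖x - x₀‖ < t → ‖iteratedFDeriv ℝ k (u' a) x‖ ≤ ε) →
    (∀ a x, ‖x - x₀‖ < t → REF.Mop u a x = 0) → (∀ a x, ‖x - x₀‖ < t → REF.Mop u' a x = 0) →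
    (∀ a, ∀ k, 1 ≤ k → k ≤ 2 * m + 1 → ∀ x, ‖x - x₀‖ < t →
      ‖iteratedFDeriv ℝ k (fun x => u' a x - u a x) x‖ ≤ Z) →
    ∀ a, ∀ k, 1 ≤ k → k ≤ q →
      ‖iteratedFDeriv ℝ k (fun x => u' a x - u a x) x₀‖ ≤ C * t⁻¹ ^ k * Z

/-- **[RECUT]** (helper308): all norms of the increment from the low ones (by (A')), and cutting the
increment off: `u'' = u + χ (u' - u)`. -/
def RecutStmt (m n : ℕ) : Prop :=
  ∃ ε C : ℝ, 0 < ε ∧ 1 ≤ C ∧ ∀ (u u' : Fin n → REF.E m → ℝ) (r θ Z : ℝ), Refe ε r u →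
    1 / 16 ≤ r → r ≤ 3 / 16 → 0 < θ → θ ≤ 1 / 640 → (∀ a, ContDiff ℝ ∞ (u' a)) →
    (∀ a x, ‖x‖ < r → REF.Mop u' a x = 0) →
    (∀ a, ∀ k ≤ 2 * m + 1, ∀ x, ‖x‖ < r →
      ‖iteratedFDeriv ℝ k (fun x => u' a x - u a x) x‖ ≤ Z) → Z ≤ ε →
    ∃ u'' : Fin n → REF.E m → ℝ, (∀ a, ContDiff ℝ ∞ (u'' a)) ∧
      (∀ a x, r ≤ ‖x‖ → u'' a x = u a x) ∧ (∀ a x, ‖x‖ < r - 2 * θ → u'' a x = u' a x) ∧
      (∀ a x, ‖x‖ < r - 2 * θ → REF.Mop u'' a x = 0) ∧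
      ∀ a, ∀ k ≤ sW m, ∀ x,
        ‖iteratedFDeriv ℝ k (fun x => u'' a x - u a x) x‖ ≤ C * θ⁻¹ ^ C * Z

/-- **[AVG]** (helper699) = item (2) of STEP: the height relative to an exact minimal graph solves
the linearised equation weakly up to quadratic errors. -/
def AvgStmt (E : Type*) [NormedAddCommGroup E] [InnerProductSpace ℝ E] [FiniteDimensional ℝ E]
    [MeasurableSpace E] [BorelSpace E] (m n : ℕ) : Prop :=
  ∃ ε C : ℝ, 0 < ε ∧ 0 ≤ C ∧ ∀ (T : Submodule ℝ E) (F : Frame m n T) (u : Fin n → REF.E m → ℝ)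
    (r r' h : ℝ) (ν : Measure E) (P : E → E →L[ℝ] E), Refe ε r u → r' < r → r ≤ 3 / 16 →
    FV.CylStat m T (ball 0 r) h ν P → ∀ (φ : Fin n → REF.E m → ℝ) (M : ℝ), Tst 2 r' M φ →
      |∫ y, ∑ b, F.ht u b y / √(REF.gm u (F.xc y)).det * Ltw u φ b (F.xc y) ∂ν|
        ≤ C * M * ∫ y in Skel.cylSet T 0 r', (FV.gsq (KMS.rel T (F.lift u)) (P y) y
          + ‖KMS.rel T (F.lift u) y‖ * √(FV.gsq (KMS.rel T (F.lift u)) (P y) y)) ∂ν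

/-- **[L4]** Caccioppoli -/
def CaccStmt (E : Type*) [NormedAddCommGroup E] [InnerProductSpace ℝ E] [FiniteDimensional ℝ E]
    [MeasurableSpace E] [BorelSpace E] (m n : ℕ) : Prop :=
  ∃ ε C : ℝ, 0 < ε ∧ 0 ≤ C ∧ ∀ (T : Submodule ℝ E) (F : Frame m n T) (u : Fin n → REF.E m → ℝ)
    (r θ h : ℝ) (ν : Measure E) (P : E → E →L[ℝ] E), Refe ε r u → r ≤ 3 / 16 → 0 < θ → θ < r →
    FV.CylStat m T (ball 0 r) h ν P →
      eE T (F.lift u) ν P 0 (r - θ) ≤ C * θ⁻¹ ^ 2 * hE T (F.lift u) ν r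

/-- **[L5]** (helper809) sup bound of the height at support points -/
def SupStmt (E : Type*) [NormedAddCommGroup E] [InnerProductSpace ℝ E] [FiniteDimensional ℝ E]
    [MeasurableSpace E] [BorelSpace E] (m n : ℕ) : Prop :=
  ∃ ε C : ℝ, 0 < ε ∧ 0 ≤ C ∧ ∀ (T : Submodule ℝ E) (F : Frame m n T) (u : Fin n → REF.E m → ℝ)
    (Q : ℕ) (r θ h δ : ℝ) (ν : Measure E) (P : E → E →L[ℝ] E), Refe ε r u → r ≤ 3 / 16 → 0 < θ →
    θ < r → Skel.IntCyl m Q T 0 r h δ ν P →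
      ∀ y ∈ ν.support, ‖T.starProjection y‖ ≤ r - θ →
        ‖KMS.rel T (F.lift u) y‖ ^ 2 ≤ C * θ⁻¹ ^ m * hE T (F.lift u) ν r

/-- **[INT-W]** (helper566) mass against the area of the graph (the sup bound gives the mass bounds of
cylinders near the boundary, see [BAD]) -/
def IntWStmt (E : Type*) [NormedAddCommGroup E] [InnerProductSpace ℝ E] [FiniteDimensional ℝ E]
    [MeasurableSpace E] [BorelSpace E] (m n : ℕ) : Prop :=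
  ∀ Q : ℕ, ∃ ε C : ℝ, 0 < ε ∧ 0 ≤ C ∧ ∀ (T : Submodule ℝ E) (F : Frame m n T)
    (u : Fin n → REF.E m → ℝ) (r θ h : ℝ) (ν : Measure E) (P : E → E →L[ℝ] E), Refe ε r u →
    1 / 16 ≤ r → r ≤ 3 / 16 → 0 < θ → θ ≤ 1 / 640 → Skel.IntCyl m Q T 0 (3 / 8) h ε ν P →
    Skel.exc T ν P 0 (3 / 8) ≤ ε →
    (∀ y ∈ ν.support, ‖T.starProjection y‖ < r → ‖KMS.rel T (F.lift u) y‖ ≤ ε * θ) →
    ∀ (ψ : REF.E m → ℝ) (M : ℝ), Continuous ψ →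
      (∀ x, r - θ ≤ ‖x‖ → ψ x = 0) → (∀ x, |ψ x| ≤ M) →
      |∫ y, ψ (F.xc y) ∂ν - Q * ∫ x, ψ x * √(REF.gm u x).det ∂μH[m]|
        ≤ C * θ⁻¹ ^ C * M * ∫ y in Skel.cylSet T 0 r, (FV.gsq (KMS.rel T (F.lift u)) (P y) y
          + √(FV.gsq (KMS.rel T (F.lift u)) (P y) y)) ∂ν

/-- **[S1]** (helper856) = items (1)-(5) of STEP: first part, before recutting. -/
def S1Stmt (E : Type*) [NormedAddCommGroup E] [InnerProductSpace ℝ E] [FiniteDimensional ℝ E]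
    [MeasurableSpace E] [BorelSpace E] (m n : ℕ) : Prop :=
  ∀ Q : ℕ, 1 ≤ Q → ∃ ε C : ℝ, 0 < ε ∧ 1 ≤ C ∧ ∀ (T : Submodule ℝ E) (F : Frame m n T)
    (u : Fin n → REF.E m → ℝ) (r θ h H : ℝ) (ν : Measure E) (P : E → E →L[ℝ] E), Refe ε r u →
    3 / 32 ≤ r → r ≤ 3 / 16 → 0 < θ → θ ≤ 1 / 640 → h ≤ ε → Skel.IntCyl m Q T 0 (3 / 8) h ε ν P →
    Skel.exc T ν P 0 (3 / 8) ≤ ε → H = hE T (F.lift u) ν r → C * θ⁻¹ ^ C * √H ≤ ε →
    (∀ (ψ : REF.E m → ℝ) (M : ℝ), Continuous ψ → (∀ x, r - 8 * θ ≤ ‖x‖ → ψ x = 0) →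
      (∀ x, |ψ x| ≤ M) →
      |∫ y, ψ (F.xc y) ∂ν - Q * ∫ x, ψ x * √(REF.gm u x).det ∂μH[m]| ≤ C * θ⁻¹ ^ C * √H * M) ∧
    ∃ u' : Fin n → REF.E m → ℝ, (∀ a, ContDiff ℝ ∞ (u' a)) ∧
      (∀ a, ∀ k ≤ 2 * m + 1, ∀ x, ‖x‖ < r - 8 * θ →
        ‖iteratedFDeriv ℝ k (fun x => u' a x - u a x) x‖ ≤ C * θ⁻¹ ^ C * √H) ∧
      (∀ a x, ‖x‖ < r - 8 * θ → REF.Mop u' a x = 0) ∧
      ∀ (φ : Fin n → REF.E m → ℝ) (M : ℝ), Tst (sW m) (r - 8 * θ) M φ →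
        |∫ y, ∑ a, φ a (F.xc y) * F.ht u' a y ∂ν| ≤ C * θ⁻¹ ^ C * H * M

/-- **[POINTS]** (helper535, KMS) = item (7) of STEP: the new height at a support point `z` is
controlled by one kernel mean (with a smooth kernel `φ` at scale `ρ`), given a cone bound at the
small scale `t`, mass bounds, energy bounds `η` and a sup bound `σ`. -/
def PointsStmt (E : Type*) [NormedAddCommGroup E] [InnerProductSpace ℝ E] [FiniteDimensional ℝ E]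
    [MeasurableSpace E] [BorelSpace E] (m n : ℕ) : Prop :=
  ∃ ε C : ℝ, 0 < ε ∧ 0 < C ∧ ∀ (T : Submodule ℝ E) (F : Frame m n T) (u : Fin n → REF.E m → ℝ)
    (Q : ℕ) (r ρ t h δ M η σ : ℝ) (ν : Measure E) (P : E → E →L[ℝ] E) (z : E), Refe ε r u →
    r ≤ 3 / 16 → 0 < t → t ≤ ρ → Skel.IntCyl m Q T 0 (3 / 8) h δ ν P → z ∈ ν.support →
    ‖T.starProjection z‖ + 2 * ρ < r → 1 ≤ M → 0 ≤ η → η ≤ 1 →
    (∀ s, t ≤ s → s ≤ ρ → ν.real (Skel.cylSet T (T.starProjection z) s) ≤ M * s ^ m) →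
    (∀ s, t ≤ s → s ≤ ρ → eE T (F.lift u) ν P (T.starProjection z) s ≤ η * s ^ m) →
    (∀ y ∈ ν.support, ‖T.starProjection y - T.starProjection z‖ < t →
      ‖FV.co T y - FV.co T z‖ ≤ t) →
    (∀ y ∈ ν.support, ‖T.starProjection y - T.starProjection z‖ < ρ →
      ‖KMS.rel T (F.lift u) y‖ ≤ σ) →
    ∃ φ : REF.E m → ℝ, ContDiff ℝ ∞ φ ∧ (∀ x, ρ ≤ ‖x - F.xc z‖ → φ x = 0) ∧
      (∀ k ≤ sW m, ∀ x, ‖iteratedFDeriv ℝ k φ x‖ ≤ C * ρ⁻¹ ^ (m + k)) ∧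
      ‖KMS.rel T (F.lift u) z‖ ≤ C * M * (t + ρ ^ 2 * (σ + √η) + σ * √η * Real.log (ρ / t)
        + ∑ a, |∫ y, φ (F.xc y) * F.ht u a y ∂ν|)

/-- **[BAD]** (helper117) = item (6) of STEP + the cone property: the base points where the relative
energy is concentrated at some scale. -/
def BadStmt (E : Type*) [NormedAddCommGroup E] [InnerProductSpace ℝ E] [FiniteDimensional ℝ E]
    [MeasurableSpace E] [BorelSpace E] (m : ℕ) : Prop :=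
  ∀ (Q : ℕ) (τ : ℝ), 0 < τ → ∃ ε C : ℝ, 0 < ε ∧ 0 ≤ C ∧ ∀ (T : Submodule ℝ E) (w : E → E)
    (r θ η h : ℝ) (ν : Measure E) (P : E → E →L[ℝ] E), KMS.Ref T w →
    (∀ y, ‖fderiv ℝ w y‖ ≤ ε) → 1 / 16 ≤ r → r ≤ 3 / 16 → 0 < θ → θ ≤ 1 / 640 → 0 < η → η ≤ ε →
    Skel.IntCyl m Q T 0 (3 / 8) h ε ν P → Skel.exc T ν P 0 (3 / 8) ≤ ε →
    (∀ y ∈ ν.support, ‖T.starProjection y‖ < r → ‖KMS.rel T w y‖ ≤ ε * θ) →
    eE T w ν P 0 r ≤ ε * θ ^ m →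
    ∃ Bad : Set E, MeasurableSet Bad ∧
      μH[m] (Bad ∩ (T : Set E)) + ν (T.starProjection ⁻¹' Bad)
        ≤ ENNReal.ofReal (C * η⁻¹ * (θ ^ m)⁻¹ * eE T w ν P 0 r) ∧
      ∀ x ∈ T, ‖x‖ < r - θ → x ∉ Bad →
        (∀ t, 0 < t → ‖x‖ + t < r → ν.real (Skel.cylSet T x t) ≤ C * t ^ m ∧
          Skel.exc T ν P x t ≤ τ * t ^ m) ∧
        (∀ t, 0 < t → t ≤ θ / 8 → eE T w ν P x t ≤ η * t ^ m) ∧
        ∀ z ∈ ν.support, T.starProjection z = x → HighD m Q T ν (3 / 16) z → ∀ t, 0 < t →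
          t ≤ θ / 32 → ∀ y ∈ ν.support, ‖T.starProjection y - x‖ < t → ‖FV.co T y - FV.co T z‖ ≤ t

/-- **[STEP]**: superlinear improvement of the reference (TXT-WIN-1).  `H^{c₁} ≤ θ ≤ 1/640`; (W0) = INT-W for
the old reference; (W1) = size of the increment (all derivatives of order `≤ sW m`, no loss), (W2) =
weak smallness of the new height, (W3) = small planar excess and smallness of the new height at the
points of density `≥ Q` off a small bad set.  The hypotheses on the measure are over the double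
ball. -/
def StepStmt (E : Type*) [NormedAddCommGroup E] [InnerProductSpace ℝ E] [FiniteDimensional ℝ E]
    [MeasurableSpace E] [BorelSpace E] (m n Q : ℕ) : Prop :=
  ∃ c₀ : ℝ, 0 < c₀ ∧ c₀ ≤ 1 / 8 ∧ ∀ c₁ : ℝ, 0 < c₁ → c₁ ≤ c₀ ^ 2 → ∀ τ : ℝ, 0 < τ →
    ∃ ε : ℝ, 0 < ε ∧ ∀ (T : Submodule ℝ E) (F : Frame m n T) (u : Fin n → REF.E m → ℝ)
      (r h H θ : ℝ) (ν : Measure E) (P : E → E →L[ℝ] E),
    Refe ε r u → 3 / 32 ≤ r → r ≤ 3 / 16 → h ≤ ε → Skel.IntCyl m Q T 0 (3 / 8) h ε ν P →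
    Skel.exc T ν P 0 (3 / 8) ≤ ε → H = hE T (F.lift u) ν r → 0 < H → H ≤ ε → H ^ c₁ ≤ θ →
    θ ≤ 1 / 640 →
    (∀ (ψ : REF.E m → ℝ) (M : ℝ), Continuous ψ → (∀ x, r - 5 * θ ≤ ‖x‖ → ψ x = 0) →
      (∀ x, |ψ x| ≤ M) → |∫ y, ψ (F.xc y) ∂ν - Q * ∫ x, ψ x * √(REF.gm u x).det ∂μH[m]|
        ≤ H ^ (1 / 2 - c₁ / c₀) * M) ∧
    ∃ u' : Fin n → REF.E m → ℝ, (∀ a, ContDiff ℝ ∞ (u' a)) ∧
      (∀ a x, r ≤ ‖x‖ → u' a x = u a x) ∧
      (∀ a, ∀ k ≤ sW m, ∀ x,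
        ‖iteratedFDeriv ℝ k (fun x => u' a x - u a x) x‖ ≤ H ^ (1 / 2 - c₁ / c₀)) ∧
      (∀ a x, ‖x‖ < r - 5 * θ → REF.Mop u' a x = 0) ∧
      (∀ (φ : Fin n → REF.E m → ℝ) (M : ℝ), Tst (sW m) (r - 5 * θ) M φ →
        |∫ y, ∑ a, φ a (F.xc y) * F.ht u' a y ∂ν| ≤ H ^ (1 - c₁ / c₀) * M) ∧
      ∃ Bad : Set E, MeasurableSet Bad ∧
        μH[m] (Bad ∩ (T : Set E)) + ν (T.starProjection ⁻¹' Bad) ≤ ENNReal.ofReal (H ^ c₀) ∧
        (∀ x ∈ T, x ∉ Bad → ∀ s, 0 < s → ‖x‖ + s < r - 7 * θ → Skel.exc T ν P x s ≤ τ * s ^ m) ∧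
        ∀ z ∈ ν.support, ‖T.starProjection z‖ < r - 7 * θ → T.starProjection z ∉ Bad →
          HighD m Q T ν (3 / 16) z → ‖KMS.rel T (F.lift u') z‖ ≤ H ^ (1 / 2 + c₀)

/-- **Corollary of STEP** for `Q = 1` (every support point has density `≥ 1`). -/
def StepOneStmt (E : Type*) [NormedAddCommGroup E] [InnerProductSpace ℝ E] [FiniteDimensional ℝ E]
    [MeasurableSpace E] [BorelSpace E] (m n : ℕ) : Prop :=
  ∃ c₀ : ℝ, 0 < c₀ ∧ ∀ c₁ : ℝ, 0 < c₁ → c₁ ≤ c₀ ^ 2 → ∃ ε : ℝ, 0 < ε ∧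
    ∀ (T : Submodule ℝ E) (F : Frame m n T) (u : Fin n → REF.E m → ℝ) (r h H θ : ℝ)
      (ν : Measure E) (P : E → E →L[ℝ] E),
    Refe ε r u → 3 / 32 ≤ r → r ≤ 3 / 16 → h ≤ ε → Skel.IntCyl m 1 T 0 (3 / 8) h ε ν P →
    Skel.exc T ν P 0 (3 / 8) ≤ ε → H = hE T (F.lift u) ν r → 0 < H → H ≤ ε → H ^ c₁ ≤ θ →
    θ ≤ 1 / 640 →
    ∃ u' : Fin n → REF.E m → ℝ, (∀ a, ContDiff ℝ ∞ (u' a)) ∧
      (∀ a x, r ≤ ‖x‖ → u' a x = u a x) ∧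
      (∀ a, ∀ k ≤ sW m, ∀ x,
        ‖iteratedFDeriv ℝ k (fun x => u' a x - u a x) x‖ ≤ H ^ (1 / 2 - c₁ / c₀)) ∧
      (∀ a x, ‖x‖ < r - 5 * θ → REF.Mop u' a x = 0) ∧
      hE T (F.lift u') ν (r - 8 * θ) ≤ H ^ (1 + c₀)

end

end Vale.Agent.P214.WIN
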