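import Mathlib

/-!
# P214, section WIN: real exponents (absorption of constants for small `H`)
-/

open Filter Topology Set

namespace Vale.Agent.P214.WIN

/-- `K H^a ≤ H^b` for small `H` if `b < a` -/
lemma ev_absorb (K : ℝ) {a b : ℝ} (hab : b < a) : ∀ᶠ H : ℝ in 𝓝[>] 0, K * H ^ a ≤ H ^ b := by
  have h1 : Tendsto (fun H : ℝ => K * H ^ (a - b)) (𝓝[>] 0) (𝓝 (K * 0 ^ (a - b))) := by
    refine Tendsto.const_mul K ?_
    refine ((Real.continuousAt_rpow_const 0 (a - b) (Or.inr (by linarith))).tendsto).mono_left ?_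
    exact nhdsWithin_le_nhds
  rw [Real.zero_rpow (by linarith), mul_zero] at h1
  have h2 : ∀ᶠ H : ℝ in 𝓝[>] 0, K * H ^ (a - b) < 1 := h1.eventually_lt_const one_pos
  filter_upwards [h2, self_mem_nhdsWithin] with H hH hpos
  have hpos' : (0:ℝ) < H := hpos
  have h3 : H ^ a = H ^ (a - b) * H ^ b := by
    rw [← Real.rpow_add hpos']; congr 1; ring
  rw [h3, ← mul_assoc]
  calc K * H ^ (a - b) * H ^ b ≤ 1 * H ^ b :=
        mul_le_mul_of_nonneg_right hH.le (Real.rpow_nonneg hpos'.le _)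
    _ = H ^ b := one_mul _

/-- `H^a ≤ c` for small `H` if `0 < a`, `0 < c` -/
lemma ev_small {a c : ℝ} (ha : 0 < a) (hc : 0 < c) : ∀ᶠ H : ℝ in 𝓝[>] 0, H ^ a ≤ c := by
  have h1 : Tendsto (fun H : ℝ => H ^ a) (𝓝[>] 0) (𝓝 (0 ^ a)) :=
    ((Real.continuousAt_rpow_const 0 a (Or.inr ha.le)).tendsto).mono_left nhdsWithin_le_nhds
  rw [Real.zero_rpow ha.ne'] at h1
  exact (h1.eventually_lt_const hc).mono fun H hH => hH.le

/-- `K H^a ≤ c` for small `H` if `0 < a`, `0 < c` -/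
lemma ev_small' (K : ℝ) {a c : ℝ} (ha : 0 < a) (hc : 0 < c) :
    ∀ᶠ H : ℝ in 𝓝[>] 0, K * H ^ a ≤ c := by
  have h1 : Tendsto (fun H : ℝ => K * H ^ a) (𝓝[>] 0) (𝓝 (K * 0 ^ a)) :=
    (((Real.continuousAt_rpow_const 0 a (Or.inr ha.le)).tendsto).mono_left
      nhdsWithin_le_nhds).const_mul K
  rw [Real.zero_rpow ha.ne', mul_zero] at h1
  exact (h1.eventually_lt_const hc).mono fun H hH => hH.le

lemma ev_lt {c : ℝ} (hc : 0 < c) : ∀ᶠ H : ℝ in 𝓝[>] 0, H ≤ c := by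
  have := ev_small (a := 1) (c := c) one_pos hc
  simpa using this

/-- extraction of a threshold -/
lemma exists_of_ev {p : ℝ → Prop} (h : ∀ᶠ H : ℝ in 𝓝[>] 0, p H) :
    ∃ ε : ℝ, 0 < ε ∧ ∀ H, 0 < H → H ≤ ε → p H := by
  rw [eventually_nhdsWithin_iff, Metric.eventually_nhds_iff] at h
  obtain ⟨ε, hε, hp⟩ := h
  refine ⟨ε / 2, by positivity, fun H h0 hH => hp ?_ h0⟩
  rw [Real.dist_eq, sub_zero, abs_of_pos h0]
  linarith

/-- monotonicity in the exponent -/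
lemma rpow_anti {H a b : ℝ} (h0 : 0 < H) (h1 : H ≤ 1) (hab : b ≤ a) : H ^ a ≤ H ^ b :=
  Real.rpow_le_rpow_of_exponent_ge h0 h1 hab

/-- `θ₀⁻¹ ^ C` for `θ₀ = H^c / 16` -/
lemma inv_rpow_theta {H c C : ℝ} (h0 : 0 < H) :
    (H ^ c / 16)⁻¹ ^ C = 16 ^ C * H ^ (-(c * C)) := by
  have h1 : (H ^ c / 16)⁻¹ = 16 * H ^ (-c) := by
    rw [Real.rpow_neg h0.le]
    field_simp
  rw [h1, Real.mul_rpow (by norm_num) (Real.rpow_nonneg h0.le _), ← Real.rpow_mul h0.le]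
  congr 2
  ring

lemma inv_pow_theta {H c : ℝ} (h0 : 0 < H) (k : ℕ) :
    (H ^ c / 16)⁻¹ ^ k = 16 ^ k * H ^ (-(c * k)) := by
  have h1 : (H ^ c / 16)⁻¹ = 16 * H ^ (-c) := by
    rw [Real.rpow_neg h0.le]
    field_simp
  rw [h1, mul_pow, ← Real.rpow_natCast (H ^ (-c)), ← Real.rpow_mul h0.le]
  congr 2
  ring

lemma sqrt_eq {H : ℝ} (_h0 : 0 < H) : √H = H ^ (1 / 2 : ℝ) := Real.sqrt_eq_rpow H

/-- the logarithm is smaller than any negative power -/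
lemma log_inv_le {H p : ℝ} (h0 : 0 < H) (hp : 0 < p) : Real.log H⁻¹ ≤ H ^ (-p) / p := by
  have h1 := Real.log_le_rpow_div (x := H⁻¹) (by positivity) hp
  rwa [Real.inv_rpow h0.le, ← Real.rpow_neg h0.le] at h1

end Vale.Agent.P214.WIN
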