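import Vale.Agent.P214.WIN.CaccMain
import Vale.Agent.P214.HSW.SupW

/-!
# P214, block WIN: `StepStmt` for `Q = 1` implies `StepOneStmt`
-/

open Set Filter Topology MeasureTheory Metric
open scoped RealInnerProductSpace ContDiff

set_option linter.unusedSectionVars false

namespace Vale.Agent.P214.WIN

open Vale.Agent.P214.FV Vale.Agent.P214.Skel

variable {E : Type*} [NormedAddCommGroup E] [InnerProductSpace ℝ E] [FiniteDimensional ℝ E]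
variable {m n : ℕ} {T : Submodule ℝ E}

/-- powers are small near `0` -/
lemma exists_rpow_le {a b : ℝ} (ha : 0 < a) (hb : 0 < b) :
    ∃ ε : ℝ, 0 < ε ∧ ∀ H : ℝ, 0 ≤ H → H ≤ ε → H ^ a ≤ b := by
  refine ⟨b ^ a⁻¹, Real.rpow_pos_of_pos hb _, fun H hH h => ?_⟩
  calc H ^ a ≤ (b ^ a⁻¹) ^ a := Real.rpow_le_rpow hH h ha.le
    _ = b := by rw [← Real.rpow_mul hb.le, inv_mul_cancel₀ ha.ne', Real.rpow_one]

/-- difference of two lifts -/
lemma norm_lift_sub_le (F : Frame m n T) {u u' : Fin n → REF.E m → ℝ} {y : E} {δ : ℝ}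
    (h : ∀ a, |u' a (F.xc y) - u a (F.xc y)| ≤ δ) : ‖F.lift u' y - F.lift u y‖ ≤ n * δ := by
  unfold Frame.lift
  rw [← Finset.sum_sub_distrib]
  refine (norm_sum_le _ _).trans ?_
  calc _ ≤ ∑ _a : Fin n, δ := by
        refine Finset.sum_le_sum fun a _ => ?_
        rw [← sub_smul, norm_smul, KMS.norm_bN, mul_one]
        exact h a
    _ = n * δ := by simp

/-- a changed reference -/
lemma Refe.change {ε ε' δ r r' : ℝ} {u u' : Fin n → REF.E m → ℝ} (hu : Refe ε r u)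
    (hs : ∀ a, ContDiff ℝ ∞ (u' a)) (hsupp : ∀ a x, 3 / 8 ≤ ‖x‖ → u' a x = u a x)
    (hd : ∀ a, ∀ k ≤ sW m, ∀ x, ‖iteratedFDeriv ℝ k (fun x => u' a x - u a x) x‖ ≤ δ)
    (hex : ∀ a x, ‖x‖ < r' → REF.Mop u' a x = 0) (h : ε + δ ≤ ε') : Refe ε' r' u' where
  smooth := hs
  supp a x hx := by rw [hsupp a x hx, hu.supp a x hx]
  small a k hk x := by
    have h1 : u' a = fun x => (u' a x - u a x) + u a x := by funext x; ring
    have hc : ∀ v : REF.E m → ℝ, ContDiff ℝ ∞ v → ContDiffAt ℝ k v x := fun v hv =>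
      (hv.of_le (by exact_mod_cast le_top)).contDiffAt
    rw [h1, fun_iteratedFDeriv_add_apply (hc _ ((hs a).sub (hu.smooth a))) (hc _ (hu.smooth a))]
    calc _ ≤ δ + ε := (norm_add_le _ _).trans (add_le_add (hd a k hk x) (hu.small a k hk x))
      _ ≤ ε' := by linarith
  exact := hex

variable [MeasurableSpace E] [BorelSpace E]

/-- every support point has density at least one -/
lemma highD_one {h δ : ℝ} {Q : ℕ} {ν : Measure E} {P : E → E →L[ℝ] E} {R R' : ℝ}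
    (hI : IntCyl m Q T 0 R h δ ν P) (hR : R' ≤ R) {y : E} (hy : y ∈ ν.support) :
    HighD m 1 T ν R' y := by
  intro s hs hys
  have := hI.cyl.fin
  rw [Nat.cast_one, one_mul]
  refine LocStat.ratio_ge (INT.locStat_of_cylStat hI.cyl) (QP.densLow_intCyl hI) hy hs ?_
  intro x hx
  rw [mem_closedBall, dist_eq_norm] at hx
  rw [mem_preimage, mem_ball_zero_iff]
  have e : T.starProjection x = T.starProjection (x - y) + T.starProjection y := by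
    rw [← map_add, sub_add_cancel]
  rw [e]
  have h1 := norm_add_le (T.starProjection (x - y)) (T.starProjection y)
  have h2 := FV.norm_star_le T (x - y)
  linarith

/-- the mass of a cylinder -/
lemma mass_le_of_intCyl_one {h δ : ℝ} {Q : ℕ} {ν : Measure E} {P : E → E →L[ℝ] E} {R : ℝ}
    (hI : IntCyl m Q T 0 R h δ ν P) (hR1 : R ≤ 1) (hδ : δ ≤ 1) :
    ν.real (cylSet T 0 R) ≤ Q * om m + 1 := by
  have h1 := (abs_le.1 hI.mass).2
  have hR := hI.pos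
  have h2 : R ^ m ≤ 1 := pow_le_one₀ hR.le hR1
  have h3 : 0 ≤ om m := ENNReal.toReal_nonneg
  have h4 : 0 ≤ R ^ m := by positivity
  have h5 : 0 ≤ (Q : ℝ) * om m := by positivity
  nlinarith [mul_le_mul_of_nonneg_left h2 h5, mul_le_mul_of_nonneg_right hδ h4]

/-- smaller cylinders, without mass information -/
lemma intCyl_shrink {h δ : ℝ} {Q : ℕ} {ν : Measure E} {P : E → E →L[ℝ] E} {R r : ℝ}
    (hI : IntCyl m Q T 0 R h δ ν P) (hr : 0 < r) (hrR : r ≤ R) :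
    ∃ δ', IntCyl m Q T 0 r h δ' ν P := by
  refine ⟨|ν.real (cylSet T 0 r) - Q * om m * r ^ m| / r ^ m,
    CylStat.mono hI.cyl isOpen_ball (ball_subset_ball hrR), hI.mem, hr, ?_, ?_⟩
  · filter_upwards [hI.int] with y hy hyr
    exact hy (ball_subset_ball (α := E) hrR hyr)
  · rw [div_mul_cancel₀]
    positivity

lemma integrableOn_hgt {h δ : ℝ} {Q : ℕ} {ν : Measure E} {P : E → E →L[ℝ] E} {R ρ : ℝ}
    (hI : IntCyl m Q T 0 R h δ ν P) (F : Frame m n T) {v : Fin n → REF.E m → ℝ}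
    (hv : ∀ a, ContDiff ℝ ∞ (v a)) (hρ : ρ < R) :
    IntegrableOn (fun y => ‖KMS.rel T (F.lift v) y‖ ^ 2) (cylSet T 0 ρ) ν :=
  HSW.integrableOn_rel_sq hI.cyl (KMS.ref_lift (F := F) hv) 0 (by
    rw [sub_zero, norm_zero]; linarith)

/-- pointwise change of the height -/
lemma rel_change (F : Frame m n T) {u u' : Fin n → REF.E m → ℝ} {δ : ℝ}
    (hd : ∀ a x, |u' a x - u a x| ≤ δ) (y : E) :
    ‖KMS.rel T (F.lift u') y‖ ^ 2 ≤ 2 * ‖KMS.rel T (F.lift u) y‖ ^ 2 + 2 * n ^ 2 * δ ^ 2 := by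
  have h1 : ‖F.lift u' y - F.lift u y‖ ≤ n * δ := norm_lift_sub_le F fun a => hd a _
  have h2 : KMS.rel T (F.lift u') y = KMS.rel T (F.lift u) y - (F.lift u' y - F.lift u y) := by
    unfold KMS.rel; abel
  have h3 : ‖KMS.rel T (F.lift u') y‖ ≤ ‖KMS.rel T (F.lift u) y‖ + n * δ := by
    rw [h2]; exact (norm_sub_le _ _).trans (by gcongr)
  have h4 : 0 ≤ ‖KMS.rel T (F.lift u') y‖ := norm_nonneg _
  nlinarith [sq_nonneg (‖KMS.rel T (F.lift u) y‖ - n * δ)]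

/-- change of the height integral -/
lemma hE_change {h δ' : ℝ} {Q : ℕ} {ν : Measure E} {P : E → E →L[ℝ] E} {R : ℝ}
    (hI : IntCyl m Q T 0 R h δ' ν P) (F : Frame m n T) {u u' : Fin n → REF.E m → ℝ} {δ ρ r : ℝ}
    (hu : ∀ a, ContDiff ℝ ∞ (u a)) (hu' : ∀ a, ContDiff ℝ ∞ (u' a))
    (hd : ∀ a x, |u' a x - u a x| ≤ δ) (hρr : ρ ≤ r) (hr : r < R) :
    hE T (F.lift u') ν ρ
      ≤ 2 * hE T (F.lift u) ν r + 2 * n ^ 2 * δ ^ 2 * ν.real (cylSet T 0 ρ) := by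
  have hfin := hI.cyl.fin
  have i1 := integrableOn_hgt (ρ := ρ) hI F hu (by linarith)
  have i2 := integrableOn_hgt (ρ := ρ) hI F hu' (by linarith)
  have h1 : hE T (F.lift u') ν ρ ≤ ∫ y in cylSet T 0 ρ,
      (2 * ‖KMS.rel T (F.lift u) y‖ ^ 2 + 2 * n ^ 2 * δ ^ 2) ∂ν :=
    integral_mono i2 ((i1.const_mul 2).add (integrable_const _)) fun y => rel_change F hd y
  have h2 : ∫ y in cylSet T 0 ρ, (2 * ‖KMS.rel T (F.lift u) y‖ ^ 2 + 2 * n ^ 2 * δ ^ 2) ∂ν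
      = 2 * hE T (F.lift u) ν ρ + 2 * n ^ 2 * δ ^ 2 * ν.real (cylSet T 0 ρ) := by
    rw [integral_add (i1.const_mul 2) (integrable_const _), integral_const_mul, setIntegral_const,
      smul_eq_mul, mul_comm (ν.real _)]
    rfl
  have h3 : hE T (F.lift u) ν ρ ≤ hE T (F.lift u) ν r :=
    setIntegral_mono_set (integrableOn_hgt (ρ := r) hI F hu hr)
      (Eventually.of_forall fun _ => sq_nonneg _)
      (Eventually.of_forall fun y hy => ball_subset_ball (α := E) hρr hy)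
  rw [h2] at h1
  linarith

/-- splitting of an integral over a small bad set and its complement -/
lemma integral_split_le {ν : Measure E} [IsFiniteMeasure ν] {C B : Set E} {f : E → ℝ} {s₀ s₁ : ℝ}
    (hB : MeasurableSet B) (hf : IntegrableOn f C ν) (hs₁ : 0 ≤ s₁)
    (h : ∀ᵐ y ∂(ν.restrict C), f y ≤ s₀ + B.indicator (fun _ => s₁) y) :
    ∫ y in C, f y ∂ν ≤ s₀ * ν.real C + s₁ * ν.real B := by
  have h1 : ∫ y in C, f y ∂ν ≤ ∫ y in C, (s₀ + B.indicator (fun _ => s₁) y) ∂ν :=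
    integral_mono_ae hf ((integrable_const _).add ((integrable_const _).indicator hB)) h
  refine h1.trans ?_
  rw [integral_add (integrable_const _) ((integrable_const _).indicator hB),
    integral_indicator hB, setIntegral_const, smul_eq_mul, integral_const, smul_eq_mul,
    mul_comm, mul_comm _ s₁]
  refine add_le_add le_rfl (mul_le_mul_of_nonneg_left ?_ hs₁)
  rw [measureReal_restrict_apply_univ, Measure.real, Measure.real]
  exact ENNReal.toReal_mono (measure_ne_top _ _) (Measure.restrict_apply_le _ _)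

/-- final count of exponents -/
lemma stepOne_exponents {H₀ c k c₁ K₁ M₁ : ℝ} (hH0 : 0 < H₀) (hH1 : H₀ ≤ 1) (hK₁ : 0 ≤ K₁)
    (hM₁ : 0 < M₁) (hkc : 8 * k ≤ c) (hk0 : 0 < k) (e1 : c₁ / c ≤ k / 8) (e2 : m * c₁ ≤ k / 8)
    (h5 : H₀ ^ k ≤ (K₁ + M₁)⁻¹) :
    H₀ ^ (1 + 2 * c) * M₁ + K₁ * H₀ ^ (1 - 2 * (c₁ / c) - m * c₁) * H₀ ^ c ≤ H₀ ^ (1 + k) := by
  have hrp : ∀ {x y : ℝ}, x ≤ y → H₀ ^ y ≤ H₀ ^ x := fun hxy =>
    Real.rpow_le_rpow_of_exponent_ge hH0 hH1 hxy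
  have f1 : K₁ * H₀ ^ (1 - 2 * (c₁ / c) - m * c₁) * H₀ ^ c ≤ K₁ * H₀ ^ (1 + 2 * k) := by
    rw [mul_assoc, ← Real.rpow_add hH0]
    refine mul_le_mul_of_nonneg_left (hrp ?_) hK₁
    linarith
  have f2 : H₀ ^ (1 + 2 * c) * M₁ ≤ M₁ * H₀ ^ (1 + 2 * k) := by
    rw [mul_comm]
    exact mul_le_mul_of_nonneg_left (hrp (by linarith)) hM₁.le
  calc _ ≤ M₁ * H₀ ^ (1 + 2 * k) + K₁ * H₀ ^ (1 + 2 * k) := add_le_add f2 f1
    _ = (K₁ + M₁) * H₀ ^ k * H₀ ^ (1 + k) := by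
        rw [mul_assoc, ← Real.rpow_add hH0]
        have : k + (1 + k) = 1 + 2 * k := by ring
        rw [this]; ring
    _ ≤ (K₁ + M₁) * (K₁ + M₁)⁻¹ * H₀ ^ (1 + k) := by gcongr
    _ = H₀ ^ (1 + k) := by
        rw [mul_inv_cancel₀ (by positivity), one_mul]

/-- the conclusion at one scale, from the conclusions of `StepStmt` and `SupStmt` -/
lemma stepOne_core {h δ' : ℝ} {ν : Measure E} {P : E → E →L[ℝ] E}
    (hI : IntCyl m 1 T 0 (3 / 8) h δ' ν P) (hδ' : δ' ≤ 1) (F : Frame m n T)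
    {u u' : Fin n → REF.E m → ℝ} {r θ H₀ c k c₁ C₂ : ℝ}
    (hu : ∀ a, ContDiff ℝ ∞ (u a)) (hu' : ∀ a, ContDiff ℝ ∞ (u' a))
    (hr2 : r ≤ 3 / 16) (hH : H₀ = hE T (F.lift u) ν r)
    (hH0 : 0 < H₀) (hH1 : H₀ ≤ 1) (hC₂ : 0 ≤ C₂) (hc₁ : 0 < c₁) (hc : 0 < c)
    (hθ : H₀ ^ c₁ ≤ θ) (hθ0 : 0 < θ) (hθ1 : θ ≤ 1 / 640)
    (hW1 : ∀ a x, |u' a x - u a x| ≤ H₀ ^ (1 / 2 - c₁ / c)) (hkc : 8 * k ≤ c) (hk0 : 0 < k)
    (e1 : c₁ / c ≤ k / 8) (e2 : m * c₁ ≤ k / 8)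
    (h5 : H₀ ^ k ≤ (C₂ * (2 + 2 * n ^ 2 * (1 * om m + 1)) + (1 * om m + 1))⁻¹)
    {Bad : Set E} (hBm : MeasurableSet Bad)
    (hBad : μH[m] (Bad ∩ (T : Set E)) + ν (T.starProjection ⁻¹' Bad) ≤ ENNReal.ofReal (H₀ ^ c))
    (hW3 : ∀ z ∈ ν.support, ‖T.starProjection z‖ < r - 7 * θ → T.starProjection z ∉ Bad →
          HighD m 1 T ν (3 / 16) z → ‖KMS.rel T (F.lift u') z‖ ≤ H₀ ^ (1 / 2 + c))
    (hsup : ∀ y ∈ ν.support, ‖T.starProjection y‖ ≤ (r - 5 * θ) - θ →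
        ‖KMS.rel T (F.lift u') y‖ ^ 2 ≤ C₂ * θ⁻¹ ^ m * hE T (F.lift u') ν (r - 5 * θ)) :
    hE T (F.lift u') ν (r - 8 * θ) ≤ H₀ ^ (1 + k) := by
  have hfin := hI.cyl.fin
  set M₁ : ℝ := 1 * om m + 1 with hM₁
  have hom : 0 ≤ om m := ENNReal.toReal_nonneg
  have hM₁0 : 0 < M₁ := by positivity
  set K₁ : ℝ := C₂ * (2 + 2 * n ^ 2 * M₁) with hK₁
  have hK₁0 : 0 ≤ K₁ := by positivity
  have hrp : ∀ {x y : ℝ}, x ≤ y → H₀ ^ y ≤ H₀ ^ x := fun hxy =>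
    Real.rpow_le_rpow_of_exponent_ge hH0 hH1 hxy
  set δ : ℝ := H₀ ^ (1 / 2 - c₁ / c) with hδ
  have hmass : ν.real (cylSet T 0 (3 / 8)) ≤ M₁ := by
    have := mass_le_of_intCyl_one hI (by norm_num) hδ'
    rwa [Nat.cast_one] at this
  have hsubm : ∀ ρ : ℝ, ρ ≤ 3 / 8 → ν.real (cylSet T 0 ρ) ≤ M₁ := fun ρ hρ =>
    (measureReal_mono (show cylSet T 0 ρ ⊆ cylSet T 0 (3 / 8) from
      fun y hy => ball_subset_ball (α := E) hρ hy) (measure_ne_top _ _)).trans hmass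
  -- the new height over the ball of radius `r'`
  have hE' : hE T (F.lift u') ν (r - 5 * θ)
      ≤ (2 + 2 * n ^ 2 * M₁) * H₀ ^ (1 - 2 * (c₁ / c)) := by
    have hδsq : δ ^ 2 = H₀ ^ (1 - 2 * (c₁ / c)) := by
      rw [hδ, ← Real.rpow_natCast, ← Real.rpow_mul hH0.le]
      congr 1; push_cast; ring
    have h1 := hE_change (ρ := r - 5 * θ) (r := r) hI F hu hu' hW1 (by linarith) (by linarith)
    rw [hδsq, ← hH] at h1
    have h4 : H₀ ≤ H₀ ^ (1 - 2 * (c₁ / c)) := by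
      calc H₀ = H₀ ^ (1:ℝ) := (Real.rpow_one _).symm
        _ ≤ _ := hrp (by have : 0 ≤ c₁ / c := by positivity
                         linarith)
    have h5' := hsubm (r - 5 * θ) (by linarith)
    have h6 : 0 ≤ H₀ ^ (1 - 2 * (c₁ / c)) := Real.rpow_nonneg hH0.le _
    calc _ ≤ _ := h1
      _ ≤ 2 * H₀ ^ (1 - 2 * (c₁ / c)) + 2 * n ^ 2 * H₀ ^ (1 - 2 * (c₁ / c)) * M₁ := by gcongr
      _ = _ := by ring
  set s₁ : ℝ := K₁ * H₀ ^ (1 - 2 * (c₁ / c) - m * c₁) with hs₁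
  have hs₁0 : 0 ≤ s₁ := mul_nonneg hK₁0 (Real.rpow_nonneg hH0.le _)
  -- sup bound
  have hsup' : ∀ y ∈ ν.support, ‖T.starProjection y‖ ≤ (r - 5 * θ) - θ →
      ‖KMS.rel T (F.lift u') y‖ ^ 2 ≤ s₁ := by
    intro y hy hyr
    refine (hsup y hy hyr).trans ?_
    have h1 : θ⁻¹ ^ m ≤ H₀ ^ (-(m * c₁)) := by
      have h0 : (H₀ ^ c₁)⁻¹ ^ m = H₀ ^ (-(m * c₁)) := by
        rw [← Real.rpow_neg hH0.le, ← Real.rpow_natCast, ← Real.rpow_mul hH0.le]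
        congr 1; ring
      rw [← h0]
      have := Real.rpow_pos_of_pos hH0 c₁
      gcongr
    have h2 : 0 ≤ H₀ ^ (-(m * c₁)) := Real.rpow_nonneg hH0.le _
    have h3 : 0 ≤ hE T (F.lift u') ν (r - 5 * θ) := integral_nonneg fun _ => sq_nonneg _
    calc C₂ * θ⁻¹ ^ m * hE T (F.lift u') ν (r - 5 * θ)
        ≤ C₂ * H₀ ^ (-(m * c₁)) * ((2 + 2 * n ^ 2 * M₁) * H₀ ^ (1 - 2 * (c₁ / c))) := by gcongr
      _ = K₁ * (H₀ ^ (-(m * c₁)) * H₀ ^ (1 - 2 * (c₁ / c))) := by rw [hK₁]; ring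
      _ = _ := by rw [← Real.rpow_add hH0, hs₁]; congr 2; ring
  set s₀ : ℝ := H₀ ^ (1 + 2 * c) with hs₀
  have hs₀0 : 0 ≤ s₀ := Real.rpow_nonneg hH0.le _
  have hBm' : MeasurableSet (T.starProjection ⁻¹' Bad) :=
    T.starProjection.continuous.measurable hBm
  have hae : ∀ᵐ y ∂(ν.restrict (cylSet T 0 (r - 8 * θ))), ‖KMS.rel T (F.lift u') y‖ ^ 2
      ≤ s₀ + (T.starProjection ⁻¹' Bad).indicator (fun _ => s₁) y := by
    rw [ae_restrict_iff' (KMS.measurableSet_cylSet T 0 _)]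
    filter_upwards [(Measure.support_mem_ae : ν.support ∈ ae ν)] with y hy hyc
    have hyc' : ‖T.starProjection y‖ < r - 8 * θ := by
      have : T.starProjection y ∈ ball (0 : E) (r - 8 * θ) := hyc
      rwa [mem_ball_zero_iff] at this
    by_cases hB : T.starProjection y ∈ Bad
    · rw [indicator_of_mem (by exact hB)]
      have := hsup' y hy (by linarith)
      linarith
    · rw [indicator_of_notMem (by exact hB), add_zero]
      have h1 := hW3 y hy (by linarith) hB (highD_one hI (by norm_num) hy)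
      have h2 : (H₀ ^ (1 / 2 + c)) ^ 2 = s₀ := by
        rw [hs₀, ← Real.rpow_natCast, ← Real.rpow_mul hH0.le]
        congr 1; push_cast; ring
      rw [← h2]
      gcongr
  have hBadr : ν.real (T.starProjection ⁻¹' Bad) ≤ H₀ ^ c := by
    have h1 : ν (T.starProjection ⁻¹' Bad) ≤ ENNReal.ofReal (H₀ ^ c) :=
      le_trans le_add_self hBad
    exact ENNReal.toReal_le_of_le_ofReal (Real.rpow_nonneg hH0.le _) h1
  have hfinal := integral_split_le hBm'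
    (integrableOn_hgt (ρ := r - 8 * θ) hI F hu' (by linarith)) hs₁0 hae
  refine le_trans hfinal (le_trans (add_le_add
    (mul_le_mul_of_nonneg_left (hsubm _ (by linarith)) hs₀0)
    (mul_le_mul_of_nonneg_left hBadr hs₁0)) ?_)
  exact stepOne_exponents hH0 hH1 hK₁0 hM₁0 hkc hk0 e1 e2 h5

theorem stepOne_of_step (hS : StepStmt E m n 1) : StepOneStmt E m n := by
  obtain ⟨c, hc, -, H⟩ := hS
  obtain ⟨ε₂, C₂, hε₂, hC₂, H2⟩ := HSW.supStmt E m n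
  set k : ℝ := min c 1 / (8 * (m + 1)) with hk
  have hmin : 0 < min c 1 := lt_min hc one_pos
  have hk0 : 0 < k := by positivity
  have hm0 : (0:ℝ) ≤ m := Nat.cast_nonneg m
  have hkc' : (m + 1) * k ≤ min c 1 / 8 := by
    rw [hk]
    rw [mul_div_assoc', div_le_div_iff₀ (by positivity) (by norm_num)]
    nlinarith
  have hkc : 8 * k ≤ c := by
    have := min_le_left c 1
    nlinarith [mul_nonneg hm0 hk0.le]
  have hk8 : m * k ≤ 1 / 8 := by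
    have := min_le_right c 1
    nlinarith
  refine ⟨k, hk0, fun c₁ hc₁ hc₁k => ?_⟩
  have hc₁c : c₁ ≤ c ^ 2 := hc₁k.trans (by gcongr; linarith)
  obtain ⟨ε₁, hε₁, H1⟩ := H c₁ hc₁ hc₁c 1 one_pos
  clear H
  have hom : 0 ≤ om m := ENNReal.toReal_nonneg
  have hK₁0 : 0 < C₂ * (2 + 2 * n ^ 2 * (1 * om m + 1)) + (1 * om m + 1) := by positivity
  -- exponents
  have e1 : c₁ / c ≤ k / 8 := by
    rw [div_le_iff₀ hc]
    nlinarith
  have e2 : m * c₁ ≤ k / 8 := by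
    calc (m : ℝ) * c₁ ≤ m * k ^ 2 := by gcongr
      _ = (m * k) * k := by ring
      _ ≤ 1 / 8 * k := by gcongr
      _ = k / 8 := by ring
  have hk4 : k ≤ 1 / 8 := by
    have := min_le_right c 1
    nlinarith [mul_nonneg hm0 hk0.le]
  have e3 : 1 / 4 ≤ 1 / 2 - c₁ / c := by linarith
  have e4 : c₁ / c ≤ c₁ / k := by gcongr; linarith
  obtain ⟨ε₃, hε₃, H3⟩ := exists_rpow_le (a := 1 / 4) (b := ε₂ / 2) (by norm_num) (by positivity)
  obtain ⟨ε₅, hε₅, H5⟩ := exists_rpow_le (a := k)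
    (b := (C₂ * (2 + 2 * n ^ 2 * (1 * om m + 1)) + (1 * om m + 1))⁻¹) hk0 (inv_pos.2 hK₁0)
  refine ⟨min (min (min ε₁ (ε₂ / 2)) ε₃) (min ε₅ 1), by positivity, ?_⟩
  intro T F u r h H₀ θ ν P hu hr1 hr2 hh hI hexc hH hH0 hHε hθ hθ1
  have hε : ∀ x : ℝ, x ≤ min (min (min ε₁ (ε₂ / 2)) ε₃) (min ε₅ 1) →
      x ≤ ε₁ ∧ x ≤ ε₂ / 2 ∧ x ≤ ε₃ ∧ x ≤ ε₅ ∧ x ≤ 1 := by
    intro x hx
    simp only [le_min_iff] at hx
    tauto
  obtain ⟨-, b2, b3, b5, b6⟩ := hε H₀ hHε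
  obtain ⟨a1, a2, -, -, a6⟩ := hε _ le_rfl
  have hu1 : Refe ε₁ r u := ⟨hu.smooth, hu.supp, fun a k hk x => (hu.small a k hk x).trans a1,
    hu.exact⟩
  have hI1 : IntCyl m 1 T 0 (3 / 8) h ε₁ ν P :=
    ⟨hI.cyl, hI.mem, hI.pos, hI.int, hI.mass.trans (by gcongr)⟩
  obtain ⟨-, u', hs', hsupp, hW1, hex, -, Bad, hBm, hBad, -, hW3⟩ := H1 T F u r h H₀ θ ν P hu1 hr1 hr2
    (hh.trans a1) hI1 (hexc.trans a1) hH hH0 (hHε.trans a1) hθ hθ1
  have hθ0 : 0 < θ := (Real.rpow_pos_of_pos hH0 _).trans_le hθ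
  have hrp : ∀ {x y : ℝ}, x ≤ y → H₀ ^ y ≤ H₀ ^ x := fun hxy =>
    Real.rpow_le_rpow_of_exponent_ge hH0 b6 hxy
  have hδ2 : H₀ ^ (1 / 2 - c₁ / c) ≤ ε₂ / 2 := (hrp e3).trans (H3 H₀ hH0.le b3)
  have hu' : Refe ε₂ (r - 5 * θ) u' := hu.change hs' (fun a x hx => hsupp a x (by linarith)) hW1 hex (by linarith)
  obtain ⟨δ', hI'⟩ := intCyl_shrink hI (r := r - 5 * θ) (by linarith) (by linarith)
  refine ⟨u', hs', hsupp, fun a j hj x => (hW1 a j hj x).trans (hrp (by linarith)), hex, ?_⟩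
  refine stepOne_core hI a6 F hu.smooth hs' hr2 hH hH0 b6 hC₂ hc₁ hc hθ hθ0 hθ1 (fun a x => ?_)
    hkc hk0 e1 e2 (H5 H₀ hH0.le b5) hBm hBad hW3 fun y hy hyr => ?_
  · have := hW1 a 0 (Nat.zero_le _) x
    rwa [norm_iteratedFDeriv_zero, Real.norm_eq_abs] at this
  · exact H2 T F u' 1 (r - 5 * θ) θ h δ' ν P hu' (by linarith) hθ0 (by linarith) hI' y hy hyr

end Vale.Agent.P214.WIN
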