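import Vale.Agent.P214.WIN.Cacc
import Vale.Agent.P214.KMS.Frame

/-!
# P214, block WIN: `CaccStmt` (L4)
-/

open Set Filter Topology MeasureTheory Metric
open scoped RealInnerProductSpace ContDiff

namespace Vale.Agent.P214.WIN

open Vale.Agent.P214.FV Vale.Agent.P214.Skel

variable {E : Type*} [NormedAddCommGroup E] [InnerProductSpace ℝ E] [FiniteDimensional ℝ E]
variable {m n : ℕ} {T : Submodule ℝ E}

/-- pointwise consequences of `Refe` for the lift -/
lemma Refe.fderiv_le {F : Frame m n T} {u : Fin n → REF.E m → ℝ} {ε r : ℝ} (hu : Refe ε r u)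
    (y : E) : ‖fderiv ℝ (F.lift u) y‖ ≤ n * ε :=
  KMS.norm_fderiv_lift_le hu.smooth (x := F.xc y)
    (fun a => hu.small a 1 (by unfold sW; omega) _) rfl

lemma Refe.fderiv2_le {F : Frame m n T} {u : Fin n → REF.E m → ℝ} {ε r : ℝ} (hu : Refe ε r u)
    (y : E) : ‖fderiv ℝ (fderiv ℝ (F.lift u)) y‖ ≤ n * ε :=
  KMS.norm_fderiv2_lift_le hu.smooth (x := F.xc y)
    (fun a => hu.small a 2 (by unfold sW; omega) _) rfl

lemma Refe.lap_eq {F : Frame m n T} {u : Fin n → REF.E m → ℝ} {ε r : ℝ} (hu : Refe ε r u)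
    {y : E} (hy : ‖T.starProjection y‖ < r) :
    lap (F.lift u) (KMS.gpl T (fderiv ℝ (F.lift u) y)).starProjection y = 0 :=
  KMS.lap_eq_zero hu.smooth fun a => hu.exact a _ (by rwa [KMS.norm_xc])

variable [MeasurableSpace E] [BorelSpace E]

/-- **[L4]** -/
theorem caccStmt (m n : ℕ) : CaccStmt E m n := by
  refine ⟨((n : ℝ) + 1)⁻¹, 72 * m + 128 * FM.cT ^ 2, by positivity, by positivity, ?_⟩
  intro T F u r θ h ν P hu hr hθ hθr hC
  have hn : (n : ℝ) * ((n : ℝ) + 1)⁻¹ ≤ 1 := by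
    rw [← div_eq_mul_inv, div_le_one (by positivity)]
    linarith
  have h1 := cacc_rel (z := (0 : E)) hC (KMS.ref_lift (F := F) hu.smooth)
    (fun y _ => (hu.fderiv_le y).trans hn) (fun y _ => (hu.fderiv2_le y).trans hn)
    (fun y hy => hu.lap_eq (by simpa using hy)) hθ hθr (by linarith)
  exact h1

end Vale.Agent.P214.WIN
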