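import Vale.Agent.P214.WIN.BadD
import Vale.Agent.P214.WIN.Props

/-!
# P214, block WIN: `BadStmt` (item (6) of STEP)
-/

open Set Filter Topology MeasureTheory Metric
open scoped RealInnerProductSpace ENNReal

set_option linter.all false

namespace Vale.Agent.P214.BADS

open Vale.Agent.P214 Vale.Agent.P214.FV Vale.Agent.P214.MU

variable {E : Type*} [NormedAddCommGroup E] [InnerProductSpace ℝ E] [FiniteDimensional ℝ E]
  [MeasurableSpace E] [BorelSpace E]

variable {m Q : ℕ} {T : Submodule ℝ E} {G : Set E} {h : ℝ} {ν : Measure E}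
  {P : E → E →L[ℝ] E} {S : Set E} {θ' : E → ℕ} {J : E → ℝ} {z x : E} {r s R : ℝ}

lemma measurableSet_cs (T : Submodule ℝ E) (x : E) (s : ℝ) : MeasurableSet (Skel.cylSet T x s) :=
  (isOpen_ball.preimage T.starProjection.continuous).measurableSet

lemma cs_subset {x x' : E} {s s' : ℝ} (hx : ‖x - x'‖ + s ≤ s') :
    Skel.cylSet T x s ⊆ Skel.cylSet T x' s' := by
  intro y hy
  have hy' : T.starProjection y ∈ ball x s := hy
  show T.starProjection y ∈ ball x' s'
  rw [mem_ball, dist_eq_norm] at hy' ⊢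
  have : ‖T.starProjection y - x'‖ ≤ ‖T.starProjection y - x‖ + ‖x - x'‖ := by
    calc _ = ‖(T.starProjection y - x) + (x - x')‖ := by congr 1; abel
      _ ≤ _ := norm_add_le _ _
  linarith

lemma restr_eq {A B : Set E} (hA : MeasurableSet A) (hAB : A ⊆ B) :
    (ν.restrict B).restrict A = ν.restrict A := by
  rw [Measure.restrict_restrict hA, inter_eq_left.2 hAB]

lemma ratio_restr [IsFiniteMeasure ν] {B : Set E} (hs : 0 < s) (hB : ball z s ⊆ B)
    (hBm : MeasurableSet B) : ratio m (ν.restrict B) z s = ratio m ν z s := by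
  unfold ratio
  congr 1
  refine setIntegral_eq_integral_of_forall_compl_eq_zero fun y hy => ?_
  refine cut_eq_zero hs ?_
  by_contra hcon
  exact hy (hB (by rw [mem_ball, dist_eq_norm]; exact not_le.1 hcon))

/-- **The bad set**, strong form.  Outputs at the points off the bad set: the cylinders of all radii
`s` with `|x| + 2 s ≤ r` are again `Q`-sheeted with planar excess at most `τ s^m`; small relative
energy at all scales `≤ θ/4`; cone property with slope `τ`. -/
theorem bad_skel (m Q : ℕ) (hm : 1 ≤ m) {τ : ℝ} (hτ : 0 < τ) : ∃ ε C : ℝ, 0 < ε ∧ ε ≤ 1 ∧ 0 < C ∧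
    ∀ (T : Submodule ℝ E) (w : E → E) (r θ η h : ℝ) (ν : Measure E) (P : E → E →L[ℝ] E),
    KMS.Ref T w → (∀ y, ‖fderiv ℝ w y‖ ≤ ε) → 1 / 32 ≤ r → r ≤ 3 / 16 → 0 < θ → θ ≤ 1 / 640 →
    0 < η → η ≤ 1 → Skel.IntCyl m Q T 0 (3 / 8) h ε ν P → Skel.exc T ν P 0 (3 / 8) ≤ ε →
    (∀ y ∈ ν.support, ‖T.starProjection y‖ < r → ‖KMS.rel T w y‖ ≤ θ) →
    WIN.eE T w ν P 0 r ≤ ε * θ ^ m →
    ∃ Bad : Set E, MeasurableSet Bad ∧ Bad ⊆ ball 0 (3 / 8) ∧
      μH[m] (Bad ∩ (T : Set E)) + ν (T.starProjection ⁻¹' Bad)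
        ≤ ENNReal.ofReal (C * η⁻¹ * WIN.eE T w ν P 0 r) ∧
      ∀ x ∈ T, ‖x‖ < r - θ → x ∉ Bad →
        (∀ s, 0 < s → ‖x‖ + s ≤ r → ν.real (Skel.cylSet T x s) ≤ C * s ^ m ∧
          Skel.exc T ν P x s ≤ τ * s ^ m) ∧
        (∀ s, 0 < s → ‖x‖ + 2 * s ≤ r → Skel.IntCyl m Q T x s h τ ν P) ∧
        (∀ s, 0 < s → s ≤ θ / 4 → WIN.eE T w ν P x s ≤ η * s ^ m) ∧
        ∀ z, T.starProjection z = x → ∀ t, 0 < t → ‖x‖ + 4 * t ≤ r →
          (∀ s, 0 < s → s ≤ t → Q * cg m ≤ ratio m ν z s) →
          ∀ y ∈ ν.support, ‖T.starProjection (y - z)‖ ≤ t →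
            ‖Tᗮ.starProjection (y - z)‖ ≤ τ * t := by
  have hcg := cg_pos m
  have hcm := TCH.cm_pos m
  set τ₂ := min τ (τ * TCH.cm m / (12 + cg m)) with hτ₂
  have hτ₂0 : 0 < τ₂ := lt_min hτ (by positivity)
  have hτ₂1 : τ₂ ≤ τ := min_le_left _ _
  have hτ₂2 : (12 + cg m) * τ₂ ≤ τ * TCH.cm m := by
    have h1 : τ₂ ≤ τ * TCH.cm m / (12 + cg m) := min_le_right _ _
    rw [le_div_iff₀ (by positivity)] at h1
    linarith
  obtain ⟨ε₀, C, hε₀, hC, hcore⟩ := bad_core (E := E) m Q hτ₂0
  refine ⟨min ε₀ 1, C, lt_min hε₀ one_pos, min_le_right _ _, hC, ?_⟩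
  intro T w r θ η h ν P hw hwε hr1 hr2 hθ hθ1 hη hη1 hI hexc hsup hen
  set ε := min ε₀ 1 with hε
  have hfin := hI.cyl.fin
  have h0T : (0 : E) ∈ T := T.zero_mem
  set B := Skel.cylSet T 0 (3 / 8) with hB
  have hBm : MeasurableSet B := measurableSet_cs T 0 _
  have hBo : IsOpen B := isOpen_ball.preimage T.starProjection.continuous
  obtain ⟨S, θ', -, -, -, hint⟩ := AREA.intCyl_of_skel hI (A := univ)
    (Eventually.of_forall fun y _ => mem_univ y)
  set μ := ν.restrict B with hμ
  have hcs : INT.cyl T (0:E) (3 / 8) = B := cyl_eq h0T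
  have hreal : ∀ A, MeasurableSet A → A ⊆ B → μ.real A = ν.real A := fun A hA hAB => by
    rw [measureReal_def, measureReal_def, hμ, Measure.restrict_apply hA, inter_eq_left.2 hAB]
  have hexcr : ∀ x s, Skel.cylSet T x s ⊆ B → Skel.exc T μ P x s = Skel.exc T ν P x s := by
    intro x s hs
    unfold Skel.exc
    rw [hμ, restr_eq (measurableSet_cs T x s) hs]
  have heEr : ∀ x s, Skel.cylSet T x s ⊆ B → ∀ f : E → ℝ, ∫ y in Skel.cylSet T x s, f y ∂μ =
      ∫ y in Skel.cylSet T x s, f y ∂ν := by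
    intro x s hs f
    rw [hμ, restr_eq (measurableSet_cs T x s) hs]
  have hBr : ∀ x s, ‖x‖ + s ≤ 3 / 8 → Skel.cylSet T x s ⊆ B := fun x s hxs =>
    cs_subset (by simpa using hxs)
  have H : BH m Q T h μ P S θ' (fun y => AREA.jac (proj T) (P y)) w ε r θ :=
    { int := hint
      ref := hw
      small := hwε
      ε1 := min_le_right _ _
      m1 := hm
      univ_eq := by
        rw [hcs, measureReal_def, measureReal_def, hμ, Measure.restrict_apply_self,
          Measure.restrict_apply_univ]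
      mass := by
        rw [hcs, hreal B hBm subset_rfl]
        exact hI.mass
      exc0 := by rw [hexcr 0 _ subset_rfl]; exact hexc
      a0 := hr1
      a1 := hr2
      θ0 := hθ
      θ1 := hθ1
      sup := fun y hy hyr => hsup y (Measure.support_mono Measure.restrict_le_self hy) hyr
      en := by
        rw [cyl_eq h0T, heEr 0 r (hBr 0 r (by simp; linarith))]
        exact hen }
  obtain ⟨Bad, hBadm, hBadμ, hgood⟩ := hcore T h μ P S θ' _ w ε r θ H (min_le_left _ _) η hη hη1
  have hTm : Measurable (T.starProjection : E → E) := T.starProjection.continuous.measurable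
  refine ⟨Bad ∩ ball 0 (3 / 8), hBadm.inter measurableSet_ball, inter_subset_right, ?_, ?_⟩
  · have h1 : ν (T.starProjection ⁻¹' (Bad ∩ ball 0 (3 / 8))) ≤ μ (T.starProjection ⁻¹' Bad) := by
      rw [hμ, Measure.restrict_apply (hTm hBadm)]
      exact measure_mono fun y hy => hy
    have h2 : μH[m] (Bad ∩ ball 0 (3 / 8) ∩ (T : Set E)) ≤ μH[m] (Bad ∩ (T : Set E)) :=
      measure_mono fun y hy => ⟨hy.1.1, hy.2⟩
    refine (add_le_add h2 h1).trans (hBadμ.trans (le_of_eq ?_))
    rw [cyl_eq h0T, heEr 0 r (hBr 0 r (by simp; linarith))]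
    rfl
  · intro x hx hxr hxB
    have hxB' : x ∉ Bad := fun hcon => hxB ⟨hcon, by
      rw [mem_ball, dist_zero_right]; linarith⟩
    obtain ⟨hg1, hg2, hg3, hg4⟩ := hgood x hx hxr hxB'
    have hms : ∀ s, 0 < s → ‖x‖ + s ≤ r → ν.real (Skel.cylSet T x s) ≤ C * s ^ m ∧
          Skel.exc T ν P x s ≤ τ₂ * s ^ m := by
      intro s hs hxs
      obtain ⟨h1, h2⟩ := hg1 s hs hxs
      have h3 := hBr x s (by linarith)
      rw [cyl_eq hx, hreal _ (measurableSet_cs T x s) h3] at h1
      rw [hexcr x s h3] at h2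
      exact ⟨h1, h2⟩
    refine ⟨fun s hs hxs => ⟨(hms s hs hxs).1, (hms s hs hxs).2.trans (by gcongr)⟩, ?_, ?_, ?_⟩
    · intro s hs hxs
      have h3 := hBr x s (by linarith)
      have hsub : ball x s ⊆ ball 0 (3 / 8) := by
        intro y hy
        rw [mem_ball, dist_eq_norm] at hy
        rw [mem_ball, dist_zero_right]
        calc ‖y‖ = ‖(y - x) + x‖ := by rw [sub_add_cancel]
          _ ≤ ‖y - x‖ + ‖x‖ := norm_add_le _ _
          _ < 3 / 8 := by linarith
      refine ⟨CylStat.mono hI.cyl isOpen_ball hsub, hx, hs, ?_, ?_⟩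
      · filter_upwards [hI.int] with y hy hyr
        exact hy (h3 hyr)
      · have h4 := hg2 s hs hxs
        have h5 := htot_mass (CylStat.mono H.int.stat isOpen_ball hsub) hx hm hs
        have h6 := (hms s hs (by linarith)).2
        rw [hexcr x s h3, cyl_eq hx, hreal _ (measurableSet_cs T x s) h3] at h5
        rw [← div_le_iff₀ (by positivity)] at h6
        set Z := INT.htot m T μ x s
        set X := ν.real (Skel.cylSet T x s) / s ^ m with hX
        have h7 : |Z - Q * cg m| ≤ τ₂ * cg m := by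
          have e : Z - Q * cg m = (Z / cg m - Q) * cg m := by field_simp
          rw [e, abs_mul, abs_of_pos hcg]
          gcongr
        have h8 : TCH.cm m * |X - Q * Skel.om m| ≤ τ * TCH.cm m := by
          have e : TCH.cm m * (X - Q * Skel.om m) = (Z - Q * cg m) - (Z - TCH.cm m * X) := by
            rw [cg_eq_cm]; ring
          calc TCH.cm m * |X - Q * Skel.om m| = |(Z - Q * cg m) - (Z - TCH.cm m * X)| := by
                rw [← e, abs_mul, abs_of_pos hcm]
            _ ≤ |Z - Q * cg m| + |Z - TCH.cm m * X| := abs_sub _ _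
            _ ≤ τ₂ * cg m + 12 * τ₂ := by
              refine add_le_add h7 (h5.trans ?_)
              gcongr
            _ ≤ _ := by linarith
        have h9 : |X - Q * Skel.om m| ≤ τ := by
          rw [mul_comm] at h8
          exact le_of_mul_le_mul_right h8 hcm
        have e : ν.real (Skel.cylSet T x s) - Q * Skel.om m * s ^ m =
            (X - Q * Skel.om m) * s ^ m := by rw [hX]; field_simp
        rw [e, abs_mul, abs_of_pos (by positivity : (0:ℝ) < s ^ m)]
        gcongr
    · intro s hs hs4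
      have h1 := hg3 s hs hs4
      rw [cyl_eq hx, heEr x s (hBr x s (by linarith))] at h1
      exact h1
    · intro z hz t ht hxt hQ y hy hyt
      have hsup : y ∈ μ.support := by
        refine Measure.interior_inter_support ⟨?_, hy⟩
        rw [hBo.interior_eq]
        show T.starProjection y ∈ ball 0 (3 / 8)
        rw [mem_ball, dist_zero_right]
        have e : T.starProjection y = T.starProjection (y - z) + x := by
          rw [map_sub, hz, sub_add_cancel]
        rw [e]
        have := norm_add_le (T.starProjection (y - z)) x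
        linarith
      refine (hg4 z hz t ht hxt (fun s hs hst => ?_) y hsup hyt).trans (by gcongr)
      rw [hμ, ratio_restr hs ?_ hBm]
      · exact hQ s hs hst
      · intro v hv
        show T.starProjection v ∈ ball 0 (3 / 8)
        rw [mem_ball, dist_eq_norm] at hv
        rw [mem_ball, dist_zero_right]
        have e : T.starProjection v = T.starProjection (v - z) + x := by
          rw [map_sub, hz, sub_add_cancel]
        rw [e]
        have h1 := norm_add_le (T.starProjection (v - z)) x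
        have h2 := norm_star_le T (v - z)
        linarith

/-- **[BAD]** -/
theorem badStmt {m : ℕ} (hm : 1 ≤ m) : WIN.BadStmt E m := by
  intro Q τ hτ
  obtain ⟨ε, C, hε, hε1, hC, hmain⟩ := bad_skel (E := E) m Q hm (τ := min τ 1)
    (lt_min hτ one_pos)
  refine ⟨ε, C, hε, hC.le, ?_⟩
  intro T w r θ η h ν P hw hwε hr1 hr2 hθ hθ1 hη hηε hI hexc hsup hen
  obtain ⟨Bad, hBm, -, hBμ, hgood⟩ := hmain T w r θ η h ν P hw hwε (by linarith) hr2 hθ hθ1 hη
    (hηε.trans hε1) hI hexc
    (fun y hy hyr => (hsup y hy hyr).trans (by nlinarith)) hen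
  refine ⟨Bad, hBm, hBμ.trans (ENNReal.ofReal_le_ofReal ?_), ?_⟩
  · have h1 : 0 ≤ WIN.eE T w ν P 0 r := by
      refine integral_nonneg_of_ae (ae_restrict_of_ae ?_)
      filter_upwards [ae_pt hI.cyl hw hwε] with y hy using hy.1
    have h2 : 1 ≤ (θ ^ m)⁻¹ := (one_le_inv₀ (by positivity)).2
      (pow_le_one₀ hθ.le (by linarith))
    calc C * η⁻¹ * WIN.eE T w ν P 0 r = C * η⁻¹ * 1 * WIN.eE T w ν P 0 r := by ring
      _ ≤ _ := by gcongr
  · intro x hx hxr hxB
    obtain ⟨h1, h2, h3, h4⟩ := hgood x hx hxr hxB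
    refine ⟨fun t ht hxt => ⟨(h1 t ht hxt.le).1, (h1 t ht hxt.le).2.trans ?_⟩,
      fun t ht ht8 => h3 t ht (by linarith), ?_⟩
    · have : min τ 1 ≤ τ := min_le_left _ _
      gcongr
    · intro z hz hzx hHD t ht htθ y hy hyt
      have hn : 0 ≤ ‖x‖ := norm_nonneg x
      have h5 := h4 z hzx t ht (by linarith) (fun s hs hst => hHD s hs (by rw [hzx]; linarith))
        y hy (by rw [map_sub, hzx]; exact hyt.le)
      have e : FV.co T y - FV.co T z = Tᗮ.starProjection (y - z) := by
        rw [co_eq, map_sub]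
      rw [e]
      refine h5.trans ?_
      have : min τ 1 ≤ 1 := min_le_right _ _
      nlinarith

end Vale.Agent.P214.BADS
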