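import Vale.Agent.P214.REG.Stmts
import Vale.Agent.P214.REF.Cut
import Vale.Agent.P214.REF.Glob

/-!
# P214, section WIN: [RECUT]

All norms of the increment of the reference from the low ones (interior regularity (A')), and cutting
the increment off.
-/

open Metric Filter Topology
open scoped ContDiff

namespace Vale.Agent.P214.WIN

open Vale.Agent.P214.REF

variable {m n : ℕ}

/-- `Mop` is local -/
lemma Mop_congr {u u' : Fin n → REF.E m → ℝ} {x : REF.E m} (h : ∀ b, u b =ᶠ[𝓝 x] u' b)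
    (a : Fin n) : REF.Mop u a x = REF.Mop u' a x := by
  rw [← Qop_cp, ← Qop_cp]
  exact Qop_congr _ h a

/-- derivatives of a cut-off function -/
lemma norm_iter_ctf_mul_le (q : ℕ) : ∃ K : ℝ, 0 ≤ K ∧ ∀ (a b : ℝ), 0 < a → a < b → b ≤ 1 →
    ∀ (f : REF.E m → ℝ), ContDiff ℝ ∞ f → ∀ (x : REF.E m) (Y : ℝ), 0 ≤ Y →
    (∀ j ≤ q, ‖iteratedFDeriv ℝ j f x‖ ≤ Y * (b - a)⁻¹ ^ j) → ∀ k ≤ q,
      ‖iteratedFDeriv ℝ k (fun x => ctf a b x * f x) x‖ ≤ K * Y * (b - a)⁻¹ ^ k := by
  choose B hB0 hB using fun k : ℕ => ctf_bound (m := m) k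
  refine ⟨2 ^ q * ∑ i ∈ Finset.range (q + 1), B i, by
    have : 0 ≤ ∑ i ∈ Finset.range (q + 1), B i := Finset.sum_nonneg fun i _ => hB0 i
    positivity, fun a b ha hab hb f hf x Y hY h k hk => ?_⟩
  set D : ℝ := (b - a)⁻¹ with hD
  have hD0 : 0 ≤ D := inv_nonneg.2 (by linarith)
  set K0 : ℝ := ∑ i ∈ Finset.range (q + 1), B i with hK0
  have hK00 : 0 ≤ K0 := Finset.sum_nonneg fun i _ => hB0 i
  have h1 := norm_iteratedFDeriv_mul_le (𝕜 := ℝ) (N := ∞) (contDiff_ctf (m := m) a b)
    hf x (n := k) (by exact_mod_cast le_top)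
  refine h1.trans ?_
  have h2 : ∀ i ∈ Finset.range (k + 1), (k.choose i : ℝ) * ‖iteratedFDeriv ℝ i (ctf a b) x‖ *
      ‖iteratedFDeriv ℝ (k - i) f x‖ ≤ (k.choose i : ℝ) * (K0 * Y * D ^ k) := by
    intro i hi
    have hik : i ≤ k := Nat.lt_succ_iff.1 (Finset.mem_range.1 hi)
    have h3 : ‖iteratedFDeriv ℝ i (ctf a b) x‖ ≤ K0 * D ^ i := by
      refine (hB i a b ha hab hb x).trans ?_
      have h4 : B i ≤ K0 := Finset.single_le_sum (f := B) (fun i _ => hB0 i)
        (Finset.mem_range.2 (by omega))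
      gcongr
    have h5 := h (k - i) (by omega)
    have h6 : D ^ k = D ^ i * D ^ (k - i) := by
      rw [← pow_add]
      congr 1
      omega
    rw [mul_assoc, h6]
    refine mul_le_mul_of_nonneg_left ?_ (by positivity)
    calc ‖iteratedFDeriv ℝ i (ctf a b) x‖ * ‖iteratedFDeriv ℝ (k - i) f x‖ ≤
        (K0 * D ^ i) * (Y * D ^ (k - i)) := by gcongr
      _ = K0 * Y * (D ^ i * D ^ (k - i)) := by ring
  refine (Finset.sum_le_sum h2).trans ?_
  rw [← Finset.sum_mul]
  have h7 : ∑ i ∈ Finset.range (k + 1), (k.choose i : ℝ) = 2 ^ k := by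
    exact_mod_cast Nat.sum_range_choose k
  rw [h7]
  have h8 : (2 : ℝ) ^ k ≤ 2 ^ q := pow_le_pow_right₀ one_le_two hk
  calc (2 : ℝ) ^ k * (K0 * Y * D ^ k) ≤ 2 ^ q * (K0 * Y * D ^ k) := by gcongr
    _ = 2 ^ q * K0 * Y * D ^ k := by ring

/-- **[RECUT]** -/
theorem recut (m n : ℕ) : RecutStmt m n := by
  obtain ⟨ε0, hε0, hreg⟩ := REG.regDiff m n
  obtain ⟨C1, hC1, hA⟩ := hreg (sW m)
  obtain ⟨K, hK, hcut⟩ := norm_iter_ctf_mul_le (m := m) (sW m)
  set C : ℝ := K * (C1 + 1) + sW m + 1 with hC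
  have hKC : 0 ≤ K * (C1 + 1) := by positivity
  have hC1' : 1 ≤ C := by
    rw [hC]
    have : (0 : ℝ) ≤ sW m := Nat.cast_nonneg _
    linarith
  refine ⟨ε0 / 2, C, by positivity, hC1', fun u u' r θ Z hu hr1 hr2 hθ hθ1 hu' he hZ hZε => ?_⟩
  rcases Nat.eq_zero_or_pos n with hn | hn
  · subst hn
    exact ⟨u', fun a => a.elim0, fun a => a.elim0, fun a => a.elim0, fun a => a.elim0,
      fun a => a.elim0⟩
  have hZ0 : 0 ≤ Z := (norm_nonneg _).trans (hZ ⟨0, hn⟩ 0 (Nat.zero_le _) 0 (by simp; linarith))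
  have hθi : 1 ≤ θ⁻¹ := (one_le_inv₀ hθ).2 (by linarith)
  have hf : ∀ a, ContDiff ℝ ∞ fun x => u' a x - u a x := fun a => (hu' a).sub (hu.smooth a)
  -- the bound of the increment on the smaller ball
  have hin : ∀ a, ∀ x, ‖x‖ ≤ r - θ → ∀ j ≤ sW m,
      ‖iteratedFDeriv ℝ j (fun x => u' a x - u a x) x‖ ≤ (C1 + 1) * Z * θ⁻¹ ^ j := by
    intro a x hx j hj
    have hball : ∀ y : REF.E m, ‖y - x‖ < θ → ‖y‖ < r := fun y hy => by
      calc ‖y‖ = ‖(y - x) + x‖ := by rw [sub_add_cancel]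
        _ ≤ ‖y - x‖ + ‖x‖ := norm_add_le _ _
        _ < θ + (r - θ) := by linarith
        _ = r := by ring
    rcases Nat.eq_zero_or_pos j with hj0 | hj0
    · subst hj0
      have h1 := hZ a 0 (Nat.zero_le _) x (by linarith)
      rw [pow_zero, mul_one]
      nlinarith
    · have h1 := hA u u' x θ Z hθ (by linarith) hu.smooth hu'
        (fun b k _ hk y _ => (hu.small b k (by unfold sW; omega) y).trans (by linarith))
        (fun b k hk1 hk y hy => by
          have h2 : (u' b) = (fun z => u b z) + fun z => (u' b z - u b z) := by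
            funext z
            simp
          have h3 : iteratedFDeriv ℝ k (u' b) y = iteratedFDeriv ℝ k (u b) y +
              iteratedFDeriv ℝ k (fun z => u' b z - u b z) y := by
            conv_lhs => rw [h2]
            exact iteratedFDeriv_add_apply
              ((hu.smooth b).of_le (by exact_mod_cast le_top)).contDiffAt
              ((hf b).of_le (by exact_mod_cast le_top)).contDiffAt
          rw [h3]
          refine (norm_add_le _ _).trans ?_
          have h4 := hu.small b k (by unfold sW; omega) y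
          have h5 := hZ b k hk y (hball y hy)
          linarith)
        (fun b y hy => hu.exact b y (hball y hy)) (fun b y hy => he b y (hball y hy))
        (fun b k _ hk y hy => hZ b k hk y (hball y hy)) a j hj0 hj
      refine h1.trans ?_
      have h6 : 0 ≤ θ⁻¹ ^ j := by positivity
      nlinarith [mul_nonneg hZ0 h6]
  have ha : 0 < r - 2 * θ := by linarith
  have hab : r - 2 * θ < r - θ := by linarith
  have hb : r - θ ≤ 1 := by linarith
  have hba : r - θ - (r - 2 * θ) = θ := by ring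
  have heq : ∀ a x, ‖x‖ < r - 2 * θ → u a x + ctf (r - 2 * θ) (r - θ) x * (u' a x - u a x) =
      u' a x := fun a x hx => by
    rw [ctf_one ha hab hx.le]
    ring
  refine ⟨fun a x => u a x + ctf (r - 2 * θ) (r - θ) x * (u' a x - u a x), fun a =>
    (hu.smooth a).add ((contDiff_ctf _ _).mul (hf a)), fun a x hx => ?_, heq, fun a x hx => ?_,
    fun a k hk x => ?_⟩
  · change u a x + ctf (r - 2 * θ) (r - θ) x * (u' a x - u a x) = u a x
    rw [ctf_zero ha hab (by linarith)]
    ring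
  · rw [Mop_congr (u' := u') (fun b => ?_) a, he a x (by linarith)]
    have h1 : {y : REF.E m | ‖y‖ < r - 2 * θ} ∈ 𝓝 x :=
      (isOpen_lt continuous_norm continuous_const).mem_nhds hx
    filter_upwards [h1] with y hy
    exact heq b y hy
  · have h1 : (fun x => u a x + ctf (r - 2 * θ) (r - θ) x * (u' a x - u a x) - u a x) =
        fun x => ctf (r - 2 * θ) (r - θ) x * (u' a x - u a x) := by
      funext x
      ring
    rw [h1]
    have hpow : θ⁻¹ ^ k ≤ θ⁻¹ ^ C := by
      rw [← Real.rpow_natCast]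
      refine Real.rpow_le_rpow_of_exponent_le hθi ?_
      have : (k : ℝ) ≤ sW m := by exact_mod_cast hk
      rw [hC]
      linarith
    have hpos : 0 ≤ θ⁻¹ ^ k := by positivity
    by_cases hx : ‖x‖ ≤ r - θ
    · have h2 := hcut (r - 2 * θ) (r - θ) ha hab hb (fun x => u' a x - u a x) (hf a) x
        ((C1 + 1) * Z) (by positivity) (fun j hj => by
          rw [hba]
          exact hin a x hx j hj) k hk
      rw [hba] at h2
      refine h2.trans ?_
      have h3 : K * (C1 + 1) ≤ C := by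
        rw [hC]
        have : (0 : ℝ) ≤ sW m := Nat.cast_nonneg _
        linarith
      calc K * ((C1 + 1) * Z) * θ⁻¹ ^ k = (K * (C1 + 1)) * (θ⁻¹ ^ k * Z) := by ring
        _ ≤ C * (θ⁻¹ ^ C * Z) := by gcongr
        _ = C * θ⁻¹ ^ C * Z := by ring
    · have h2 : (fun x => ctf (r - 2 * θ) (r - θ) x * (u' a x - u a x)) =ᶠ[𝓝 x] fun _ => 0 := by
        have h3 : {y : REF.E m | r - θ < ‖y‖} ∈ 𝓝 x :=
          (isOpen_lt continuous_const continuous_norm).mem_nhds (not_le.1 hx)
        filter_upwards [h3] with y hy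
        rw [ctf_zero ha hab (le_of_lt hy), zero_mul]
      have h4 : iteratedFDeriv ℝ k (fun x => ctf (r - 2 * θ) (r - θ) x * (u' a x - u a x)) x =
          0 := by
        rw [(h2.iteratedFDeriv ℝ k).eq_of_nhds, iteratedFDeriv_fun_zero]
        rfl
      rw [h4, norm_zero]
      have : 0 ≤ θ⁻¹ ^ C := hpos.trans hpow
      positivity

end Vale.Agent.P214.WIN
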