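import Vale.Agent.P214.WIN.Cond
import Vale.Agent.P214.WIN.CaccMain
import Vale.Agent.P214.HSW.SupW
import Vale.Agent.P214.KMS.Final

/-!
# P214, section WIN: assembly of STEP
-/

open Set Filter Topology MeasureTheory Metric
open scoped RealInnerProductSpace ENNReal ContDiff

set_option linter.unusedSectionVars false

namespace Vale.Agent.P214.WIN

open Vale.Agent.P214.Skel Vale.Agent.P214.KMS

variable {E : Type*} [NormedAddCommGroup E] [InnerProductSpace ℝ E] [FiniteDimensional ℝ E]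
variable {m n : ℕ} {T : Submodule ℝ E}

lemma Refe.stepMono {u : Fin n → REF.E m → ℝ} {ε ε' r r' : ℝ} (hu : Refe ε r u) (h : ε ≤ ε')
    (hr : r' ≤ r) : Refe ε' r' u :=
  ⟨hu.smooth, hu.supp, fun a k hk x => (hu.small a k hk x).trans h,
    fun a x hx => hu.exact a x (hx.trans_le hr)⟩

lemma Tst.stepMono {K K' : ℕ} {r r' M M' : ℝ} {φ : Fin n → REF.E m → ℝ} (h : Tst K r M φ)
    (hK : K' ≤ K) (hr : r ≤ r') (hM : M ≤ M') : Tst K' r' M' φ :=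
  ⟨h.smooth, fun a x hx => h.supp a x (hr.trans hx), fun a k hk x =>
    (h.bd a k (hk.trans hK) x).trans hM⟩

/-- the recut reference is admissible -/
lemma Refe.recut {u u' : Fin n → REF.E m → ℝ} {ε B r r' : ℝ} (hu : Refe ε r u)
    (hr : r ≤ 3 / 8) (hs : ∀ a, ContDiff ℝ ∞ (u' a)) (h0 : ∀ a x, r ≤ ‖x‖ → u' a x = u a x)
    (hd : ∀ a, ∀ k ≤ sW m, ∀ x, ‖iteratedFDeriv ℝ k (fun x => u' a x - u a x) x‖ ≤ B)
    (hex : ∀ a x, ‖x‖ < r' → REF.Mop u' a x = 0) : Refe (ε + B) r' u' := by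
  refine ⟨hs, fun a x hx => ?_, fun a k hk x => ?_, hex⟩
  · rw [h0 a x (hr.trans hx), hu.supp a x hx]
  · have h1 : u' a = (u a) + fun x => u' a x - u a x := by
      funext x; simp
    have hk' : ((k : ℕ∞) : WithTop ℕ∞) ≤ (∞ : WithTop ℕ∞) := by exact_mod_cast le_top
    have h2 : ContDiffAt ℝ k (u a) x := ((hu.smooth a).of_le hk').contDiffAt
    have h3 : ContDiffAt ℝ k (fun x => u' a x - u a x) x :=
      (((hs a).sub (hu.smooth a)).of_le hk').contDiffAt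
    rw [h1, iteratedFDeriv_add_apply h2 h3]
    exact (norm_add_le _ _).trans (add_le_add (hu.small a k hk x) (hd a k hk x))

variable [MeasurableSpace E] [BorelSpace E] {ν : Measure E} {P : E → E →L[ℝ] E}

/-- an `IntCyl` over a smaller concentric ball, with some mass defect -/
lemma exists_intCyl_sub {Q : ℕ} {R r h δ : ℝ} (hI : IntCyl m Q T 0 R h δ ν P) (hr : 0 < r)
    (hrR : r ≤ R) : ∃ δ' : ℝ, IntCyl m Q T 0 r h δ' ν P := by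
  have hsub : ball (0 : E) r ⊆ ball 0 R := ball_subset_ball hrR
  refine ⟨|ν.real (cylSet T 0 r) - Q * om m * r ^ m| / r ^ m, ?_, hI.mem, hr, ?_, ?_⟩
  · exact FV.CylStat.mono hI.cyl isOpen_ball hsub
  · filter_upwards [hI.int] with y hy hy'
    exact hy (hsub hy')
  · rw [div_mul_cancel₀ _ (by positivity)]

lemma IntCyl_mono_delta {Q : ℕ} {R h δ δ' : ℝ} {z : E} (hI : IntCyl m Q T z R h δ ν P)
    (h' : δ ≤ δ') : IntCyl m Q T z R h δ' ν P :=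
  ⟨hI.cyl, hI.mem, hI.pos, hI.int, hI.mass.trans
    (mul_le_mul_of_nonneg_right h' (pow_nonneg hI.pos.le m))⟩

lemma mass_le_intCyl_step {Q : ℕ} {R h δ r : ℝ} (hI : IntCyl m Q T 0 R h δ ν P) (hrR : r ≤ R) :
    ν.real (cylSet T 0 r) ≤ (Q * om m + δ) * R ^ m := by
  have := hI.cyl.fin
  have h1 : ν.real (cylSet T 0 r) ≤ ν.real (cylSet T 0 R) :=
    measureReal_mono (fun y hy => ball_subset_ball hrR hy)
  have h2 := (abs_le.1 hI.mass).2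
  linarith

/-- comparison of the heights of two references -/
lemma hE_le {F : Frame m n T} {u u' : Fin n → REF.E m → ℝ} {r r' h R B M0 : ℝ}
    (hC : FV.CylStat m T (ball 0 R) h ν P) (hrR : r ≤ R) (hr' : r' ≤ r) (hB0 : 0 ≤ B)
    (hus : ∀ a, ContDiff ℝ ∞ (u a)) (hus' : ∀ a, ContDiff ℝ ∞ (u' a)) {K : ℝ}
    (hb : ∀ y, ‖F.lift u y‖ ≤ K)
    (hd : ∀ a x, |u' a x - u a x| ≤ B) (hM : ν.real (cylSet T 0 r) ≤ M0) :
    hE T (F.lift u') ν r' ≤ 2 * hE T (F.lift u) ν r + 2 * (n * B) ^ 2 * M0 := by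
  have hfin := hC.fin
  have hdiff : ∀ y, ‖F.lift u y - F.lift u' y‖ ≤ n * B := by
    intro y
    have h1 : F.lift u y - F.lift u' y =
        ∑ a, (u a (F.xc y) - u' a (F.xc y)) • ((F.bN a : Tᗮ) : E) := by
      unfold Frame.lift
      rw [← Finset.sum_sub_distrib]
      exact Finset.sum_congr rfl fun a _ => (sub_smul _ _ _).symm
    rw [h1]
    refine (norm_sum_le _ _).trans ?_
    calc _ ≤ ∑ _a : Fin n, B := by
          refine Finset.sum_le_sum fun a _ => ?_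
          rw [norm_smul, KMS.norm_bN, mul_one, Real.norm_eq_abs, abs_sub_comm]
          exact hd a _
      _ = _ := by simp
  have hb' : ∀ y, ‖F.lift u' y‖ ≤ K + n * B := by
    intro y
    have h1 : F.lift u' y = F.lift u y - (F.lift u y - F.lift u' y) := by abel
    rw [h1]
    exact (norm_sub_le _ _).trans (add_le_add (hb y) (hdiff y))
  have i1 := HSW.integrableOn_rel_sq' (z := (0 : E)) (R := r) hC (KMS.ref_lift (F := F) hus) hb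
    (ball_subset_ball hrR)
  have i2 := HSW.integrableOn_rel_sq' (z := (0 : E)) (R := r) hC (KMS.ref_lift (F := F) hus') hb'
    (ball_subset_ball hrR)
  have hmono : hE T (F.lift u') ν r' ≤ hE T (F.lift u') ν r := by
    refine setIntegral_mono_set i2 (Eventually.of_forall fun _ => sq_nonneg _)
      (Eventually.of_forall fun y' hy' => ?_)
    exact ball_subset_ball hr' hy'
  refine hmono.trans ?_
  have hpt : ∀ y, ‖rel T (F.lift u') y‖ ^ 2 ≤ 2 * ‖rel T (F.lift u) y‖ ^ 2 + 2 * (n * B) ^ 2 := by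
    intro y
    have h1 : rel T (F.lift u') y = rel T (F.lift u) y + (F.lift u y - F.lift u' y) := by
      unfold rel; abel
    have h2 : ‖rel T (F.lift u') y‖ ≤ ‖rel T (F.lift u) y‖ + n * B := by
      rw [h1]
      exact (norm_add_le _ _).trans (add_le_add_right (hdiff y) _)
    have h3 := norm_nonneg (rel T (F.lift u') y)
    have h4 := norm_nonneg (rel T (F.lift u) y)
    have h5 : 0 ≤ n * B := by positivity
    calc ‖rel T (F.lift u') y‖ ^ 2 ≤ (‖rel T (F.lift u) y‖ + n * B) ^ 2 := by gcongr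
      _ ≤ _ := by nlinarith [sq_nonneg (‖rel T (F.lift u) y‖ - n * B)]
  calc hE T (F.lift u') ν r
      ≤ ∫ y in cylSet T 0 r, (2 * ‖rel T (F.lift u) y‖ ^ 2 + 2 * (n * B) ^ 2) ∂ν :=
        integral_mono i2 ((i1.const_mul 2).add (integrable_const _)) hpt
    _ = 2 * hE T (F.lift u) ν r + 2 * (n * B) ^ 2 * ν.real (cylSet T 0 r) := by
        rw [integral_add (i1.const_mul 2) (integrable_const _), integral_const_mul,
          integral_const, measureReal_restrict_apply_univ, smul_eq_mul, mul_comm (ν.real _)]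
        rfl
    _ ≤ _ := by
        have : 0 ≤ 2 * (n * B) ^ 2 := by positivity
        have := mul_le_mul_of_nonneg_left hM this
        linarith

/-- one component as a vector test function -/
lemma tst_single {K : ℕ} {r M : ℝ} {φ : REF.E m → ℝ} (a : Fin n) (hs : ContDiff ℝ ∞ φ)
    (h0 : ∀ x, r ≤ ‖x‖ → φ x = 0) (hb : ∀ k ≤ K, ∀ x, ‖iteratedFDeriv ℝ k φ x‖ ≤ M) (hM : 0 ≤ M) :
    Tst K r M (fun b => if b = a then φ else fun _ => 0) := by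
  refine ⟨fun b => ?_, fun b x hx => ?_, fun b k hk x => ?_⟩
  · by_cases h : b = a
    · simp only [if_pos h]; exact hs
    · simp only [if_neg h]; exact contDiff_const
  · by_cases h : b = a
    · simp only [if_pos h]; exact h0 x hx
    · simp only [if_neg h]
  · by_cases h : b = a
    · simp only [if_pos h]; exact hb k hk x
    · simp only [if_neg h]
      have : iteratedFDeriv ℝ k (fun _ : REF.E m => (0:ℝ)) = 0 := by
        exact iteratedFDeriv_fun_zero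
      rw [this]
      simpa using hM

lemma sum_single_ht (F : Frame m n T) (u : Fin n → REF.E m → ℝ) (φ : REF.E m → ℝ) (a : Fin n)
    (y : E) : ∑ b, (fun b => if b = a then φ else fun _ => 0) b (F.xc y) * F.ht u b y =
      φ (F.xc y) * F.ht u a y := by
  rw [Finset.sum_eq_single a]
  · simp
  · intro b _ hb
    simp [hb]
  · intro h
    exact absurd (Finset.mem_univ a) h

/-- in codimension zero the height vanishes -/
lemma pos_of_hE (F : Frame m n T) {u : Fin n → REF.E m → ℝ} (hu : ∀ a, ContDiff ℝ ∞ (u a)) {r : ℝ}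
    (h : 0 < hE T (F.lift u) ν r) : 0 < n := by
  by_contra hn
  have hn' : n = 0 := by omega
  subst hn'
  have h1 : ∀ y, rel T (F.lift u) y = 0 := by
    intro y
    rw [KMS.sum_bN F ((KMS.ref_lift (F := F) hu).rel_mem y)]
    simp
  have h2 : hE T (F.lift u) ν r = 0 := by
    unfold hE
    simp [h1]
  linarith

/-! ### bodies of the ingredients, with fixed constants -/

/-- body of `S1Stmt` -/
def S1Body (E : Type*) [NormedAddCommGroup E] [InnerProductSpace ℝ E] [FiniteDimensional ℝ E]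
    [MeasurableSpace E] [BorelSpace E] (m n Q : ℕ) (ε C : ℝ) : Prop :=
  ∀ (T : Submodule ℝ E) (F : Frame m n T)
    (u : Fin n → REF.E m → ℝ) (r θ h H : ℝ) (ν : Measure E) (P : E → E →L[ℝ] E), Refe ε r u →
    3 / 32 ≤ r → r ≤ 3 / 16 → 0 < θ → θ ≤ 1 / 640 → h ≤ ε → Skel.IntCyl m Q T 0 (3 / 8) h ε ν P →
    Skel.exc T ν P 0 (3 / 8) ≤ ε → H = hE T (F.lift u) ν r → C * θ⁻¹ ^ C * √H ≤ ε →
    (∀ (ψ : REF.E m → ℝ) (M : ℝ), Continuous ψ → (∀ x, r - 8 * θ ≤ ‖x‖ → ψ x = 0) →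
      (∀ x, |ψ x| ≤ M) →
      |∫ y, ψ (F.xc y) ∂ν - Q * ∫ x, ψ x * √(REF.gm u x).det ∂μH[m]| ≤ C * θ⁻¹ ^ C * √H * M) ∧
    ∃ u' : Fin n → REF.E m → ℝ, (∀ a, ContDiff ℝ ∞ (u' a)) ∧
      (∀ a, ∀ k ≤ 2 * m + 1, ∀ x, ‖x‖ < r - 8 * θ →
        ‖iteratedFDeriv ℝ k (fun x => u' a x - u a x) x‖ ≤ C * θ⁻¹ ^ C * √H) ∧
      (∀ a x, ‖x‖ < r - 8 * θ → REF.Mop u' a x = 0) ∧
      ∀ (φ : Fin n → REF.E m → ℝ) (M : ℝ), Tst (sW m) (r - 8 * θ) M φ →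
        |∫ y, ∑ a, φ a (F.xc y) * F.ht u' a y ∂ν| ≤ C * θ⁻¹ ^ C * H * M

/-- body of `RecutStmt` -/
def RecutBody (m n : ℕ) (ε C : ℝ) : Prop :=
  ∀ (u u' : Fin n → REF.E m → ℝ) (r θ Z : ℝ), Refe ε r u →
    1 / 16 ≤ r → r ≤ 3 / 16 → 0 < θ → θ ≤ 1 / 640 → (∀ a, ContDiff ℝ ∞ (u' a)) →
    (∀ a x, ‖x‖ < r → REF.Mop u' a x = 0) →
    (∀ a, ∀ k ≤ 2 * m + 1, ∀ x, ‖x‖ < r →
      ‖iteratedFDeriv ℝ k (fun x => u' a x - u a x) x‖ ≤ Z) → Z ≤ ε →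
    ∃ u'' : Fin n → REF.E m → ℝ, (∀ a, ContDiff ℝ ∞ (u'' a)) ∧
      (∀ a x, r ≤ ‖x‖ → u'' a x = u a x) ∧ (∀ a x, ‖x‖ < r - 2 * θ → u'' a x = u' a x) ∧
      (∀ a x, ‖x‖ < r - 2 * θ → REF.Mop u'' a x = 0) ∧
      ∀ a, ∀ k ≤ sW m, ∀ x,
        ‖iteratedFDeriv ℝ k (fun x => u'' a x - u a x) x‖ ≤ C * θ⁻¹ ^ C * Z

/-- body of `CaccStmt` -/
def CaccBody (E : Type*) [NormedAddCommGroup E] [InnerProductSpace ℝ E] [FiniteDimensional ℝ E]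
    [MeasurableSpace E] [BorelSpace E] (m n : ℕ) (ε C : ℝ) : Prop :=
  ∀ (T : Submodule ℝ E) (F : Frame m n T) (u : Fin n → REF.E m → ℝ)
    (r θ h : ℝ) (ν : Measure E) (P : E → E →L[ℝ] E), Refe ε r u → r ≤ 3 / 16 → 0 < θ → θ < r →
    FV.CylStat m T (ball 0 r) h ν P →
      eE T (F.lift u) ν P 0 (r - θ) ≤ C * θ⁻¹ ^ 2 * hE T (F.lift u) ν r

/-- body of `SupStmt` -/
def SupBody (E : Type*) [NormedAddCommGroup E] [InnerProductSpace ℝ E] [FiniteDimensional ℝ E]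
    [MeasurableSpace E] [BorelSpace E] (m n : ℕ) (ε C : ℝ) : Prop :=
  ∀ (T : Submodule ℝ E) (F : Frame m n T) (u : Fin n → REF.E m → ℝ)
    (Q : ℕ) (r θ h δ : ℝ) (ν : Measure E) (P : E → E →L[ℝ] E), Refe ε r u → r ≤ 3 / 16 → 0 < θ →
    θ < r → Skel.IntCyl m Q T 0 r h δ ν P →
      ∀ y ∈ ν.support, ‖T.starProjection y‖ ≤ r - θ →
        ‖KMS.rel T (F.lift u) y‖ ^ 2 ≤ C * θ⁻¹ ^ m * hE T (F.lift u) ν r

/-- body of `PointsStmt` -/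
def PointsBody (E : Type*) [NormedAddCommGroup E] [InnerProductSpace ℝ E] [FiniteDimensional ℝ E]
    [MeasurableSpace E] [BorelSpace E] (m n : ℕ) (ε C : ℝ) : Prop :=
  ∀ (T : Submodule ℝ E) (F : Frame m n T) (u : Fin n → REF.E m → ℝ)
    (Q : ℕ) (r ρ t h δ M η σ : ℝ) (ν : Measure E) (P : E → E →L[ℝ] E) (z : E), Refe ε r u →
    r ≤ 3 / 16 → 0 < t → t ≤ ρ → Skel.IntCyl m Q T 0 (3 / 8) h δ ν P → z ∈ ν.support →
    ‖T.starProjection z‖ + 2 * ρ < r → 1 ≤ M → 0 ≤ η → η ≤ 1 →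
    (∀ s, t ≤ s → s ≤ ρ → ν.real (Skel.cylSet T (T.starProjection z) s) ≤ M * s ^ m) →
    (∀ s, t ≤ s → s ≤ ρ → eE T (F.lift u) ν P (T.starProjection z) s ≤ η * s ^ m) →
    (∀ y ∈ ν.support, ‖T.starProjection y - T.starProjection z‖ < t →
      ‖FV.co T y - FV.co T z‖ ≤ t) →
    (∀ y ∈ ν.support, ‖T.starProjection y - T.starProjection z‖ < ρ →
      ‖KMS.rel T (F.lift u) y‖ ≤ σ) →
    ∃ φ : REF.E m → ℝ, ContDiff ℝ ∞ φ ∧ (∀ x, ρ ≤ ‖x - F.xc z‖ → φ x = 0) ∧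
      (∀ k ≤ sW m, ∀ x, ‖iteratedFDeriv ℝ k φ x‖ ≤ C * ρ⁻¹ ^ (m + k)) ∧
      ‖KMS.rel T (F.lift u) z‖ ≤ C * M * (t + ρ ^ 2 * (σ + √η) + σ * √η * Real.log (ρ / t)
        + ∑ a, |∫ y, φ (F.xc y) * F.ht u a y ∂ν|)

/-- body of `BadStmt` -/
def BadBody (E : Type*) [NormedAddCommGroup E] [InnerProductSpace ℝ E] [FiniteDimensional ℝ E]
    [MeasurableSpace E] [BorelSpace E] (m Q : ℕ) (τ ε C : ℝ) : Prop :=
  ∀ (T : Submodule ℝ E) (w : E → E)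
    (r θ η h : ℝ) (ν : Measure E) (P : E → E →L[ℝ] E), KMS.Ref T w →
    (∀ y, ‖fderiv ℝ w y‖ ≤ ε) → 1 / 16 ≤ r → r ≤ 3 / 16 → 0 < θ → θ ≤ 1 / 640 → 0 < η → η ≤ ε →
    Skel.IntCyl m Q T 0 (3 / 8) h ε ν P → Skel.exc T ν P 0 (3 / 8) ≤ ε →
    (∀ y ∈ ν.support, ‖T.starProjection y‖ < r → ‖KMS.rel T w y‖ ≤ ε * θ) →
    eE T w ν P 0 r ≤ ε * θ ^ m →
    ∃ Bad : Set E, MeasurableSet Bad ∧
      μH[m] (Bad ∩ (T : Set E)) + ν (T.starProjection ⁻¹' Bad)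
        ≤ ENNReal.ofReal (C * η⁻¹ * (θ ^ m)⁻¹ * eE T w ν P 0 r) ∧
      ∀ x ∈ T, ‖x‖ < r - θ → x ∉ Bad →
        (∀ t, 0 < t → ‖x‖ + t < r → ν.real (Skel.cylSet T x t) ≤ C * t ^ m ∧
          Skel.exc T ν P x t ≤ τ * t ^ m) ∧
        (∀ t, 0 < t → t ≤ θ / 8 → eE T w ν P x t ≤ η * t ^ m) ∧
        ∀ z ∈ ν.support, T.starProjection z = x → HighD m Q T ν (3 / 16) z → ∀ t, 0 < t →
          t ≤ θ / 32 → ∀ y ∈ ν.support, ‖T.starProjection y - x‖ < t → ‖FV.co T y - FV.co T z‖ ≤ t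

variable {C1 C2 C3 C4 C5 C6 M0 M ε ε' c0 c1 c3 p H r h θ₀ : ℝ} {Q : ℕ} {F : Frame m n T}
  {u u'' : Fin n → REF.E m → ℝ}

/-- part 1: the new reference -/
lemma part1 {ε1 ε2 : ℝ} (S1 : S1Body E m n Q ε1 C1) (RC : RecutBody m n ε2 C2) (hC1 : 0 ≤ C1)
    (hC2 : 0 ≤ C2) (A : CondA m n C1 C2 C4 C5 M0 ε' c1 p H) (hε1 : ε' ≤ ε1) (hε2 : ε' ≤ ε2)
    (hu : Refe ε1 r u) (hu' : Refe ε2 r u) (hr1 : 3 / 32 ≤ r)
    (hr2 : r ≤ 3 / 16) (hθ0pos : 0 < θ₀) (hθ0le' : θ₀ ≤ 1 / 640) (hHθ : H ^ c1 / 16 ≤ θ₀)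
    (hh : h ≤ ε1) (hI : IntCyl m Q T 0 (3 / 8) h ε1 ν P) (hex : exc T ν P 0 (3 / 8) ≤ ε1)
    (hH : H = hE T (F.lift u) ν r) (hH0 : 0 < H) :
    (∀ (ψ : REF.E m → ℝ) (M : ℝ), Continuous ψ → (∀ x, r - 8 * θ₀ ≤ ‖x‖ → ψ x = 0) →
      (∀ x, |ψ x| ≤ M) →
      |∫ y, ψ (F.xc y) ∂ν - Q * ∫ x, ψ x * √(REF.gm u x).det ∂μH[m]| ≤ H ^ (1 / 2 - p) * M) ∧
    ∃ u'' : Fin n → REF.E m → ℝ, (∀ a, ContDiff ℝ ∞ (u'' a)) ∧
      (∀ a x, r ≤ ‖x‖ → u'' a x = u a x) ∧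
      (∀ a, ∀ k ≤ sW m, ∀ x,
        ‖iteratedFDeriv ℝ k (fun x => u'' a x - u a x) x‖ ≤ H ^ (1 / 2 - p)) ∧
      (∀ a x, ‖x‖ < r - 10 * θ₀ → REF.Mop u'' a x = 0) ∧
      (∀ (φ : Fin n → REF.E m → ℝ) (M : ℝ), 0 ≤ M → Tst (sW m) (r - 10 * θ₀) M φ →
        |∫ y, ∑ a, φ a (F.xc y) * F.ht u'' a y ∂ν| ≤ H ^ (1 - p) * M) := by
  have hHc : 0 < H ^ c1 := Real.rpow_pos_of_pos hH0 _
  have hinv : θ₀⁻¹ ≤ (H ^ c1 / 16)⁻¹ := inv_anti₀ (by positivity) hHθ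
  have hinvr : ∀ C : ℝ, 0 ≤ C → θ₀⁻¹ ^ C ≤ (H ^ c1 / 16)⁻¹ ^ C := fun C hC =>
    Real.rpow_le_rpow (by positivity) hinv hC
  have hZ1 : C1 * θ₀⁻¹ ^ C1 * √H ≤ C1 * (H ^ c1 / 16)⁻¹ ^ C1 * √H :=
    mul_le_mul_of_nonneg_right (mul_le_mul_of_nonneg_left (hinvr C1 hC1) hC1) (Real.sqrt_nonneg _)
  obtain ⟨hW0, u', hu's, hu'd, hu'ex, hu'w⟩ := S1 T F u r θ₀ h H ν P hu hr1 hr2 hθ0pos hθ0le'
    hh hI hex hH (hZ1.trans (A.a1.trans hε1))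
  obtain ⟨u'', hs, h0, heq, hex'', hd⟩ := RC u u' (r - 8 * θ₀) θ₀ (C1 * θ₀⁻¹ ^ C1 * √H)
    (hu'.stepMono le_rfl (by linarith)) (by linarith) (by linarith) hθ0pos
    hθ0le' hu's hu'ex hu'd (hZ1.trans (A.a1.trans hε2))
  refine ⟨fun ψ M hψ hψ0 hψM => (hW0 ψ M hψ hψ0 hψM).trans (mul_le_mul_of_nonneg_right
    (hZ1.trans A.a2') ((abs_nonneg _).trans (hψM 0))), u'', hs, fun a x hx => h0 a x (by linarith),
    fun a k hk x => (hd a k hk x).trans (le_trans ?_ A.a2),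
    fun a x hx => hex'' a x (by linarith), ?_⟩
  · have h1 := hinvr C2 hC2
    have h2 : 0 ≤ C1 * θ₀⁻¹ ^ C1 * √H := by positivity
    exact mul_le_mul (mul_le_mul_of_nonneg_left h1 hC2) hZ1 h2 (by positivity)
  · intro φ M' hM' hφ
    have h1 : ∀ y, ∑ a, φ a (F.xc y) * F.ht u'' a y = ∑ a, φ a (F.xc y) * F.ht u' a y := by
      intro y
      refine Finset.sum_congr rfl fun a _ => ?_
      by_cases hy : ‖F.xc y‖ < r - 10 * θ₀
      · unfold Frame.ht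
        rw [heq a _ (by linarith)]
      · rw [hφ.supp a _ (by linarith), zero_mul, zero_mul]
    simp only [h1]
    refine (hu'w φ M' (hφ.stepMono le_rfl (by linarith) le_rfl)).trans ?_
    refine mul_le_mul_of_nonneg_right (le_trans ?_ A.a4) hM'
    exact mul_le_mul_of_nonneg_right (mul_le_mul_of_nonneg_left (hinvr C1 hC1) hC1) hH0.le

/-- part 2a: the height with respect to the new reference -/
lemma part2a (A : CondA m n C1 C2 C4 C5 M0 ε' c1 p H) (hεn : n * ε ≤ 1) (hu : Refe ε r u)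
    (hr2 : r ≤ 3 / 16) (hθ0pos : 0 < θ₀) (hI : IntCyl m Q T 0 (3 / 8) h ε ν P) (hε1 : ε ≤ 1)
    (hM0 : M0 = (Q * om m + 1) * (3 / 8) ^ m)
    (hH : H = hE T (F.lift u) ν r) (hH0 : 0 < H) (hs : ∀ a, ContDiff ℝ ∞ (u'' a))
    (hd : ∀ a, ∀ k ≤ sW m, ∀ x,
        ‖iteratedFDeriv ℝ k (fun x => u'' a x - u a x) x‖ ≤ H ^ (1 / 2 - p)) :
    hE T (F.lift u'') ν (r - 10 * θ₀) ≤ H ^ (1 - 3 * p) := by
  have hB0 : 0 ≤ H ^ (1 / 2 - p) := Real.rpow_nonneg hH0.le _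
  have h1 := hE_le (F := F) (u := u) (u' := u'') (r := r) (r' := r - 10 * θ₀) (h := h)
    (R := 3 / 8) (B := H ^ (1 / 2 - p)) (M0 := M0) (K := 1) (hI.cyl) (by linarith) (by linarith)
    hB0 hu.smooth hs (fun y => (HSW.lift_bounds F hu hεn y).1)
    (fun a x => by
      have h2 := hd a 0 (Nat.zero_le _) x
      rwa [norm_iteratedFDeriv_zero, Real.norm_eq_abs] at h2)
    (by
      have := mass_le_intCyl_step (r := r) hI (by linarith)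
      refine this.trans ?_
      rw [hM0]
      gcongr)
  refine h1.trans ?_
  rw [← hH]
  exact A.a5

/-- part 2b: energy of the new reference -/
lemma part2b (CA : CaccBody E m n ε C4) (hC4 : 0 ≤ C4)
    (A : CondA m n C1 C2 C4 C5 M0 ε' c1 p H) (hu2 : Refe ε (r - 10 * θ₀) u'') (hr1 : 3 / 32 ≤ r)
    (hr2 : r ≤ 3 / 16) (hθ0pos : 0 < θ₀) (hθ0le' : θ₀ ≤ 1 / 640) (hHθ : H ^ c1 / 16 ≤ θ₀) {δ : ℝ}
    (hI : IntCyl m Q T 0 (3 / 8) h δ ν P) (hH0 : 0 < H)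
    (hE : hE T (F.lift u'') ν (r - 10 * θ₀) ≤ H ^ (1 - 3 * p)) :
    eE T (F.lift u'') ν P 0 (r - 10 * θ₀ - θ₀) ≤ H ^ (1 - 6 * p) := by
  have hHc : 0 < H ^ c1 := Real.rpow_pos_of_pos hH0 _
  have hinv : θ₀⁻¹ ≤ (H ^ c1 / 16)⁻¹ := inv_anti₀ (by positivity) hHθ
  have hinvn : θ₀⁻¹ ^ 2 ≤ (H ^ c1 / 16)⁻¹ ^ 2 := pow_le_pow_left₀ (by positivity) hinv 2
  have hH3 : 0 ≤ H ^ (1 - 3 * p) := Real.rpow_nonneg hH0.le _
  have hrθ : θ₀ < r - 10 * θ₀ := by linarith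
  have hr2' : r - 10 * θ₀ ≤ 3 / 16 := by linarith
  have hr2'' : r - 10 * θ₀ ≤ 3 / 8 := by linarith
  refine (CA T F u'' (r - 10 * θ₀) θ₀ h ν P hu2 hr2' hθ0pos hrθ (FV.CylStat.mono hI.cyl
    isOpen_ball (ball_subset_ball hr2''))).trans (le_trans ?_ A.a6)
  refine (mul_le_mul_of_nonneg_left hE (by positivity)).trans ?_
  exact mul_le_mul_of_nonneg_right (mul_le_mul_of_nonneg_left hinvn hC4) hH3

/-- part 2b': sup bound of the new reference -/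
lemma part2b' (SU : SupBody E m n ε C5) (hC5 : 0 ≤ C5)
    (A : CondA m n C1 C2 C4 C5 M0 ε' c1 p H) (hu2 : Refe ε (r - 10 * θ₀) u'') (hr1 : 3 / 32 ≤ r)
    (hr2 : r ≤ 3 / 16) (hθ0pos : 0 < θ₀) (hθ0le' : θ₀ ≤ 1 / 640) (hHθ : H ^ c1 / 16 ≤ θ₀) {δ : ℝ}
    (hI : IntCyl m Q T 0 (3 / 8) h δ ν P) (hH0 : 0 < H)
    (hE : hE T (F.lift u'') ν (r - 10 * θ₀) ≤ H ^ (1 - 3 * p)) :
    ∀ y ∈ ν.support, ‖T.starProjection y‖ ≤ r - 10 * θ₀ - θ₀ →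
      ‖rel T (F.lift u'') y‖ ≤ H ^ (1 / 2 - 3 * p) := by
  have hHc : 0 < H ^ c1 := Real.rpow_pos_of_pos hH0 _
  have hinv : θ₀⁻¹ ≤ (H ^ c1 / 16)⁻¹ := inv_anti₀ (by positivity) hHθ
  have hinvn : θ₀⁻¹ ^ m ≤ (H ^ c1 / 16)⁻¹ ^ m := pow_le_pow_left₀ (by positivity) hinv m
  have hH3 : 0 ≤ H ^ (1 - 3 * p) := Real.rpow_nonneg hH0.le _
  have hrθ : θ₀ < r - 10 * θ₀ := by linarith
  have hr2' : r - 10 * θ₀ ≤ 3 / 16 := by linarith
  have hr2'' : r - 10 * θ₀ ≤ 3 / 8 := by linarith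
  obtain ⟨δ', hI2⟩ := exists_intCyl_sub (r := r - 10 * θ₀) hI (hθ0pos.trans hrθ) hr2''
  have hσ0 : 0 ≤ H ^ (1 / 2 - 3 * p) := Real.rpow_nonneg hH0.le _
  intro y hy hyr
  have h1 := SU T F u'' Q (r - 10 * θ₀) θ₀ h δ' ν P hu2 hr2' hθ0pos hrθ hI2 y hy hyr
  have h2 : ‖rel T (F.lift u'') y‖ ^ 2 ≤ (H ^ (1 / 2 - 3 * p)) ^ 2 := by
    refine h1.trans (le_trans ?_ A.a7)
    refine (mul_le_mul_of_nonneg_left hE (by positivity)).trans ?_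
    exact mul_le_mul_of_nonneg_right (mul_le_mul_of_nonneg_left hinvn hC5) hH3
  exact (pow_le_pow_iff_left₀ (norm_nonneg _) hσ0 two_ne_zero).1 h2

/-- part 2c: the bad set -/
lemma part2c {τ : ℝ} (BA : BadBody E m Q τ ε C3) (hC3 : 0 ≤ C3)
    (B : CondB m n C3 C6 M ε' c0 c1 c3 p H)
    (hε'0 : 0 < ε') (hε' : ε' ≤ ε) (hu2 : Refe (2 * ε') (r - 10 * θ₀) u'')
    (hnε : n * (2 * ε') ≤ ε) (hr1 : 3 / 32 ≤ r) (hr2 : r ≤ 3 / 16) (hθ0pos : 0 < θ₀)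
    (hθ0le' : θ₀ ≤ 1 / 640) (hHθ : H ^ c1 / 16 ≤ θ₀) (hI : IntCyl m Q T 0 (3 / 8) h ε ν P)
    (hex : exc T ν P 0 (3 / 8) ≤ ε) (hH0 : 0 < H)
    (heE : eE T (F.lift u'') ν P 0 (r - 10 * θ₀ - θ₀) ≤ H ^ (1 - 6 * p))
    (hsup : ∀ y ∈ ν.support, ‖T.starProjection y‖ ≤ r - 10 * θ₀ - θ₀ →
      ‖rel T (F.lift u'') y‖ ≤ H ^ (1 / 2 - 3 * p)) :
    ∃ Bad : Set E, MeasurableSet Bad ∧
      μH[m] (Bad ∩ (T : Set E)) + ν (T.starProjection ⁻¹' Bad) ≤ ENNReal.ofReal (H ^ c0) ∧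
      ∀ x ∈ T, ‖x‖ < r - 10 * θ₀ - θ₀ - θ₀ → x ∉ Bad →
        (∀ t, 0 < t → ‖x‖ + t < r - 10 * θ₀ - θ₀ → ν.real (Skel.cylSet T x t) ≤ C3 * t ^ m ∧
          Skel.exc T ν P x t ≤ τ * t ^ m) ∧
        (∀ t, 0 < t → t ≤ θ₀ / 8 → eE T (F.lift u'') ν P x t ≤ H ^ (1 - c3) * t ^ m) ∧
        ∀ z ∈ ν.support, T.starProjection z = x → HighD m Q T ν (3 / 16) z → ∀ t, 0 < t →
          t ≤ θ₀ / 32 → ∀ y ∈ ν.support, ‖T.starProjection y - x‖ < t →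
            ‖FV.co T y - FV.co T z‖ ≤ t := by
  have hHc : 0 < H ^ c1 := Real.rpow_pos_of_pos hH0 _
  have hη0 : 0 < H ^ (1 - c3) := Real.rpow_pos_of_pos hH0 _
  have hεε : ε' * (H ^ c1 / 16) ≤ ε * θ₀ :=
    mul_le_mul hε' hHθ (by positivity) (hε'0.le.trans hε')
  have hεε' : ε' * (H ^ c1 / 16) ^ m ≤ ε * θ₀ ^ m :=
    mul_le_mul hε' (pow_le_pow_left₀ (by positivity) hHθ m) (by positivity) (hε'0.le.trans hε')
  have h16 : 1 / 16 ≤ r - 10 * θ₀ - θ₀ := by linarith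
  have h16' : r - 10 * θ₀ - θ₀ ≤ 3 / 16 := by linarith
  obtain ⟨Bad, hBm, hBμ, hBx⟩ := BA T (F.lift u'') (r - 10 * θ₀ - θ₀) θ₀ (H ^ (1 - c3)) h ν P
    (KMS.ref_lift hu2.smooth) (fun y => (hu2.fderiv_le y).trans hnε) h16
    h16' hθ0pos hθ0le' hη0 (B.a11.trans hε') hI hex
    (fun y hy hyr => (hsup y hy hyr.le).trans (B.a8.trans hεε))
    (heE.trans (B.a9.trans hεε'))
  refine ⟨Bad, hBm, hBμ.trans (ENNReal.ofReal_le_ofReal (le_trans ?_ B.a10)), hBx⟩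
  have h1 : (θ₀ ^ m)⁻¹ ≤ ((H ^ c1 / 16) ^ m)⁻¹ :=
    inv_anti₀ (by positivity) (pow_le_pow_left₀ (by positivity) hHθ m)
  have h2 : 0 ≤ eE T (F.lift u'') ν P 0 (r - 10 * θ₀ - θ₀) := by
    refine integral_nonneg_of_ae (ae_restrict_of_ae ?_)
    filter_upwards [hI.cyl.proj] with y hy
    obtain ⟨S, _, hS⟩ := hy
    rw [hS]
    exact FV.gsq_nonneg _ _ _
  exact mul_le_mul (mul_le_mul_of_nonneg_left h1 (by positivity)) heE h2 (by positivity)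

/-- part 3: the points -/
lemma part3 (PO : PointsBody E m n ε C6) (hC6 : 0 < C6) (hM1 : 1 ≤ M) (hMC : C3 ≤ M)
    (hone : H ≤ 1) (B : CondB m n C3 C6 M ε' c0 c1 c3 p H)
    (hε1 : ε' ≤ 1) (hu2 : Refe ε (r - 10 * θ₀) u'')
    (hr2 : r ≤ 3 / 16) (hθ0pos : 0 < θ₀)
    (hθ0le' : θ₀ ≤ 1 / 640) (hHθ : H ^ c1 / 16 ≤ θ₀) {δ : ℝ}
    (hI : IntCyl m Q T 0 (3 / 8) h δ ν P) (hH0 : 0 < H)
    (hw2 : ∀ (φ : Fin n → REF.E m → ℝ) (M : ℝ), 0 ≤ M → Tst (sW m) (r - 10 * θ₀) M φ →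
        |∫ y, ∑ a, φ a (F.xc y) * F.ht u'' a y ∂ν| ≤ H ^ (1 - p) * M)
    (hsup : ∀ y ∈ ν.support, ‖T.starProjection y‖ ≤ r - 10 * θ₀ - θ₀ →
      ‖rel T (F.lift u'') y‖ ≤ H ^ (1 / 2 - 3 * p)) {z : E} (hz : z ∈ ν.support)
    (hzr : ‖T.starProjection z‖ < r - 12 * θ₀)
    (b1 : ∀ t, 0 < t → ‖T.starProjection z‖ + t < r - 10 * θ₀ - θ₀ →
      ν.real (Skel.cylSet T (T.starProjection z) t) ≤ C3 * t ^ m)
    (b2 : ∀ t, 0 < t → t ≤ θ₀ / 8 →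
      eE T (F.lift u'') ν P (T.starProjection z) t ≤ H ^ (1 - c3) * t ^ m)
    (b3 : ∀ t, 0 < t → t ≤ θ₀ / 32 → ∀ y ∈ ν.support,
      ‖T.starProjection y - T.starProjection z‖ < t → ‖FV.co T y - FV.co T z‖ ≤ t) :
    ‖rel T (F.lift u'') z‖ ≤ H ^ (1 / 2 + c0) := by
  set x := T.starProjection z with hx
  have hρ0 : 0 < H ^ c3 := Real.rpow_pos_of_pos hH0 _
  have ht0 : 0 < H ^ (1 / 2 + c3) := Real.rpow_pos_of_pos hH0 _
  have htρ : H ^ (1 / 2 + c3) ≤ H ^ c3 := rpow_anti hH0 hone (by linarith)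
  have hρθ : H ^ c3 ≤ θ₀ / 64 := B.a12.trans (by linarith)
  have hρ1 : H ^ c3 ≤ 1 := by linarith
  have hη0 : 0 < H ^ (1 - c3) := Real.rpow_pos_of_pos hH0 _
  have hη1 : H ^ (1 - c3) ≤ 1 := B.a11.trans hε1
  obtain ⟨φ, hφs, hφ0, hφb, hle⟩ := PO T F u'' Q (r - 10 * θ₀) (H ^ c3) (H ^ (1 / 2 + c3)) h _ M
    (H ^ (1 - c3)) (H ^ (1 / 2 - 3 * p)) ν P z hu2 (by linarith)
    ht0 htρ hI hz (by rw [← hx]; linarith) hM1 hη0.le hη1
    (fun s hs1 hs2 => by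
      have hs0 : 0 < s := ht0.trans_le hs1
      exact (b1 s hs0 (by linarith)).trans (mul_le_mul_of_nonneg_right hMC (by positivity)))
    (fun s hs1 hs2 => b2 s (ht0.trans_le hs1) (by linarith))
    (fun y hy hyx => b3 _ ht0 (by linarith) y hy hyx)
    (fun y hy hyx => hsup y hy (by
      have h1 : ‖T.starProjection y‖ ≤ ‖T.starProjection y - x‖ + ‖x‖ := by
        have := norm_add_le (T.starProjection y - x) x
        rwa [sub_add_cancel] at this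
      linarith))
  refine (hle.trans ?_).trans B.a14
  have hinvρ : 1 ≤ (H ^ c3)⁻¹ := (one_le_inv₀ hρ0).2 hρ1
  have hMφ : 0 ≤ C6 * (H ^ c3)⁻¹ ^ (m + sW m) := by positivity
  have key : ∀ a, |∫ y, φ (F.xc y) * F.ht u'' a y ∂ν| ≤
      H ^ (1 - p) * (C6 * (H ^ c3)⁻¹ ^ (m + sW m)) := by
    intro a
    have h1 := hw2 (fun b => if b = a then φ else fun _ => 0) (C6 * (H ^ c3)⁻¹ ^ (m + sW m))
      hMφ (tst_single a hφs (fun x' hx' => hφ0 x' (by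
        have h2 : ‖x'‖ ≤ ‖x' - F.xc z‖ + ‖F.xc z‖ := by
          have := norm_add_le (x' - F.xc z) (F.xc z)
          rwa [sub_add_cancel] at this
        rw [KMS.norm_xc, ← hx] at h2
        linarith)) (fun k hk x' => (hφb k hk x').trans
          (mul_le_mul_of_nonneg_left (pow_le_pow_right₀ hinvρ (by omega)) hC6.le)) hMφ)
    simp only [sum_single_ht] at h1
    exact h1
  have hsum : ∑ a, |∫ y, φ (F.xc y) * F.ht u'' a y ∂ν| ≤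
      n * (H ^ (1 - p) * (C6 * (H ^ c3)⁻¹ ^ (m + sW m))) := by
    calc _ ≤ ∑ _a : Fin n, H ^ (1 - p) * (C6 * (H ^ c3)⁻¹ ^ (m + sW m)) :=
          Finset.sum_le_sum fun a _ => key a
      _ = _ := by simp
  have : 0 ≤ C6 * M := by positivity
  exact mul_le_mul_of_nonneg_left (by linarith) this

/-- **STEP** from its ingredients -/
theorem stepStmt (hS1 : S1Stmt E m n) (hR : RecutStmt m n) (hB : BadStmt E m)
    (hP : PointsStmt E m n) (hC : CaccStmt E m n) (hS : SupStmt E m n) {Q : ℕ} (hQ : 1 ≤ Q) :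
    StepStmt E m n Q := by
  obtain ⟨ε1, C1, hε1, hC1, S1⟩ := hS1 Q hQ
  obtain ⟨ε2, C2, hε2, hC2, RC⟩ := hR
  obtain ⟨ε4, C4, hε4, hC4, CA⟩ := hC
  obtain ⟨ε5, C5, hε5, hC5, SU⟩ := hS
  obtain ⟨ε6, C6, hε6, hC6, PO⟩ := hP
  have hm0 : (0:ℝ) ≤ m := Nat.cast_nonneg m
  have hn0 : (0:ℝ) ≤ n := Nat.cast_nonneg n
  have hNpos : (16:ℝ) ≤ (m:ℝ) + sW m := by
    have : (sW m : ℝ) = 4 * m + 16 := by unfold sW; push_cast; ring
    rw [this]; linarith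
  obtain ⟨c3, hc3pos, hN, hc3'⟩ : ∃ c3 : ℝ, 0 < c3 ∧ c3 * (m + sW m) = 1 / 8 ∧ c3 ≤ 1 / 128 := by
    refine ⟨1 / (8 * (m + sW m)), by positivity, by field_simp, ?_⟩
    rw [div_le_div_iff₀ (by positivity) (by norm_num)]
    linarith
  obtain ⟨Λ, hΛ⟩ : ∃ Λ : ℝ, Λ = C1 + C2 + m + 4 := ⟨_, rfl⟩
  have hΛpos : 6 ≤ Λ := by rw [hΛ]; linarith
  obtain ⟨c0, hc0pos, hc03, hc0Λ⟩ : ∃ c0 : ℝ, 0 < c0 ∧ c0 ≤ c3 / 16 ∧ c0 * Λ ≤ 1 := by
    refine ⟨min (c3 / 16) (1 / Λ), lt_min (by positivity) (by positivity), min_le_left _ _, ?_⟩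
    have : min (c3 / 16) (1 / Λ) ≤ 1 / Λ := min_le_right _ _
    rwa [le_div_iff₀ (by linarith)] at this
  refine ⟨c0, hc0pos, by linarith, fun c1 hc1 hc1' τ hτ => ?_⟩
  obtain ⟨p, hp⟩ : ∃ p : ℝ, p = c1 * Λ := ⟨_, rfl⟩
  have hpc0 : p ≤ c0 := by
    calc p = c1 * Λ := hp
      _ ≤ c0 ^ 2 * Λ := mul_le_mul_of_nonneg_right hc1' (by linarith)
      _ = c0 * (c0 * Λ) := by ring
      _ ≤ c0 * 1 := mul_le_mul_of_nonneg_left hc0Λ hc0pos.le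
      _ = c0 := mul_one _
  have hpc : p ≤ c1 / c0 := by
    rw [le_div_iff₀ hc0pos, hp]
    calc c1 * Λ * c0 = c1 * (c0 * Λ) := by ring
      _ ≤ c1 * 1 := mul_le_mul_of_nonneg_left hc0Λ hc1.le
      _ = c1 := mul_one _
  obtain ⟨ε3, C3, hε3, hC3, BA⟩ := hB Q τ hτ
  have hom : 0 ≤ om m := ENNReal.toReal_nonneg
  obtain ⟨M0, hM0⟩ : ∃ M0 : ℝ, M0 = (Q * om m + 1) * (3 / 8) ^ m := ⟨_, rfl⟩
  have hM0pos : 0 ≤ M0 := by rw [hM0]; positivity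
  obtain ⟨M, hM1, hMC⟩ : ∃ M : ℝ, 1 ≤ M ∧ C3 ≤ M := ⟨max 1 C3, le_max_left _ _, le_max_right _ _⟩
  obtain ⟨εm, hεmpos, hm0', hm1, hm2, hm3, hm4, hm5, hm6⟩ : ∃ εm : ℝ, 0 < εm ∧ εm ≤ 1 ∧ εm ≤ ε1 ∧
      εm ≤ ε2 ∧ εm ≤ ε3 ∧ εm ≤ ε4 ∧ εm ≤ ε5 ∧ εm ≤ ε6 := by
    refine ⟨min (min (min 1 ε1) (min ε2 ε3)) (min ε4 (min ε5 ε6)), by positivity, ?_, ?_, ?_, ?_,
      ?_, ?_, ?_⟩ <;> simp
  obtain ⟨εs, hεs⟩ : ∃ εs : ℝ, εs = εm / (2 * (n + 1)) := ⟨_, rfl⟩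
  have hεspos : 0 < εs := by rw [hεs]; positivity
  have hεse : 2 * εs = εm / (n + 1) := by
    rw [hεs]; field_simp
  have hεs1 : 2 * εs ≤ εm := by
    rw [hεse]
    exact div_le_self hεmpos.le (by linarith)
  have hεs2 : n * (2 * εs) ≤ εm := by
    rw [hεse, mul_div_assoc', div_le_iff₀ (by positivity)]
    linarith
  have hεsm : εs ≤ εm := by linarith
  have evA := ev_condA (m := m) (n := n) (C1 := C1) (C2 := C2) (C4 := C4) (C5 := C5) (M0 := M0)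
    (ε := εs) (c1 := c1) (p := p) (by linarith) (by linarith) hM0pos hεspos hc1 (by linarith)
    (le_of_eq (by rw [hp, hΛ]))
  have evB := ev_condB (m := m) (n := n) (C3 := C3) (C6 := C6) (M := M) (ε := εs) (c0 := c0)
    (c1 := c1) (c3 := c3) (p := p) hC6.le (by linarith) hεspos hc1 hN hc3pos hc03 (by linarith)
    (by rw [hp, hΛ]; exact mul_le_mul_of_nonneg_left (by linarith) hc1.le) (by linarith)
  obtain ⟨ε7, hε7, hcond⟩ := exists_of_ev (evA.and evB)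
  refine ⟨min εs ε7, lt_min hεspos hε7, ?_⟩
  intro T F u r h H θ ν P hu hr1 hr2 hh hI hex hH hH0 hHε hθ1 hθ2
  obtain ⟨A, B⟩ := hcond H hH0 (hHε.trans (min_le_right _ _))
  have hεle : min εs ε7 ≤ εs := min_le_left _ _
  have hHc : 0 < H ^ c1 := Real.rpow_pos_of_pos hH0 _
  obtain ⟨θ₀, hθ0⟩ : ∃ θ₀ : ℝ, θ = 16 * θ₀ := ⟨θ / 16, by ring⟩
  subst hθ0
  have hHθ : H ^ c1 / 16 ≤ θ₀ := by linarith
  have hθ0pos : 0 < θ₀ := by linarith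
  have hθ0le : θ₀ ≤ 1 / 640 := by linarith
  -- the ingredients for smaller `ε`
  have hule : ∀ ε', εs ≤ ε' → Refe ε' r u := fun ε' h' => hu.stepMono (hεle.trans h') le_rfl
  have hI' : ∀ ε', εs ≤ ε' → IntCyl m Q T 0 (3 / 8) h ε' ν P := fun ε' h' =>
    IntCyl_mono_delta hI (hεle.trans h')
  have hex' : ∀ ε', εs ≤ ε' → exc T ν P 0 (3 / 8) ≤ ε' := fun ε' h' => hex.trans (hεle.trans h')
  have S1' : S1Body E m n Q ε1 C1 := S1
  have RC' : RecutBody m n ε2 C2 := RC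
  have CA' : CaccBody E m n ε4 C4 := CA
  have SU' : SupBody E m n ε5 C5 := SU
  have PO' : PointsBody E m n ε6 C6 := PO
  have BA' : BadBody E m Q τ ε3 C3 := BA
  clear S1 RC CA SU PO BA
  obtain ⟨hW0, u'', hs, h0, hd, hex'', hw2⟩ := part1 (F := F) (u := u) (h := h) (θ₀ := θ₀)
    (ε1 := ε1) (ε2 := ε2) S1' RC' (by linarith) (by linarith) A (hεsm.trans hm1)
    (hεsm.trans hm2) (hule _ (hεsm.trans hm1)) (hule _ (hεsm.trans hm2)) hr1 hr2 hθ0pos hθ0le hHθ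
    ((hh.trans hεle).trans (hεsm.trans hm1)) (hI' _ (hεsm.trans hm1)) (hex' _ (hεsm.trans hm1))
    hH hH0
  have hE := part2a (θ₀ := θ₀) A (by linarith) (hule εs le_rfl) hr2 hθ0pos (hI' _ le_rfl)
    (by linarith) hM0 hH hH0 hs hd
  have hu2 : Refe (2 * εs) (r - 10 * θ₀) u'' :=
    (Refe.recut (hule εs le_rfl) (by linarith) hs h0 hd hex'').stepMono (by linarith [A.a3]) le_rfl
  have heE := part2b (θ₀ := θ₀) CA' hC4 A
    (hu2.stepMono (hεs1.trans hm4) le_rfl) hr1 hr2 hθ0pos hθ0le hHθ hI hH0 hE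
  have hsup := part2b' (θ₀ := θ₀) SU' hC5 A
    (hu2.stepMono (hεs1.trans hm5) le_rfl) hr1 hr2 hθ0pos hθ0le hHθ hI hH0 hE
  obtain ⟨Bad, hBm, hBμ, hBx⟩ := part2c (θ₀ := θ₀) BA' hC3 B hεspos (hεsm.trans hm3) hu2
    (hεs2.trans hm3) hr1 hr2 hθ0pos hθ0le hHθ (hI' _ (hεsm.trans hm3)) (hex' _ (hεsm.trans hm3))
    hH0 heE hsup
  have hpw : H ^ (1 / 2 - p) ≤ H ^ (1 / 2 - c1 / c0) := rpow_anti hH0 A.one (by linarith)
  have hpw' : H ^ (1 - p) ≤ H ^ (1 - c1 / c0) := rpow_anti hH0 A.one (by linarith)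
  refine ⟨fun ψ M' hψ hψ0 hψM => ?_, u'', hs, h0,
    fun a k hk x => (hd a k hk x).trans hpw, fun a x hx => hex'' a x (by linarith), ?_, Bad, hBm,
    hBμ, ?_, ?_⟩
  · exact (hW0 ψ M' hψ (fun x hx => hψ0 x (by linarith)) hψM).trans
      (mul_le_mul_of_nonneg_right hpw ((abs_nonneg _).trans (hψM 0)))
  · intro φ M' hφ
    by_cases hn : 0 < n
    · have hM' : 0 ≤ M' := (norm_nonneg _).trans (hφ.bd ⟨0, hn⟩ 0 (Nat.zero_le _) 0)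
      exact (hw2 φ M' hM' (hφ.stepMono le_rfl (by linarith) le_rfl)).trans
        (mul_le_mul_of_nonneg_right hpw' hM')
    · -- codimension zero: the height vanishes
      exact absurd (pos_of_hE F hu.smooth (hH ▸ hH0)) hn
  · intro x hx hxB s hs' hxs
    exact ((hBx x hx (by linarith) hxB).1 s hs' (by linarith)).2
  · intro z hz hzr hzB hzD
    obtain ⟨b1, b2, b3⟩ := hBx _ (T.starProjection_apply_mem z) (by linarith) hzB
    exact part3 (C3 := C3) (ε' := εs) (p := p) PO' hC6 hM1 hMC A.one B (by linarith)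
      (hu2.stepMono (hεs1.trans hm6) le_rfl) hr2 hθ0pos hθ0le hHθ hI hH0 hw2 hsup hz (by linarith)
      (fun t ht1 ht2 => (b1 t ht1 ht2).1) b2 (fun t ht1 ht2 => b3 z hz rfl hzD t ht1 ht2)

/-- **STEP** from [S1], [RECUT], [BAD] -/
theorem stepStmt_of (hS1 : S1Stmt E m n) (hR : RecutStmt m n) (hB : BadStmt E m) {Q : ℕ}
    (hQ : 1 ≤ Q) : StepStmt E m n Q :=
  stepStmt hS1 hR hB (KMS.pointsStmt E m n) (caccStmt m n) (HSW.supStmt E m n) hQ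

end Vale.Agent.P214.WIN
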