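import Vale.Agent.P214.WIN.Step
import Vale.Agent.P214.WIN.StepOne
import Vale.Agent.P214.S1.Fin
import Vale.Agent.P214.LIN.Weyl

/-!
# P214, section WIN: STEP, unconditionally
-/

open Set Filter Topology MeasureTheory Metric

namespace Vale.Agent.P214.WIN

/-- **STEP** (all dimensions, codimensions and multiplicities) -/
theorem step_all (E : Type*) [NormedAddCommGroup E] [InnerProductSpace ℝ E]
    [FiniteDimensional ℝ E] [MeasurableSpace E] [BorelSpace E] {m : ℕ} (n : ℕ) (hm : 1 ≤ m)
    {Q : ℕ} (hQ : 1 ≤ Q) : StepStmt E m n Q :=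
  S1.step_of_weyl hm (fun hn => LIN.weyl hm hn (by omega)) hQ

/-- **STEP-ONE** -/
theorem stepOne_all (E : Type*) [NormedAddCommGroup E] [InnerProductSpace ℝ E]
    [FiniteDimensional ℝ E] [MeasurableSpace E] [BorelSpace E] {m : ℕ} (n : ℕ) (hm : 1 ≤ m) :
    StepOneStmt E m n :=
  stepOne_of_step (step_all E n hm le_rfl)

end Vale.Agent.P214.WIN
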