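import Vale.Agent.P214.INT.MMain
import Vale.Agent.P214.INT.Chain
import Vale.Agent.P214.AREA.Conv
import Vale.Agent.P214.TCH.Path
import Vale.Agent.P214.KMS.Main
import Vale.Agent.P214.MU.Theta
import Vale.Agent.P214.R2F.Pos

/-!
# P214, block WIN, item (6): preparations for the bad set

Masses, planar excess and number of sheets over base balls of radius at least `θ/8`, when the
energy relative to a reference `w` is small.
-/

open Set Filter Topology MeasureTheory Metric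
open scoped RealInnerProductSpace ENNReal

set_option linter.all false

namespace Vale.Agent.P214.BADS

open Vale.Agent.P214 Vale.Agent.P214.FV Vale.Agent.P214.MU

/-! ### the constant -/

lemma deriv_prof_of (s : ℝ) (hs : s ≤ 1) : deriv prof s = -(2 * (1 - s)) := by
  rw [(hasDerivAt_prof s).deriv]
  unfold dprof
  rw [max_eq_left (by linarith)]

lemma cphi_prof (m : ℕ) : cphi m prof = TCH.cm m := by
  unfold cphi
  have h1 : ∫ s in Ioc (0:ℝ) 1, (-deriv prof s) * (√s) ^ m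
      = ∫ s in (0:ℝ)..1, (2 * s ^ ((m:ℝ) / 2) - 2 * s ^ ((m:ℝ) / 2 + 1)) := by
    rw [intervalIntegral.integral_of_le zero_le_one]
    refine setIntegral_congr_fun measurableSet_Ioc fun s hs => ?_
    rw [deriv_prof_of s hs.2, Real.sqrt_eq_rpow, ← Real.rpow_mul_natCast hs.1.le,
      Real.rpow_add_one hs.1.ne']
    have e : 1 / 2 * (m:ℝ) = m / 2 := by ring
    rw [e]; ring
  have hm : (0:ℝ) ≤ m := Nat.cast_nonneg m
  rw [h1, intervalIntegral.integral_sub, intervalIntegral.integral_const_mul,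
    intervalIntegral.integral_const_mul, integral_rpow (Or.inl (by linarith)),
    integral_rpow (Or.inl (by linarith))]
  · rw [Real.one_rpow, Real.one_rpow, Real.zero_rpow (by positivity), Real.zero_rpow (by positivity)]
    unfold TCH.cm
    field_simp
    ring
  · exact (intervalIntegral.intervalIntegrable_rpow' (by linarith)).const_mul _
  · exact (intervalIntegral.intervalIntegrable_rpow' (by linarith)).const_mul _

lemma cg_eq_cm (m : ℕ) : cg m = Skel.om m * TCH.cm m := by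
  rw [cg_eq, cphi_prof]; rfl

variable {E : Type*} [NormedAddCommGroup E] [InnerProductSpace ℝ E] [FiniteDimensional ℝ E]
  [MeasurableSpace E] [BorelSpace E]

variable {m Q : ℕ} {T : Submodule ℝ E} {G : Set E} {h : ℝ} {ν : Measure E}
  {P : E → E →L[ℝ] E} {S : Set E} {θ' : E → ℕ} {J : E → ℝ} {z x : E} {r s R : ℝ}

lemma cyl_eq (hx : x ∈ T) : INT.cyl T x s = Skel.cylSet T x s := by
  unfold INT.cyl Skel.cylSet
  rw [Submodule.starProjection_eq_self_iff.2 hx]
  rfl

/-- smooth mass versus sharp mass -/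
lemma htot_mass (hC : CylStat m T (ball z R) h ν P) (hz : z ∈ T) (hm : 1 ≤ m) (hR : 0 < R) :
    |INT.htot m T ν z R - TCH.cm m * (ν.real (INT.cyl T z R) / R ^ m)|
      ≤ 12 * (Skel.exc T ν P z R / R ^ m) := by
  have h1 := TCH.sharp_smooth hC hz hm hR le_rfl
  rw [← TCH.exc_eq hz hR, ← cyl_eq hz] at h1
  have h2 : INT.htot m T ν z R = (∫ y, prof (ODE.bsq T z y / R ^ 2) ∂ν) / R ^ m := by
    unfold INT.htot cut
    congr 1
    refine integral_congr_ae (Eventually.of_forall fun y => ?_)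
    simp only
    rw [TCH.bsq_eq hz, bas, Submodule.starProjection_eq_self_iff.2 hz]
  rw [h2]
  have e : (∫ y, prof (ODE.bsq T z y / R ^ 2) ∂ν) / R ^ m
      - TCH.cm m * (ν.real (INT.cyl T z R) / R ^ m) =
      -((TCH.cm m * ν.real (INT.cyl T z R) - ∫ y, prof (ODE.bsq T z y / R ^ 2) ∂ν) / R ^ m) := by
    ring
  rw [e, abs_neg, abs_div, abs_of_pos (by positivity : 0 < R ^ m), ← mul_div_assoc]
  gcongr

/-! ### tilt comparisons -/

lemma tilt_sq_le {L : Submodule ℝ E} (hL : Module.finrank ℝ L = Module.finrank ℝ T) {y : E}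
    (hP : P y = L.starProjection) : INT.tilt P T y ^ 2 ≤ 2 * FV.tilt T (P y) := by
  have h0 : 0 ≤ FV.tilt T (P y) := by rw [hP]; exact FV.tilt_nonneg L T
  have h1 : INT.tilt P T y ≤ √(2 * FV.tilt T (P y)) := by
    unfold INT.tilt
    refine ContinuousLinearMap.opNorm_le_bound _ (Real.sqrt_nonneg _) fun v => ?_
    refine abs_le_of_sq_le_sq' ?_ (by positivity) |>.2
    rw [mul_pow, Real.sq_sqrt (by positivity), hP]
    exact FV.norm_sq_sub_le L T hL v
  calc INT.tilt P T y ^ 2 ≤ √(2 * FV.tilt T (P y)) ^ 2 := by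
        have : 0 ≤ INT.tilt P T y := norm_nonneg _
        gcongr
    _ = _ := Real.sq_sqrt (by positivity)

/-- pointwise bounds of the energy -/
lemma ae_pt (hC : CylStat m T G h ν P) {w : E → E} (hw : KMS.Ref T w) {ε : ℝ}
    (hε : ∀ y, ‖fderiv ℝ w y‖ ≤ ε) : ∀ᵐ y ∂ν,
      0 ≤ gsq (KMS.rel T w) (P y) y ∧ gsq (KMS.rel T w) (P y) y ≤ (1 + ε) ^ 2 * m ∧
      0 ≤ FV.tilt T (P y) ∧ INT.tilt P T y ^ 2 ≤ 2 * FV.tilt T (P y) ∧
      FV.tilt T (P y) ≤ 2 * gsq (KMS.rel T w) (P y) y + 2 * ε ^ 2 * m := by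
  filter_upwards [hC.proj] with y hy
  obtain ⟨L, hL, hP⟩ := hy
  have h1 := hε y
  have hε0 : 0 ≤ ε := (norm_nonneg _).trans h1
  refine ⟨by rw [hP]; exact gsq_nonneg _ _ _, ?_, by rw [hP]; exact FV.tilt_nonneg L T,
    tilt_sq_le (by rw [hL, hC.dimT]) hP, ?_⟩
  · rw [hP, hw.gsq_eq_ew]
    refine (KMS.ew_le T _ L).trans ?_
    rw [hL]
    gcongr
  · rw [hP, hw.gsq_eq_ew]
    refine (KMS.tilt_le_ew (hw.slope y) L).trans ?_
    rw [hL]
    have : ‖fderiv ℝ w y‖ ^ 2 ≤ ε ^ 2 := by gcongr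
    have hm : (0:ℝ) ≤ m := Nat.cast_nonneg m
    nlinarith [mul_le_mul_of_nonneg_right this hm]

lemma integrable_gsq (hC : CylStat m T G h ν P) {w : E → E} (hw : KMS.Ref T w) {ε : ℝ}
    (hε : ∀ y, ‖fderiv ℝ w y‖ ≤ ε) : Integrable (fun y => gsq (KMS.rel T w) (P y) y) ν := by
  have := hC.fin
  refine (integrable_const ((1 + ε) ^ 2 * m : ℝ)).mono' ?_ ?_
  · exact hC.aesm (continuous_gsq (hw.contDiff_rel.of_le (by simp)))
  · filter_upwards [ae_pt hC hw hε] with y hy
    rw [Real.norm_of_nonneg hy.1]; exact hy.2.1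


/-! ### masses -/

/-- balls around points over the base ball of radius `3/16` -/
lemma mass_ball (hI : INT.IntCyl m T (ball 0 (3 / 8)) h ν P S θ' J) {y : E} {t : ℝ}
    (hy : ‖T.starProjection y‖ < 3 / 16) (ht : 0 < t) (ht1 : t < 3 / 16) :
    ν.real (ball y t) ≤ (16 / 3) ^ m * t ^ m * ν.real univ := by
  have hfin := hI.finite
  have hsub : ball y (3 / 16) ⊆ T.starProjection ⁻¹' (ball 0 (3 / 8)) := by
    intro v hv
    rw [mem_ball, dist_eq_norm] at hv
    rw [mem_preimage, mem_ball, dist_zero_right]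
    have e : T.starProjection v = T.starProjection (v - y) + T.starProjection y := by
      rw [← map_add, sub_add_cancel]
    rw [e]
    have h1 := norm_star_le T (v - y)
    have h2 := norm_add_le (T.starProjection (v - y)) (T.starProjection y)
    linarith
  have h1 := hI.loc.bratio_mono' ht ht1 hsub
  unfold bratio at h1
  rw [div_le_iff₀ (by positivity)] at h1
  refine h1.trans ?_
  have h2 : ν.real (ball y (3 / 16)) ≤ ν.real univ := measureReal_mono (subset_univ _)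
  calc ν.real (ball y (3 / 16)) / (3 / 16) ^ m * t ^ m ≤ ν.real univ / (3 / 16) ^ m * t ^ m := by
        gcongr
    _ = _ := by
      rw [div_eq_mul_inv, ← inv_pow]
      norm_num
      ring

lemma norm_sub_le_of {w : E → E} (hw : KMS.Ref T w) {ε : ℝ}
    (hε : ∀ y, ‖fderiv ℝ w y‖ ≤ ε) {y y₀ : E} {a b d : ℝ} (h1 : ‖KMS.rel T w y‖ ≤ a)
    (h2 : ‖KMS.rel T w y₀‖ ≤ b) (h3 : ‖T.starProjection (y - y₀)‖ ≤ d) :
    ‖y - y₀‖ ≤ d + a + b + ε * d := by
  have hε0 : 0 ≤ ε := (norm_nonneg _).trans (hε 0)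
  have h4 : ‖w y - w y₀‖ ≤ ε * ‖T.starProjection (y - y₀)‖ := by
    rw [hw.base y, hw.base y₀, map_sub]
    exact convex_univ.norm_image_sub_le_of_norm_fderiv_le (fun v _ => hw.diff v) (fun v _ => hε v)
      (mem_univ _) (mem_univ _)
  have h5 : y - y₀ = T.starProjection (y - y₀) + (KMS.rel T w y - KMS.rel T w y₀ +
      (w y - w y₀)) := by
    unfold KMS.rel
    rw [co_apply, co_apply, map_sub]
    abel
  have h6 : ε * ‖T.starProjection (y - y₀)‖ ≤ ε * d := by gcongr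
  calc ‖y - y₀‖ = ‖T.starProjection (y - y₀) + (KMS.rel T w y - KMS.rel T w y₀ +
      (w y - w y₀))‖ := by rw [← h5]
    _ ≤ ‖T.starProjection (y - y₀)‖ + ‖KMS.rel T w y - KMS.rel T w y₀ + (w y - w y₀)‖ :=
        norm_add_le _ _
    _ ≤ ‖T.starProjection (y - y₀)‖ + (‖KMS.rel T w y - KMS.rel T w y₀‖ + ‖w y - w y₀‖) := by
        gcongr; exact norm_add_le _ _
    _ ≤ ‖T.starProjection (y - y₀)‖ + (‖KMS.rel T w y‖ + ‖KMS.rel T w y₀‖ + ‖w y - w y₀‖) := by
        gcongr; exact norm_sub_le _ _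
    _ ≤ _ := by linarith

/-- cylinders of radius at least `θ/8` -/
lemma mass_cyl (hI : INT.IntCyl m T (ball 0 (3 / 8)) h ν P S θ' J) {w : E → E}
    (hw : KMS.Ref T w) {ε : ℝ} (hε1 : ε ≤ 1) (hε : ∀ y, ‖fderiv ℝ w y‖ ≤ ε) {a θ : ℝ}
    (ha : a ≤ 3 / 16)
    (hsup : ∀ y ∈ ν.support, ‖T.starProjection y‖ < a → ‖KMS.rel T w y‖ ≤ θ)
    (hx : x ∈ T) (hs : 0 < s) (hθs : θ / 8 ≤ s) (hxs : ‖x‖ + s ≤ a) :
    ν.real (INT.cyl T x s) ≤ 120 ^ m * s ^ m * ν.real univ := by
  have hfin := hI.finite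
  have hpx : T.starProjection x = x := Submodule.starProjection_eq_self_iff.2 hx
  have hnn : 0 ≤ ν.real univ := measureReal_nonneg
  rcases le_or_gt (1 / 120) s with hbig | hsmall
  · have h1 : (1:ℝ) ≤ 120 ^ m * s ^ m := by
      rw [← mul_pow]; exact one_le_pow₀ (by linarith)
    have h2 : ν.real (INT.cyl T x s) ≤ ν.real univ := measureReal_mono (subset_univ _)
    nlinarith
  rcases eq_or_lt_of_le (measureReal_nonneg (μ := ν) (s := INT.cyl T x s)) with h0 | hpos
  · rw [← h0]; positivity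
  have hpos' : 0 < ν (INT.cyl T x s) := by
    rw [measureReal_def] at hpos
    exact (ENNReal.toReal_pos_iff.1 hpos).1
  have hmem : ∀ v, v ∈ INT.cyl T x s → ‖T.starProjection v‖ < a ∧ ‖T.starProjection (v - x)‖ < s := by
    intro v hv
    rw [INTM.mem_cyl] at hv
    refine ⟨?_, hv⟩
    have e : T.starProjection v = T.starProjection (v - x) + x := by
      rw [map_sub, hpx, sub_add_cancel]
    rw [e]
    have := norm_add_le (T.starProjection (v - x)) x
    linarith
  obtain ⟨y₀, hy₀, hy₀s⟩ := Measure.nonempty_inter_support_of_pos hpos'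
  obtain ⟨hy1, hy2⟩ := hmem y₀ hy₀
  have hr0 := hsup y₀ hy₀s hy1
  have hsub : ν.real (INT.cyl T x s) ≤ ν.real (ball y₀ (20 * s)) := by
    rw [measureReal_def, measureReal_def]
    refine ENNReal.toReal_mono (measure_ne_top _ _) (measure_mono_ae ?_)
    filter_upwards [Measure.support_mem_ae (μ := ν)] with y hys hyc
    obtain ⟨h1, h2⟩ := hmem y hyc
    have h3 := hsup y hys h1
    have h4 : ‖T.starProjection (y - y₀)‖ ≤ 2 * s := by
      have e : y - y₀ = (y - x) - (y₀ - x) := by abel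
      rw [e, map_sub]
      have := norm_sub_le (T.starProjection (y - x)) (T.starProjection (y₀ - x))
      linarith
    have h5 := norm_sub_le_of hw hε h3 hr0 h4
    show y ∈ ball y₀ (20 * s)
    rw [mem_ball, dist_eq_norm]
    have h6 : ε * (2 * s) ≤ 1 * (2 * s) := by gcongr
    have h7 : ‖T.starProjection (y - y₀)‖ < 2 * s := by
      have e : y - y₀ = (y - x) - (y₀ - x) := by abel
      rw [e, map_sub]
      have := norm_sub_le (T.starProjection (y - x)) (T.starProjection (y₀ - x))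
      linarith
    have h8 := norm_sub_le_of hw hε h3 hr0 le_rfl (y := y) (y₀ := y₀)
    have hε0 : 0 ≤ ε := (norm_nonneg _).trans (hε 0)
    have h9 : ε * ‖T.starProjection (y - y₀)‖ ≤ 1 * (2 * s) := by gcongr
    linarith
  refine hsub.trans ((mass_ball hI (by linarith) (by linarith) (by linarith)).trans ?_)
  rw [← mul_pow, ← mul_pow]
  exact mul_le_mul_of_nonneg_right (pow_le_pow_left₀ (by positivity) (by linarith) m) hnn

/-- the setting -/
structure BH (m Q : ℕ) (T : Submodule ℝ E) (h : ℝ) (ν : Measure E) (P : E → E →L[ℝ] E)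
    (S : Set E) (θ' : E → ℕ) (J : E → ℝ) (w : E → E) (ε a θ : ℝ) : Prop where
  int : INT.IntCyl m T (ball 0 (3 / 8)) h ν P S θ' J
  ref : KMS.Ref T w
  small : ∀ y, ‖fderiv ℝ w y‖ ≤ ε
  ε1 : ε ≤ 1
  m1 : 1 ≤ m
  univ_eq : ν.real univ = ν.real (INT.cyl T 0 (3 / 8))
  mass : |ν.real (INT.cyl T 0 (3 / 8)) - Q * Skel.om m * (3 / 8) ^ m| ≤ ε * (3 / 8) ^ m
  exc0 : Skel.exc T ν P 0 (3 / 8) ≤ ε
  a0 : 1 / 32 ≤ a
  a1 : a ≤ 3 / 16
  θ0 : 0 < θ
  θ1 : θ ≤ 1 / 640
  sup : ∀ y ∈ ν.support, ‖T.starProjection y‖ < a → ‖KMS.rel T w y‖ ≤ θ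
  en : ∫ y in INT.cyl T 0 a, gsq (KMS.rel T w) (P y) y ∂ν ≤ ε * θ ^ m

/-- the total mass bound -/
noncomputable def M1 (m Q : ℕ) : ℝ := Q * Skel.om m + 1

lemma M1_pos (m Q : ℕ) : 0 < M1 m Q := by
  unfold M1
  have h1 : 0 ≤ Skel.om m := ENNReal.toReal_nonneg
  have h2 : 0 ≤ (Q : ℝ) * Skel.om m := by positivity
  linarith

namespace BH

variable {w : E → E} {ε a θ : ℝ} (H : BH m Q T h ν P S θ' J w ε a θ)

include H

lemma ε0 : 0 ≤ ε := (norm_nonneg _).trans (H.small 0)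

lemma mass_univ : ν.real univ ≤ M1 m Q := by
  rw [H.univ_eq]
  have h1 := (abs_le.1 H.mass).2
  have h2 := H.ε1
  have h3 : 0 ≤ Skel.om m := ENNReal.toReal_nonneg
  have h4 : (0:ℝ) ≤ (3 / 8) ^ m := by positivity
  have h5 : ((3:ℝ) / 8) ^ m ≤ 1 := pow_le_one₀ (by norm_num) (by norm_num)
  have h6 : 0 ≤ (Q : ℝ) * Skel.om m := by positivity
  unfold M1
  calc ν.real (INT.cyl T 0 (3 / 8)) ≤ (Q * Skel.om m + ε) * (3 / 8) ^ m := by linarith
    _ ≤ (Q * Skel.om m + 1) * 1 := by gcongr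
    _ = _ := mul_one _

lemma mass_le {x : E} {s : ℝ} (hx : x ∈ T) (hθs : θ / 8 ≤ s) (hxs : ‖x‖ + s ≤ a) :
    ν.real (INT.cyl T x s) ≤ 120 ^ m * M1 m Q * s ^ m := by
  have hs : 0 < s := by linarith [H.θ0]
  have h1 := mass_cyl H.int H.ref H.ε1 H.small H.a1 H.sup hx hs hθs hxs
  have h2 := H.mass_univ
  calc _ ≤ 120 ^ m * s ^ m * ν.real univ := h1
    _ ≤ 120 ^ m * s ^ m * M1 m Q := by gcongr
    _ = _ := by ring

omit H in
lemma cyl_sub {x : E} {s : ℝ} (hx : x ∈ T) (hxs : ‖x‖ + s ≤ a) : INT.cyl T x s ⊆ INT.cyl T 0 a := by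
  intro y hy
  rw [INTM.mem_cyl] at hy ⊢
  have e : y - 0 = (y - x) + x := by abel
  rw [e, map_add, Submodule.starProjection_eq_self_iff.2 hx]
  have := norm_add_le (T.starProjection (y - x)) x
  linarith

lemma en_nonneg (A : Set E) : 0 ≤ ∫ y in A, gsq (KMS.rel T w) (P y) y ∂ν := by
  refine integral_nonneg_of_ae (ae_restrict_of_ae ?_)
  filter_upwards [ae_pt H.int.stat H.ref H.small] with y hy using hy.1

lemma en_mono {A B : Set E} (hAB : A ⊆ B) : ∫ y in A, gsq (KMS.rel T w) (P y) y ∂ν ≤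
    ∫ y in B, gsq (KMS.rel T w) (P y) y ∂ν := by
  refine setIntegral_mono_set (integrable_gsq H.int.stat H.ref H.small).integrableOn
    (ae_restrict_of_ae ?_) hAB.eventuallyLE
  filter_upwards [ae_pt H.int.stat H.ref H.small] with y hy using hy.1

/-- planar excess against relative energy -/
lemma exc_le_en {A : Set E} (hA : MeasurableSet A) :
    ∫ y in A, FV.tilt T (P y) ∂ν ≤ 2 * ∫ y in A, gsq (KMS.rel T w) (P y) y ∂ν +
      2 * ε ^ 2 * m * ν.real A := by
  have hfin := H.int.finite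
  have hint := integrable_gsq H.int.stat H.ref H.small
  rw [← integral_const_mul]
  have e : 2 * ε ^ 2 * m * ν.real A = ∫ y in A, (2 * ε ^ 2 * m : ℝ) ∂ν := by
    rw [setIntegral_const, smul_eq_mul, mul_comm]
  rw [e, ← integral_add (hint.integrableOn.const_mul _) (integrable_const _)]
  refine setIntegral_mono_ae_restrict ?_ ((hint.integrableOn.const_mul _).add
    (integrable_const _)) ?_
  · exact (R2F.integrable_tilt H.int.stat).integrableOn
  · refine ae_restrict_of_ae ?_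
    filter_upwards [ae_pt H.int.stat H.ref H.small] with y hy using hy.2.2.2.2

/-- constant of the excess bounds -/
noncomputable def _root_.Vale.Agent.P214.BADS.C2 (m Q : ℕ) : ℝ :=
  2 * 8 ^ m + 2 * m * (120 ^ m * M1 m Q)

omit H in
lemma _root_.Vale.Agent.P214.BADS.C2_pos (m Q : ℕ) : 0 < C2 m Q := by
  unfold C2
  have := M1_pos m Q
  positivity

/-- trace excess at scales `≥ θ/8` -/
lemma sexc_le {x : E} {s : ℝ} (hx : x ∈ T) (hθs : θ / 8 ≤ s) (hxs : ‖x‖ + s ≤ a) :
    Skel.exc T ν P x s ≤ C2 m Q * ε * s ^ m := by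
  have hs : 0 < s := by linarith [H.θ0]
  have hε0 := H.ε0
  have hθ := H.θ0
  unfold Skel.exc
  rw [← cyl_eq hx]
  refine (H.exc_le_en (INT.NI.measurableSet_cyl)).trans ?_
  have h1 : ∫ y in INT.cyl T x s, gsq (KMS.rel T w) (P y) y ∂ν ≤ ε * (8 * s) ^ m :=
    ((H.en_mono (cyl_sub hx hxs)).trans H.en).trans (by gcongr; linarith)
  have h2 := H.mass_le hx hθs hxs
  have h3 : ε ^ 2 ≤ ε := by nlinarith [H.ε1]
  have hM := M1_pos m Q
  calc 2 * ∫ y in INT.cyl T x s, gsq (KMS.rel T w) (P y) y ∂ν +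
      2 * ε ^ 2 * m * ν.real (INT.cyl T x s)
      ≤ 2 * (ε * (8 * s) ^ m) + 2 * ε * m * (120 ^ m * M1 m Q * s ^ m) := by gcongr
    _ = _ := by unfold C2; rw [mul_pow]; ring

lemma exc_nonneg' (x : E) (s : ℝ) : 0 ≤ Skel.exc T ν P x s := by
  refine integral_nonneg_of_ae (ae_restrict_of_ae ?_)
  filter_upwards [ae_pt H.int.stat H.ref H.small] with y hy using hy.2.2.1

/-- operator norm excess against the trace excess -/
lemma iexc_le {x : E} {s : ℝ} (hx : x ∈ T) (hs : 0 < s) :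
    INT.exc m T ν P x s ≤ 2 * (Skel.exc T ν P x s / s ^ m) := by
  have hfin := H.int.finite
  unfold INT.exc Skel.exc
  rw [← mul_div_assoc, ← cyl_eq hx, ← integral_const_mul]
  gcongr ?_ / _
  refine setIntegral_mono_ae_restrict (INT.integrable_tilt_sq H.int.loc).integrableOn ?_ ?_
  · exact ((R2F.integrable_tilt H.int.stat).const_mul _).integrableOn
  · refine ae_restrict_of_ae ?_
    filter_upwards [ae_pt H.int.stat H.ref H.small] with y hy using hy.2.2.2.1

/-- trace excess against the operator norm excess -/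
lemma sexc_le_iexc {x : E} {s : ℝ} (hx : x ∈ T) (hs : 0 < s) :
    Skel.exc T ν P x s ≤ Module.finrank ℝ E * INT.exc m T ν P x s * s ^ m := by
  have hfin := H.int.finite
  have e : Module.finrank ℝ E * INT.exc m T ν P x s * s ^ m =
      ∫ y in INT.cyl T x s, Module.finrank ℝ E * INT.tilt P T y ^ 2 ∂ν := by
    unfold INT.exc
    rw [integral_const_mul]
    field_simp
  rw [e, cyl_eq hx]
  unfold Skel.exc
  refine setIntegral_mono_ae_restrict ?_
    ((INT.integrable_tilt_sq H.int.loc).integrableOn.const_mul _) ?_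
  · exact (R2F.integrable_tilt H.int.stat).integrableOn
  · refine ae_restrict_of_ae ?_
    filter_upwards [INTM.ae_tl H.int.stat] with y hy using hy.2

end BH

end Vale.Agent.P214.BADS
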