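import Vale.Agent.P214.WIN.BadA

/-!
# P214, block WIN, item (6): the number of sheets at scales at least `θ/8`
-/

open Set Filter Topology MeasureTheory Metric
open scoped RealInnerProductSpace ENNReal

set_option linter.all false

namespace Vale.Agent.P214.BADS

open Vale.Agent.P214 Vale.Agent.P214.FV Vale.Agent.P214.MU

variable {E : Type*} [NormedAddCommGroup E] [InnerProductSpace ℝ E] [FiniteDimensional ℝ E]
  [MeasurableSpace E] [BorelSpace E]

variable {m Q : ℕ} {T : Submodule ℝ E} {G : Set E} {h : ℝ} {ν : Measure E}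
  {P : E → E →L[ℝ] E} {S : Set E} {θ' : E → ℕ} {J : E → ℝ} {z x : E} {r s R : ℝ}

namespace BH

variable {w : E → E} {ε a θ : ℝ} (H : BH m Q T h ν P S θ' J w ε a θ)

include H

lemma cylStat_sub {x : E} {s : ℝ} (hxs : ‖x‖ + s ≤ 3 / 8) : CylStat m T (ball x s) h ν P := by
  refine CylStat.mono H.int.stat isOpen_ball fun y hy => ?_
  rw [mem_ball, dist_eq_norm] at hy
  rw [mem_ball, dist_zero_right]
  calc ‖y‖ = ‖(y - x) + x‖ := by rw [sub_add_cancel]
    _ ≤ ‖y - x‖ + ‖x‖ := norm_add_le _ _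
    _ < 3 / 8 := by linarith

lemma sexc_mono {x x' : E} {s s' : ℝ} (hx : x ∈ T) (hx' : x' ∈ T)
    (hsub : INT.cyl T x s ⊆ INT.cyl T x' s') : Skel.exc T ν P x s ≤ Skel.exc T ν P x' s' := by
  unfold Skel.exc
  rw [← cyl_eq hx, ← cyl_eq hx']
  refine setIntegral_mono_set (R2F.integrable_tilt H.int.stat).integrableOn
    (ae_restrict_of_ae (R2F.tilt_nonneg_ae H.int.stat)) hsub.eventuallyLE

/-- number of sheets at the top -/
lemma top_near : |INT.htot m T ν 0 (a / 2) / cg m - Q| ≤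
    (12 * 64 ^ m + 9 * 64 ^ (m + 1) + 1) / cg m * ε := by
  have hcg := cg_pos m
  have hcm := TCH.cm_pos m
  have ha0 := H.a0
  have ha1 := H.a1
  have ha : 0 < a / 2 := by linarith
  have h64 : 1 / 64 ≤ a / 2 := by linarith
  have h0T : (0 : E) ∈ T := T.zero_mem
  have hε0 := H.ε0
  have he0 := H.exc_nonneg' 0 (a / 2)
  have h1 := htot_mass (H.cylStat_sub (x := 0) (s := a / 2) (by simp; linarith)) h0T H.m1 ha
  have h2 := TCH.mass_sub H.int.stat h0T H.m1 (z' := 0) h0T ha (by simp; linarith)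
  have hsub : INT.cyl T (0 : E) (a / 2) ⊆ INT.cyl T 0 (3 / 8) := INTM.cyl_mono (by linarith)
  have he : Skel.exc T ν P 0 (a / 2) ≤ ε := (H.sexc_mono h0T h0T hsub).trans H.exc0
  have hp : (a / 2) ^ m ≥ (1 / 64) ^ m := by gcongr
  have hp1 : (a / 2) ^ (m + 1) ≥ (1 / 64) ^ (m + 1) := by gcongr
  have e64 : ∀ k : ℕ, ((1:ℝ) / 64) ^ k * 64 ^ k = 1 := fun k => by
    rw [← mul_pow]; norm_num
  have hA : Skel.exc T ν P 0 (a / 2) / (a / 2) ^ m ≤ 64 ^ m * ε := by
    rw [div_le_iff₀ (by positivity)]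
    calc Skel.exc T ν P 0 (a / 2) ≤ ε := he
      _ = 64 ^ m * ε * (1 / 64) ^ m := by
        calc ε = ε * (((1:ℝ) / 64) ^ m * 64 ^ m) := by rw [e64]; ring
          _ = _ := by ring
      _ ≤ _ := by gcongr
  have hB : 24 * (3 / 8) / (TCH.cm m * (a / 2) ^ (m + 1)) * Skel.exc T ν P 0 (3 / 8) ≤
      9 * 64 ^ (m + 1) / TCH.cm m * ε := by
    have h3 : 24 * (3 / 8) / (TCH.cm m * (a / 2) ^ (m + 1)) ≤ 9 * 64 ^ (m + 1) / TCH.cm m := by
      rw [div_le_div_iff₀ (by positivity) hcm]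
      calc 24 * (3 / 8) * TCH.cm m = 9 * (((1:ℝ) / 64) ^ (m + 1) * 64 ^ (m + 1)) * TCH.cm m := by
            rw [e64]; ring
        _ = 9 * 64 ^ (m + 1) * (TCH.cm m * (1 / 64) ^ (m + 1)) := by ring
        _ ≤ _ := by gcongr
    have := H.exc0
    have := H.exc_nonneg' 0 (3 / 8)
    gcongr
  have hC : |ν.real (INT.cyl T 0 (3 / 8)) / (3 / 8) ^ m - Q * Skel.om m| ≤ ε := by
    have e : ν.real (INT.cyl T 0 (3 / 8)) / (3 / 8) ^ m - Q * Skel.om m =
        (ν.real (INT.cyl T 0 (3 / 8)) - Q * Skel.om m * (3 / 8) ^ m) / (3 / 8) ^ m := by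
      field_simp
    rw [e, abs_div, abs_of_pos (by positivity : (0:ℝ) < (3 / 8) ^ m), div_le_iff₀ (by positivity)]
    exact H.mass
  rw [← cyl_eq h0T, ← cyl_eq h0T] at h2
  set X := ν.real (INT.cyl T 0 (a / 2)) / (a / 2) ^ m
  set Y := ν.real (INT.cyl T 0 (3 / 8)) / (3 / 8) ^ m
  set Z := INT.htot m T ν 0 (a / 2)
  have h3 : |X - Q * Skel.om m| ≤ 9 * 64 ^ (m + 1) / TCH.cm m * ε + ε := by
    calc |X - Q * Skel.om m| = |(X - Y) + (Y - Q * Skel.om m)| := by congr 1; ring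
      _ ≤ |X - Y| + |Y - Q * Skel.om m| := abs_add_le _ _
      _ ≤ _ := add_le_add (h2.trans hB) hC
  have h4 : |Z - Q * cg m| ≤ 12 * (64 ^ m * ε) + TCH.cm m * (9 * 64 ^ (m + 1) / TCH.cm m * ε + ε) := by
    have e : Z - Q * cg m = (Z - TCH.cm m * X) + TCH.cm m * (X - Q * Skel.om m) := by
      rw [cg_eq_cm]; ring
    rw [e]
    refine (abs_add_le _ _).trans (add_le_add (h1.trans ?_) ?_)
    · gcongr
    · rw [abs_mul, abs_of_pos hcm]; gcongr
  have h5 : Z / cg m - Q = (Z - Q * cg m) / cg m := by field_simp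
  rw [h5, abs_div, abs_of_pos hcg, div_mul_eq_mul_div]
  gcongr
  refine h4.trans ?_
  have h6 := TCH.cm_le m
  have e : TCH.cm m * (9 * 64 ^ (m + 1) / TCH.cm m * ε + ε) = 9 * 64 ^ (m + 1) * ε
      + TCH.cm m * ε := by field_simp
  rw [e]
  nlinarith

end BH

/-- **number of sheets at scales `≥ θ/16`** -/
theorem near_scale (m Q : ℕ) {ε' : ℝ} (hε' : 0 < ε') : ∃ ε₀ : ℝ, 0 < ε₀ ∧
    ∀ (T : Submodule ℝ E) (h : ℝ) (ν : Measure E) (P : E → E →L[ℝ] E) (S : Set E) (θ' : E → ℕ)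
      (J : E → ℝ) (w : E → E) (ε a θ : ℝ), BH m Q T h ν P S θ' J w ε a θ → ε ≤ ε₀ →
      ∀ x ∈ T, ∀ s, θ / 8 ≤ s → ‖x‖ + s ≤ a → |INT.htot m T ν x (s / 2) / cg m - Q| ≤ ε' := by
  have hcg := cg_pos m
  have hM := M1_pos m Q
  have hC2 := C2_pos m Q
  obtain ⟨δ, hδ, hch⟩ := INT.chain (E := E) m Q (M := 120 ^ m * M1 m Q) (ε := ε')
    (by positivity) hε'
  set K : ℝ := (12 * 64 ^ m + 9 * 64 ^ (m + 1) + 1) / cg m with hK
  have hK0 : 0 < K := by positivity
  refine ⟨min (δ / (2 * C2 m Q)) (1 / (3 * K)), lt_min (by positivity) (by positivity), ?_⟩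
  intro T h ν P S θ' J w ε a θ H hε x hx s hθs hxs
  have hε1 : 2 * (C2 m Q * ε) ≤ δ := by
    have := hε.trans (min_le_left _ _)
    rw [le_div_iff₀ (by positivity)] at this
    linarith
  have hε2 : K * ε ≤ 1 / 3 := by
    have := hε.trans (min_le_right _ _)
    rw [le_div_iff₀ (by positivity)] at this
    linarith
  have hθ := H.θ0
  have hs : 0 < s := by linarith
  have ha1 := H.a1
  have hsa : s ≤ a := by linarith [norm_nonneg x]
  refine hch T (ball 0 (3 / 8)) h ν P S θ' J H.int 0 x a s T.zero_mem hx hs hsa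
    (by simpa using hxs) (ball_subset_ball (by linarith)) ?_ (H.top_near.trans hε2)
  intro t ht
  have hr : θ / 8 ≤ a - t * (a - s) := by
    have h1 := ht.2
    have h2 : 0 ≤ a - s := by linarith
    nlinarith
  have hr0 : 0 < a - t * (a - s) := by linarith
  have e : (0 : E) + t • (x - 0) = t • x := by simp
  have hmem : t • x ∈ T := T.smul_mem _ hx
  have hn : ‖t • x‖ + (a - t * (a - s)) ≤ a := by
    rw [norm_smul, Real.norm_of_nonneg ht.1]
    have : t * ‖x‖ ≤ t * (a - s) := mul_le_mul_of_nonneg_left (by linarith) ht.1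
    linarith
  rw [e]
  refine ⟨H.mass_le hmem hr hn, (H.iexc_le hmem hr0).trans (le_trans ?_ hε1)⟩
  have h1 := H.sexc_le hmem hr hn
  rw [← div_le_iff₀ (by positivity)] at h1
  gcongr

end Vale.Agent.P214.BADS
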