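import Vale.Agent.P214.WIN.BadB
import Vale.Agent.P214.BES.Basic

/-!
# P214, block WIN, item (6): the bad set of one window
-/

open Set Filter Topology MeasureTheory Metric
open scoped RealInnerProductSpace ENNReal

set_option linter.all false

namespace Vale.Agent.P214.BADS

open Vale.Agent.P214 Vale.Agent.P214.FV Vale.Agent.P214.MU

variable {E : Type*} [NormedAddCommGroup E] [InnerProductSpace ℝ E] [FiniteDimensional ℝ E]
  [MeasurableSpace E] [BorelSpace E]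

variable {m Q : ℕ} {T : Submodule ℝ E} {G : Set E} {h : ℝ} {ν : Measure E}
  {P : E → E →L[ℝ] E} {S : Set E} {θ' : E → ℕ} {J : E → ℝ} {z x : E} {r s R : ℝ}

/-- **the windows of radius `θ/4`** -/
theorem exists_win (m Q : ℕ) {δ : ℝ} (hδ : 0 < δ) : ∃ ε₀ : ℝ, 0 < ε₀ ∧
    ∀ (T : Submodule ℝ E) (h : ℝ) (ν : Measure E) (P : E → E →L[ℝ] E) (S : Set E) (θ' : E → ℕ)
      (J : E → ℝ) (w : E → E) (ε a θ : ℝ), BH m Q T h ν P S θ' J w ε a θ → ε ≤ ε₀ →
      ∀ x ∈ T, ‖x‖ + θ ≤ a → INT.Win m Q δ T (ball 0 (3 / 8)) h ν P S θ' J x (θ / 4) := by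
  have hC2 := C2_pos m Q
  obtain ⟨ε₁, hε₁, hN⟩ := near_scale (E := E) m Q (ε' := 1 / 3) (by norm_num)
  refine ⟨min ε₁ (δ / (2 * C2 m Q)), lt_min hε₁ (by positivity), ?_⟩
  intro T h ν P S θ' J w ε a θ H hε x hx hxθ
  have hθ := H.θ0
  have ha1 := H.a1
  have h1 := hN T h ν P S θ' J w ε a θ H (hε.trans (min_le_left _ _)) x hx θ (by linarith) hxθ
  have hε1 : 2 * (C2 m Q * ε) ≤ δ := by
    have := hε.trans (min_le_right _ _)
    rw [le_div_iff₀ (by positivity)] at this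
    linarith
  have e4 : 4 * (θ / 4) = θ := by ring
  have e2 : 2 * (θ / 4) = θ / 2 := by ring
  refine ⟨H.int, hx, by linarith, ?_, by rw [e2]; exact h1, ?_⟩
  · rw [e4]
    refine (BH.cyl_sub hx hxθ).trans ?_
    intro y hy
    rw [INT.cyl, mem_preimage, map_zero] at hy
    exact ball_subset_ball (by linarith) hy
  · rw [e4]
    refine (H.iexc_le hx hθ).trans (le_trans ?_ hε1)
    have h2 := H.sexc_le hx (s := θ) (by linarith) hxθ
    rw [← div_le_iff₀ (by positivity)] at h2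
    gcongr

/-- base points with too much energy at some scale `≤ r` -/
def eBad (m : ℕ) (T : Submodule ℝ E) (ν : Measure E) (f : E → ℝ) (η r : ℝ) : Set E :=
  {x | ∃ t, 0 < t ∧ t ≤ r ∧ η * t ^ m < ∫ y in INT.cyl T x t, f y ∂ν}

lemma isOpen_eBad {f : E → ℝ} (hf : Integrable f ν) (hf0 : ∀ᵐ y ∂ν, 0 ≤ f y) (η r : ℝ) :
    IsOpen (eBad m T ν f η r) := by
  rw [Metric.isOpen_iff]
  rintro x ⟨t, ht0, htr, ht⟩
  obtain ⟨t', htt, ht'⟩ := INT.exists_smaller hf ht
  refine ⟨t - t', sub_pos.2 htt, fun x' hx' => ⟨t, ht0, htr, ht'.trans_le ?_⟩⟩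
  refine setIntegral_mono_set hf.integrableOn (ae_restrict_of_ae hf0) ?_
  refine (INT.cyl_subset_cyl' ?_).eventuallyLE
  rw [mem_ball, dist_eq_norm, ← norm_neg, neg_sub] at hx'
  linarith

namespace BH

variable {w : E → E} {ε a θ : ℝ} (H : BH m Q T h ν P S θ' J w ε a θ)

include H

/-- **energy-bad points of one window** -/
lemma energy_bad {C₁ η τ δ : ℝ} {z : E} (hzT : z ∈ T) (hzθ : ‖z‖ + θ ≤ a) (hC₁ : 0 ≤ C₁)
    (hη : 0 < η)
    (hmass : ∀ x ∈ INT.goodSet m T ν P z (θ / 4) τ, ∀ s, 0 < s → s ≤ θ / 4 →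
      ∀ t, t ≤ 5 * s → t ≤ θ / 2 → ν.real (INT.cyl T x t) ≤ C₁ * s ^ m) :
    μH[m] (INT.goodSet m T ν P z (θ / 4) τ ∩
        eBad m T ν (fun y => gsq (KMS.rel T w) (P y) y) η (θ / 4)) +
      ν (T.starProjection ⁻¹' (INT.goodSet m T ν P z (θ / 4) τ ∩
        eBad m T ν (fun y => gsq (KMS.rel T w) (P y) y) η (θ / 4))) ≤
      ENNReal.ofReal ((2 * 2 ^ m * cg m * 5 ^ m + 2 * C₁) * η⁻¹) *
        ∫⁻ y in T.starProjection ⁻¹' (ball z (θ / 2)),
          ENNReal.ofReal |gsq (KMS.rel T w) (P y) y| ∂ν := by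
  have hfin := H.int.finite
  have hθ := H.θ0
  set f : E → ℝ := fun y => gsq (KMS.rel T w) (P y) y with hf
  have hfi : Integrable f ν := integrable_gsq H.int.stat H.ref H.small
  have hf0 : ∀ᵐ y ∂ν, 0 ≤ f y := by
    filter_upwards [ae_pt H.int.stat H.ref H.small] with y hy using hy.1
  set A := INT.goodSet m T ν P z (θ / 4) τ ∩ eBad m T ν f η (θ / 4) with hA
  have hex : ∀ x ∈ A, ∃ t, 0 < t ∧ t ≤ θ / 4 ∧ η * t ^ m < ∫ y in INT.cyl T x t, f y ∂ν :=
    fun x hx => hx.2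
  choose! s hs using hex
  have hAT : A ⊆ (T : Set E) := fun x hx => hx.1.1
  have hball : ∀ x ∈ A, x ∈ ball z (θ / 4) := fun x hx => hx.1.2.1
  have hpt : ∀ x ∈ A, T.starProjection x = x := fun x hx =>
    Submodule.starProjection_eq_self_iff.2 (hAT hx)
  have hcyl : ∀ x ∈ A, ∀ t, INT.cyl T x t = T.starProjection ⁻¹' (ball x t) := fun x hx t => by
    rw [INT.cyl, hpt x hx]
  have hm1 : ∀ x ∈ A, ν.real (T.starProjection ⁻¹' (A ∩ ball x (5 * s x))) ≤ C₁ * s x ^ m := by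
    intro x hx
    have h1 := hs x hx
    have h2 : T.starProjection ⁻¹' (A ∩ ball x (5 * s x)) ⊆ INT.cyl T x (min (5 * s x) (θ / 2)) := by
      rw [hcyl x hx]
      refine preimage_mono fun y hy => ?_
      rw [mem_ball, lt_min_iff]
      refine ⟨hy.2, ?_⟩
      have h3 := hball y hy.1
      have h4 := hball x hx
      rw [mem_ball] at h3 h4
      linarith [dist_triangle_right y x z]
    exact (measureReal_mono h2).trans (hmass x hx.1 _ h1.1 h1.2.1 _ (min_le_left _ _)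
      (min_le_right _ _))
  have hm2 : ∀ x ∈ A, ν.real (INT.cyl T x (s x)) ≤ C₁ * s x ^ m := by
    intro x hx
    have h1 := hs x hx
    exact hmass x hx.1 _ h1.1 h1.2.1 _ (by linarith) (by linarith)
  have hm3 : ∀ x ∈ A, s x ^ m ≤ η⁻¹ * ∫ y in INT.cyl T x (s x), |f y| ∂ν := by
    intro x hx
    have h1 := hs x hx
    have h2 : ∫ y in INT.cyl T x (s x), f y ∂ν ≤ ∫ y in INT.cyl T x (s x), |f y| ∂ν :=
      integral_mono hfi.integrableOn hfi.abs.integrableOn fun y => le_abs_self _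
    rw [inv_mul_eq_div, le_div_iff₀ hη]
    linarith
  obtain ⟨u, huA, huc, -, -, hu⟩ := INT.vitali_bad (ν := ν) (A := A) (s := s) (R := θ / 4)
    (C₁ := C₁) (K := η⁻¹) (e := fun y => |f y|) H.int.stat.dimT hAT hC₁ (by positivity)
    (fun y => abs_nonneg _) (fun x hx => (hs x hx).1) (fun x hx => (hs x hx).2.1)
    (fun x hx => hfi.abs.integrableOn) hm1 hm2 hm3
  refine le_trans (le_trans le_self_add hu) ?_
  gcongr
  intro y hy
  simp only [mem_iUnion, exists_prop] at hy ⊢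
  obtain ⟨b, hb, hyb⟩ := hy
  have h1 := hball b (huA hb)
  have h2 := (hs b (huA hb)).2.1
  rw [mem_ball] at hyb h1 ⊢
  linarith [dist_triangle y b z]

end BH

end Vale.Agent.P214.BADS
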