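import Vale.Agent.P214.WIN.BadC
import Vale.Agent.P214.INT.Cone

/-!
# P214, block WIN, item (6): the bad set and the properties of the remaining base points
-/

open Set Filter Topology MeasureTheory Metric
open scoped RealInnerProductSpace ENNReal

set_option linter.all false

namespace Vale.Agent.P214.BADS

open Vale.Agent.P214 Vale.Agent.P214.FV Vale.Agent.P214.MU

variable {E : Type*} [NormedAddCommGroup E] [InnerProductSpace ℝ E] [FiniteDimensional ℝ E]
  [MeasurableSpace E] [BorelSpace E]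

variable {m Q : ℕ} {T : Submodule ℝ E} {G : Set E} {h : ℝ} {ν : Measure E}
  {P : E → E →L[ℝ] E} {S : Set E} {θ' : E → ℕ} {J : E → ℝ} {z x : E} {r s R : ℝ}

/-- bounded overlap of the windows -/
lemma sum_windows {f : E → ℝ≥0∞} (hf : AEMeasurable f ν) {N : Finset E} {θ a : ℝ} (hθ : 0 < θ)
    (hsep : ∀ c ∈ N, ∀ d ∈ N, c ≠ d → θ / 4 ≤ dist c d) (hN : ∀ c ∈ N, ‖c‖ + θ ≤ a) :
    ∑ c ∈ N, ∫⁻ y in T.starProjection ⁻¹' (ball c (θ / 2)), f y ∂ν ≤
      ENNReal.ofReal (5 ^ Module.finrank ℝ E) * ∫⁻ y in T.starProjection ⁻¹' (ball 0 a), f y ∂ν := by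
  have hm : Measurable (T.starProjection : E → E) := T.starProjection.continuous.measurable
  have key := BES.sum_measure_le ((ν.withDensity f).map T.starProjection) N (t := θ / 4) (R := 2)
    (by positivity) (by norm_num) hsep (fun c => ball c (θ / 2))
    (fun c _ => by
      have e : 2 * (θ / 4) = θ / 2 := by ring
      rw [e]; exact ball_subset_closedBall)
    (fun c _ => measurableSet_ball) (ball 0 a) (fun c hc => by
      intro y hy
      rw [mem_ball, dist_eq_norm] at hy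
      rw [mem_ball, dist_zero_right]
      have h1 := hN c hc
      have : ‖y‖ ≤ ‖y - c‖ + ‖c‖ := by
        calc ‖y‖ = ‖(y - c) + c‖ := by rw [sub_add_cancel]
          _ ≤ _ := norm_add_le _ _
      linarith)
  simp only [Measure.map_apply hm measurableSet_ball,
    withDensity_apply _ (hm measurableSet_ball)] at key
  norm_num at key ⊢
  exact key

theorem bad_core (m Q : ℕ) {τ : ℝ} (hτ : 0 < τ) : ∃ ε₀ C : ℝ, 0 < ε₀ ∧ 0 < C ∧
    ∀ (T : Submodule ℝ E) (h : ℝ) (ν : Measure E) (P : E → E →L[ℝ] E) (S : Set E) (θ' : E → ℕ)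
      (J : E → ℝ) (w : E → E) (ε a θ : ℝ), BH m Q T h ν P S θ' J w ε a θ → ε ≤ ε₀ →
      ∀ η : ℝ, 0 < η → η ≤ 1 → ∃ Bad : Set E, MeasurableSet Bad ∧
        μH[m] (Bad ∩ (T : Set E)) + ν (T.starProjection ⁻¹' Bad) ≤
          ENNReal.ofReal (C * η⁻¹ * ∫ y in INT.cyl T 0 a, gsq (KMS.rel T w) (P y) y ∂ν) ∧
        ∀ x ∈ T, ‖x‖ < a - θ → x ∉ Bad →
          (∀ s, 0 < s → ‖x‖ + s ≤ a → ν.real (INT.cyl T x s) ≤ C * s ^ m ∧
            Skel.exc T ν P x s ≤ τ * s ^ m) ∧
          (∀ s, 0 < s → ‖x‖ + 2 * s ≤ a → |INT.htot m T ν x s / cg m - Q| ≤ τ) ∧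
          (∀ s, 0 < s → s ≤ θ / 4 → ∫ y in INT.cyl T x s, gsq (KMS.rel T w) (P y) y ∂ν ≤ η * s ^ m) ∧
          ∀ z, T.starProjection z = x → ∀ t, 0 < t → ‖x‖ + 4 * t ≤ a →
            (∀ s, 0 < s → s ≤ t → Q * cg m ≤ ratio m ν z s) →
            ∀ y ∈ ν.support, ‖T.starProjection (y - z)‖ ≤ t →
              ‖Tᗮ.starProjection (y - z)‖ ≤ τ * t := by
  have hcg := cg_pos m
  have hM1 := M1_pos m Q
  have hC2 := C2_pos m Q
  set τ₁ := min τ (1 / 3) with hτ₁
  have hτ₁0 : 0 < τ₁ := lt_min hτ (by norm_num)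
  obtain ⟨δ₁, C₁, hδ₁, hC₁, hMS⟩ := INT.massStable (E := E) m Q τ₁ hτ₁0
  obtain ⟨δ₂, C₃, hδ₂, hC₃, hBL⟩ := INT.bad_le_main (E := E) m Q
  set Cm := max (120 ^ m * M1 m Q) C₁ with hCm
  have hCm0 : 0 < Cm := lt_max_of_lt_right hC₁
  obtain ⟨δ₃, hδ₃, hcone⟩ := INT.cone (E := E) m (M := 4 ^ m * Cm) (η := τ) (by positivity) hτ
  set dE : ℝ := ((Module.finrank ℝ E : ℕ) : ℝ) with hdE
  have hdE0 : 0 ≤ dE := Nat.cast_nonneg _
  -- tilt threshold
  set τ' := min (min δ₁ δ₂) (min δ₃ (τ / (dE + 1))) with hτ'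
  have hτ'0 : 0 < τ' := by
    refine lt_min (lt_min hδ₁ hδ₂) (lt_min hδ₃ (by positivity))
  have hτ'1 : τ' ≤ δ₁ := (min_le_left _ _).trans (min_le_left _ _)
  have hτ'2 : τ' ≤ δ₂ := (min_le_left _ _).trans (min_le_right _ _)
  have hτ'3 : τ' ≤ δ₃ := (min_le_right _ _).trans (min_le_left _ _)
  have hτ'4 : dE * τ' ≤ τ := by
    have h1 : τ' ≤ τ / (dE + 1) := (min_le_right _ _).trans (min_le_right _ _)
    rw [le_div_iff₀ (by positivity)] at h1
    nlinarith
  obtain ⟨ε₁, hε₁, hnear⟩ := near_scale (E := E) m Q hτ₁0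
  obtain ⟨ε₂, hε₂, hwin⟩ := exists_win (E := E) m Q (δ := min δ₁ δ₂) (lt_min hδ₁ hδ₂)
  set ε₀ := min (min ε₁ ε₂) (min (min (δ₃ / (2 * C2 m Q)) (τ / C2 m Q)) (τ' / (4 * m * C₃ + 1)))
    with hε₀
  have hε₀0 : 0 < ε₀ := lt_min (lt_min hε₁ hε₂)
    (lt_min (lt_min (by positivity) (by positivity)) (by positivity))
  set K := (2 * 2 ^ m * cg m * 5 ^ m + 2 * C₁) + 4 * C₃ / τ' with hK
  have hK0 : 0 < K := by positivity
  set CC := max Cm (K * 5 ^ Module.finrank ℝ E) with hCC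
  have hCC0 : 0 < CC := lt_max_of_lt_left hCm0
  refine ⟨ε₀, CC, hε₀0, hCC0, ?_⟩
  intro T h ν P S θ' J w ε a θ H hε η hη hη1
  have hfin := H.int.finite
  have hθ := H.θ0
  have hε0 := H.ε0
  have ha1 := H.a1
  have hle1 : ε ≤ ε₁ := hε.trans ((min_le_left _ _).trans (min_le_left _ _))
  have hle2 : ε ≤ ε₂ := hε.trans ((min_le_left _ _).trans (min_le_right _ _))
  have hle3 : 2 * (C2 m Q * ε) ≤ δ₃ := by
    have := hε.trans ((min_le_right _ _).trans ((min_le_left _ _).trans (min_le_left _ _)))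
    rw [le_div_iff₀ (by positivity)] at this
    linarith
  have hle4 : C2 m Q * ε ≤ τ := by
    have := hε.trans ((min_le_right _ _).trans ((min_le_left _ _).trans (min_le_right _ _)))
    rw [le_div_iff₀ (by positivity)] at this
    linarith
  have hle5 : C₃ * (4 * ε ^ 2 * m) ≤ τ' := by
    have h1 := hε.trans ((min_le_right _ _).trans (min_le_right _ _))
    rw [le_div_iff₀ (by positivity)] at h1
    have h2 : ε ^ 2 ≤ ε := by nlinarith [H.ε1]
    have h3 : C₃ * (4 * ε ^ 2 * m) ≤ C₃ * (4 * ε * m) := by gcongr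
    nlinarith
  set f : E → ℝ := fun y => gsq (KMS.rel T w) (P y) y with hf
  have hfi : Integrable f ν := integrable_gsq H.int.stat H.ref H.small
  have hf0 : ∀ᵐ y ∂ν, 0 ≤ f y := by
    filter_upwards [ae_pt H.int.stat H.ref H.small] with y hy using hy.1
  -- the net
  obtain ⟨N, hNA, hNsep, hNcov⟩ := BES.exists_net {x : E | x ∈ T ∧ ‖x‖ < a - θ}
    ((isBounded_ball (x := (0:E)) (r := a - θ)).subset fun x hx => by
      rw [mem_ball, dist_zero_right]; exact hx.2) (t := θ / 4) (by positivity)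
  have hNT : ∀ c ∈ N, c ∈ T := fun c hc => (hNA hc).1
  have hNn : ∀ c ∈ N, ‖c‖ + θ ≤ a := fun c hc => by have := (hNA hc).2; linarith
  have hW : ∀ c ∈ N, INT.Win m Q (min δ₁ δ₂) T (ball 0 (3 / 8)) h ν P S θ' J c (θ / 4) :=
    fun c hc => hwin T h ν P S θ' J w ε a θ H hle2 c (hNT c hc) (hNn c hc)
  have e2 : 2 * (θ / 4) = θ / 2 := by ring
  set U := eBad m T ν f η (θ / 4) with hU
  set Gd : E → Set E := fun c => INT.goodSet m T ν P c (θ / 4) τ' with hGd
  have hGdm : ∀ c, MeasurableSet (Gd c) := fun c => INT.measurableSet_goodSet H.int.loc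
  have hUo : IsOpen U := isOpen_eBad hfi hf0 η (θ / 4)
  set Bd : E → Set E := fun c => (ball c (θ / 4) \ Gd c) ∪ (ball c (θ / 4) ∩ U) with hBd
  have hgoodmass : ∀ c ∈ N, ∀ x ∈ Gd c, ∀ s, 0 < s → s ≤ θ / 4 →
      (|INT.htot m T ν x s / cg m - Q| ≤ τ₁) ∧
      ∀ t, t ≤ 5 * s → t ≤ θ / 2 → ν.real (INT.cyl T x t) ≤ C₁ * s ^ m := by
    intro c hc x hx s hs hs4
    obtain ⟨h1, h2⟩ := hMS T _ h ν P S θ' J c (θ / 4) ((hW c hc).mono (min_le_left _ _)) x hx.1
      hx.2.1 s hs hs4 (fun s' h3 h4 => (hx.2.2 s' (by linarith) h4).trans hτ'1)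
    refine ⟨h1 s (by linarith) hs4, fun t ht1 ht2 => h2 t ht1 (by linarith)⟩
  -- one window
  have hone : ∀ c ∈ N, μH[m] (Bd c ∩ (T : Set E)) + ν (T.starProjection ⁻¹' Bd c) ≤
      ENNReal.ofReal (K * η⁻¹) * ∫⁻ y in T.starProjection ⁻¹' (ball c (θ / 2)),
        ENNReal.ofReal |f y| ∂ν := by
    intro c hc
    have hpc : T.starProjection c = c := Submodule.starProjection_eq_self_iff.2 (hNT c hc)
    have h1 := H.energy_bad (C₁ := C₁) (η := η) (τ := τ') (δ := 0) (hNT c hc) (hNn c hc) hC₁.le hη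
      (fun x hx s hs hs4 => (hgoodmass c hc x hx s hs hs4).2)
    have h2 := hBL T _ h ν P S θ' J c (θ / 4) ((hW c hc).mono (min_le_right _ _)) τ'
      (4 * ε ^ 2 * m) (fun y => 4 * |f y|) hτ'0 hτ'2 hle5 (fun y => by positivity)
      (hfi.abs.const_mul 4).integrableOn ?_
    swap
    · filter_upwards [ae_pt H.int.stat H.ref H.small] with y hy _
      have := hy.2.2.2.1
      have := hy.2.2.2.2
      have h3 : f y ≤ |f y| := le_abs_self _
      simp only [hf] at h3 ⊢
      linarith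
    have h3 : ENNReal.ofReal (C₃ / τ' * ∫ y in INT.cyl T c (2 * (θ / 4)), 4 * |f y| ∂ν) ≤
        ENNReal.ofReal (4 * C₃ / τ' * η⁻¹) *
          ∫⁻ y in T.starProjection ⁻¹' (ball c (θ / 2)), ENNReal.ofReal |f y| ∂ν := by
      have e : INT.cyl T c (2 * (θ / 4)) = T.starProjection ⁻¹' (ball c (θ / 2)) := by
        rw [INT.cyl, hpc, e2]
      rw [e, ← ofReal_integral_eq_lintegral_ofReal hfi.abs.integrableOn
        (Eventually.of_forall fun y => abs_nonneg _), ← ENNReal.ofReal_mul (by positivity),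
        integral_const_mul]
      refine ENNReal.ofReal_le_ofReal ?_
      have h5 : 0 ≤ ∫ y in T.starProjection ⁻¹' (ball c (θ / 2)), |f y| ∂ν :=
        integral_nonneg fun _ => abs_nonneg _
      have h6 : 1 ≤ η⁻¹ := (one_le_inv₀ hη).2 hη1
      calc C₃ / τ' * (4 * ∫ y in T.starProjection ⁻¹' (ball c (θ / 2)), |f y| ∂ν)
          = 4 * C₃ / τ' * 1 * ∫ y in T.starProjection ⁻¹' (ball c (θ / 2)), |f y| ∂ν := by ring
        _ ≤ _ := by gcongr
    have hs1 : Bd c ∩ (T : Set E) ⊆ (((T : Set E) ∩ ball c (θ / 4)) \ Gd c) ∪ (Gd c ∩ U) := by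
      rintro y ⟨hy, hyT⟩
      rcases hy with hy | hy
      · exact Or.inl ⟨⟨hyT, hy.1⟩, hy.2⟩
      · by_cases hg : y ∈ Gd c
        · exact Or.inr ⟨hg, hy.2⟩
        · exact Or.inl ⟨⟨hyT, hy.1⟩, hg⟩
    have hs2 : T.starProjection ⁻¹' Bd c ⊆ T.starProjection ⁻¹' (ball c (θ / 4) \ Gd c) ∪
        T.starProjection ⁻¹' (Gd c ∩ U) := by
      intro y hy
      rcases hy with hy | hy
      · exact Or.inl hy
      · by_cases hg : T.starProjection y ∈ Gd c
        · exact Or.inr ⟨hg, hy.2⟩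
        · exact Or.inl ⟨hy.1, hg⟩
    calc μH[m] (Bd c ∩ (T : Set E)) + ν (T.starProjection ⁻¹' Bd c)
        ≤ (μH[m] (((T : Set E) ∩ ball c (θ / 4)) \ Gd c) + μH[m] (Gd c ∩ U)) +
          (ν (T.starProjection ⁻¹' (ball c (θ / 4) \ Gd c)) + ν (T.starProjection ⁻¹' (Gd c ∩ U))) :=
          add_le_add ((measure_mono hs1).trans (measure_union_le _ _))
            ((measure_mono hs2).trans (measure_union_le _ _))
      _ = (μH[m] (((T : Set E) ∩ ball c (θ / 4)) \ Gd c) +
            ν (T.starProjection ⁻¹' (ball c (θ / 4) \ Gd c))) +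
          (μH[m] (Gd c ∩ U) + ν (T.starProjection ⁻¹' (Gd c ∩ U))) := by
          rw [add_add_add_comm]
      _ ≤ ENNReal.ofReal (4 * C₃ / τ' * η⁻¹) *
            ∫⁻ y in T.starProjection ⁻¹' (ball c (θ / 2)), ENNReal.ofReal |f y| ∂ν +
          ENNReal.ofReal ((2 * 2 ^ m * cg m * 5 ^ m + 2 * C₁) * η⁻¹) *
            ∫⁻ y in T.starProjection ⁻¹' (ball c (θ / 2)), ENNReal.ofReal |f y| ∂ν :=
          add_le_add (h2.trans h3) h1
      _ = _ := by
          rw [← add_mul, ← ENNReal.ofReal_add (by positivity) (by positivity)]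
          congr 2
          rw [hK]; ring
  set Bad := ⋃ c ∈ N, Bd c with hBad
  have hBdm : ∀ c, MeasurableSet (Bd c) := fun c =>
    (measurableSet_ball.diff (hGdm c)).union (measurableSet_ball.inter hUo.measurableSet)
  refine ⟨Bad, Finset.measurableSet_biUnion _ fun c _ => hBdm c, ?_, ?_⟩
  · have h1 : Bad ∩ (T : Set E) ⊆ ⋃ c ∈ N, (Bd c ∩ (T : Set E)) := by
      rintro y ⟨hy, hyT⟩
      simp only [hBad, mem_iUnion, exists_prop] at hy ⊢
      obtain ⟨c, hc, hyc⟩ := hy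
      exact ⟨c, hc, hyc, hyT⟩
    have h2 : T.starProjection ⁻¹' Bad ⊆ ⋃ c ∈ N, T.starProjection ⁻¹' Bd c := by
      intro y hy
      simp only [hBad, mem_preimage, mem_iUnion, exists_prop] at hy ⊢
      exact hy
    calc μH[m] (Bad ∩ (T : Set E)) + ν (T.starProjection ⁻¹' Bad)
        ≤ ∑ c ∈ N, μH[m] (Bd c ∩ (T : Set E)) + ∑ c ∈ N, ν (T.starProjection ⁻¹' Bd c) :=
          add_le_add ((measure_mono h1).trans (measure_biUnion_finset_le _ _))
            ((measure_mono h2).trans (measure_biUnion_finset_le _ _))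
      _ = ∑ c ∈ N, (μH[m] (Bd c ∩ (T : Set E)) + ν (T.starProjection ⁻¹' Bd c)) :=
          Finset.sum_add_distrib.symm
      _ ≤ ∑ c ∈ N, ENNReal.ofReal (K * η⁻¹) *
            ∫⁻ y in T.starProjection ⁻¹' (ball c (θ / 2)), ENNReal.ofReal |f y| ∂ν :=
          Finset.sum_le_sum hone
      _ = ENNReal.ofReal (K * η⁻¹) * ∑ c ∈ N,
            ∫⁻ y in T.starProjection ⁻¹' (ball c (θ / 2)), ENNReal.ofReal |f y| ∂ν := by
          rw [Finset.mul_sum]
      _ ≤ ENNReal.ofReal (K * η⁻¹) * (ENNReal.ofReal (5 ^ Module.finrank ℝ E) *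
            ∫⁻ y in T.starProjection ⁻¹' (ball 0 a), ENNReal.ofReal |f y| ∂ν) := by
          gcongr
          exact sum_windows hfi.abs.aemeasurable.ennreal_ofReal hθ hNsep hNn
      _ = ENNReal.ofReal (K * 5 ^ Module.finrank ℝ E * η⁻¹ *
            ∫ y in INT.cyl T 0 a, f y ∂ν) := by
          have e : INT.cyl T (0:E) a = T.starProjection ⁻¹' (ball 0 a) := by
            rw [INT.cyl, map_zero]
          have e' : ∫ y in INT.cyl T 0 a, f y ∂ν = ∫ y in T.starProjection ⁻¹' (ball 0 a), |f y| ∂ν := by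
            rw [e]
            refine setIntegral_congr_ae (T.starProjection.continuous.measurable measurableSet_ball) ?_
            filter_upwards [hf0] with y hy _
            rw [abs_of_nonneg hy]
          rw [e', ← ofReal_integral_eq_lintegral_ofReal hfi.abs.integrableOn
            (Eventually.of_forall fun y => abs_nonneg _), ← ENNReal.ofReal_mul (by positivity),
            ← ENNReal.ofReal_mul (by positivity)]
          congr 1
          ring
      _ ≤ _ := by
          refine ENNReal.ofReal_le_ofReal ?_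
          have h5 := H.en_nonneg (INT.cyl T 0 a)
          have h6 : K * 5 ^ Module.finrank ℝ E ≤ CC := le_max_right _ _
          gcongr
  · intro x hxT hxa hxB
    have hpx : T.starProjection x = x := Submodule.starProjection_eq_self_iff.2 hxT
    obtain ⟨c, hc, hxc⟩ : ∃ c ∈ N, x ∈ ball c (θ / 4) := by
      have := hNcov ⟨hxT, hxa⟩
      simpa only [mem_iUnion, exists_prop] using this
    have hxBd : x ∉ Bd c := fun hx => hxB (mem_biUnion hc hx)
    have hxG : x ∈ Gd c := by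
      by_contra hcon
      exact hxBd (Or.inl ⟨hxc, hcon⟩)
    have hxU : x ∉ U := fun hx => hxBd (Or.inr ⟨hxc, hx⟩)
    have hmass : ∀ s, 0 < s → ‖x‖ + s ≤ a → ν.real (INT.cyl T x s) ≤ Cm * s ^ m := by
      intro s hs hxs
      rcases le_or_gt s (θ / 4) with h4 | h4
      · refine ((hgoodmass c hc x hxG s hs h4).2 s (by linarith) (by linarith)).trans ?_
        have : C₁ ≤ Cm := le_max_right _ _
        gcongr
      · refine (H.mass_le hxT (by linarith) hxs).trans ?_
        have : 120 ^ m * M1 m Q ≤ Cm := le_max_left _ _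
        gcongr
    have hnr : ∀ s, 0 < s → ‖x‖ + 2 * s ≤ a → |INT.htot m T ν x s / cg m - Q| ≤ τ₁ := by
      intro s hs hxs
      rcases le_or_gt s (θ / 4) with h4 | h4
      · exact (hgoodmass c hc x hxG s hs h4).1
      · have h5 := hnear T h ν P S θ' J w ε a θ H hle1 x hxT (2 * s) (by linarith) hxs
        have e : 2 * s / 2 = s := by ring
        rwa [e] at h5
    have hex : ∀ s, 0 < s → ‖x‖ + s ≤ a → Skel.exc T ν P x s ≤ τ * s ^ m ∧
        INT.exc m T ν P x s ≤ δ₃ := by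
      intro s hs hxs
      rcases le_or_gt s (θ / 4) with h4 | h4
      · have h5 := hxG.2.2 s hs h4
        refine ⟨(H.sexc_le_iexc hxT hs).trans ?_, h5.trans hτ'3⟩
        have h6 : dE * INT.exc m T ν P x s ≤ dE * τ' := by gcongr
        exact mul_le_mul_of_nonneg_right (h6.trans hτ'4) (by positivity)
      · have h5 := H.sexc_le hxT (s := s) (by linarith) hxs
        refine ⟨h5.trans (by gcongr), (H.iexc_le hxT hs).trans (le_trans ?_ hle3)⟩
        rw [← div_le_iff₀ (by positivity)] at h5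
        gcongr
    refine ⟨fun s hs hxs => ⟨(hmass s hs hxs).trans ?_, (hex s hs hxs).1⟩,
      fun s hs hxs => (hnr s hs hxs).trans (min_le_left _ _), ?_, ?_⟩
    · have : Cm ≤ CC := le_max_left _ _
      gcongr
    · intro s hs hs4
      by_contra hcon
      exact hxU ⟨s, hs, hs4, not_le.1 hcon⟩
    · intro z hz t ht hxt hQ y hy hyt
      have ez1 : INT.cyl T z (4 * t) = INT.cyl T x (4 * t) := by
        rw [← INT.cyl_star, hz]
      have ez2 : INT.exc m T ν P z (4 * t) = INT.exc m T ν P x (4 * t) := by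
        rw [← INT.exc_star, hz]
      have ez3 : INT.htot m T ν z t = INT.htot m T ν x t := by
        rw [← INT.htot_star, hz]
      refine hcone T (ball 0 (3 / 8)) h ν P S θ' J H.int Q z t ht ?_ ?_ ?_ hQ ?_ y hy hyt
      · rw [hz]
        intro v hv
        rw [mem_ball, dist_eq_norm] at hv
        rw [mem_ball, dist_zero_right]
        have : ‖v‖ ≤ ‖v - x‖ + ‖x‖ := by
          calc ‖v‖ = ‖(v - x) + x‖ := by rw [sub_add_cancel]
            _ ≤ _ := norm_add_le _ _
        linarith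
      · rw [ez1]
        refine (hmass (4 * t) (by linarith) hxt).trans (le_of_eq ?_)
        rw [mul_pow]; ring
      · rw [ez2]
        exact (hex (4 * t) (by linarith) hxt).2
      · rw [ez3]
        have h5 := (abs_le.1 (hnr t ht (by linarith))).2
        have h6 : τ₁ ≤ 1 / 3 := min_le_right _ _
        rw [← div_le_iff₀ hcg]
        linarith

end Vale.Agent.P214.BADS
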