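import Vale.Agent.P214.KMS.Sheet
import Vale.Agent.P214.FV.Trunc
import Vale.Agent.P214.FM.Fermi
import Vale.Agent.P214.KMS.Main

/-!
# P214, block WIN: Caccioppoli inequality (L4)
-/

open Set Filter Topology MeasureTheory Metric
open scoped RealInnerProductSpace ContDiff

set_option linter.all false

namespace Vale.Agent.P214.WIN

open Vale.Agent.P214.FV Vale.Agent.P214.Skel

variable {E : Type*} [NormedAddCommGroup E] [InnerProductSpace ℝ E] [FiniteDimensional ℝ E]

/-! ### half of the squared norm -/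

lemma contDiff_half {v : E → E} {n : WithTop ℕ∞} (hv : ContDiff ℝ n v) :
    ContDiff ℝ n fun y => ‖v y‖ ^ 2 / 2 := (hv.norm_sq ℝ).div_const 2

lemma fderiv_half {v : E → E} (hv : Differentiable ℝ v) (y z : E) :
    fderiv ℝ (fun y => ‖v y‖ ^ 2 / 2) y z = ⟪v y, fderiv ℝ v y z⟫ := by
  have h1 : HasFDerivAt (fun y => ‖v y‖ ^ 2 / 2)
      ((2⁻¹ : ℝ) • (2 • (innerSL ℝ (v y)).comp (fderiv ℝ v y))) y := by
    have := ((hv y).hasFDerivAt.norm_sq).const_mul (2⁻¹ : ℝ)
    refine this.congr_of_eventuallyEq (Eventually.of_forall fun y => ?_)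
    simp only
    ring
  rw [h1.fderiv]
  simp

lemma fderiv_half_id (w z : E) : fderiv ℝ (fun w : E => ‖w‖ ^ 2 / 2) w z = ⟪w, z⟫ := by
  have := fderiv_half (v := fun w : E => w) differentiable_id w z
  rw [this]
  have h2 : fderiv ℝ (fun w : E => w) w = ContinuousLinearMap.id ℝ E := fderiv_id
  rw [h2]
  rfl

lemma hess_half {v : E → E} (hv : ContDiff ℝ 2 v) (B : E →L[ℝ] E) (y : E) :
    hess (fun y => ‖v y‖ ^ 2 / 2) B y = gsq v B y + ⟪v y, lap v B y⟫ := by
  have hg : ContDiff ℝ 2 (fun s : ℝ => s / 2) := by fun_prop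
  have hΓ : ContDiff ℝ 2 (fun w : E => ‖w‖ ^ 2 / 2) := contDiff_half contDiff_id
  rw [hess_comp (Γ := fun w : E => ‖w‖ ^ 2 / 2) hΓ hv]
  congr 1
  · refine Finset.sum_congr rfl fun k _ => ?_
    have h1 : fderiv ℝ (fun w : E => ‖w‖ ^ 2 / 2) = fun w => innerSL ℝ w := by
      funext w
      ext z
      rw [fderiv_half_id]
      rfl
    rw [h1]
    have h2 : HasFDerivAt (fun w : E => innerSL ℝ w) (innerSL ℝ : E →L[ℝ] E →L[ℝ] ℝ) (v y) :=
      (innerSL ℝ : E →L[ℝ] E →L[ℝ] ℝ).hasFDerivAt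
    rw [h2.fderiv]
    rfl
  · rw [fderiv_half_id]

variable [MeasurableSpace E] [BorelSpace E]
variable {m : ℕ} {T : Submodule ℝ E} {G : Set E} {h : ℝ} {ν : Measure E} {P : E → E →L[ℝ] E}

/-- **Caccioppoli**, general cut-off -/
theorem cacc (hC : CylStat m T G h ν P) {v : E → E} (hv : ContDiff ℝ 2 v) {ψ : E → ℝ}
    (hψ : ContDiff ℝ 1 ψ) {K : Set E} (hK : IsCompact K) (hKG : K ⊆ G)
    (h0 : ∀ y, T.starProjection y ∉ K → ψ y = 0) {A B : ℝ}
    (hA : ∀ y, ‖fderiv ℝ ψ y‖ ≤ A) (hψ1 : ∀ y, |ψ y| ≤ 1)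
    (hlap : ∀ᵐ y ∂ν, T.starProjection y ∈ G → ‖lap v (P y) y‖ ≤ B * √(gsq v (P y) y)) :
    ∫ y, ψ y ^ 2 * gsq v (P y) y ∂ν ≤
      (2 * B ^ 2 + 8 * A ^ 2) * ∫ y in {y | T.starProjection y ∈ K}, ‖v y‖ ^ 2 ∂ν := by
  haveI := hC.fin
  have hv1 : ContDiff ℝ 1 v := hv.of_le (by norm_num)
  have hvd : Differentiable ℝ v := hv.differentiable (by norm_num)
  have hmK : MeasurableSet {y : E | T.starProjection y ∈ K} :=
    (hK.isClosed.preimage T.starProjection.continuous).measurableSet
  set F : E → ℝ := fun y => ‖v y‖ ^ 2 / 2 with hFdef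
  have hF2 : ContDiff ℝ 2 F := contDiff_half hv
  have hφ : ContDiff ℝ 1 fun y => ψ y ^ 2 := hψ.pow 2
  have hb : BaseCpt T G fun y => ψ y ^ 2 := ⟨K, hK, hKG, fun y hy => by simp [h0 y hy]⟩
  have key := hC.prod' hφ (contDiff_grad hF2) hb
  -- integrability
  have j1 : Integrable (fun y => ψ y ^ 2 * gsq v (P y) y) ν := by
    refine hC.integrable_gen (Φ := fun q => ψ q.2 ^ 2 * gsq v q.1 q.2) ?_ hK hKG
      fun B y hy => by simp [h0 y hy]
    exact ((hψ.continuous.comp continuous_snd).pow 2).mul (continuous_gsq hv1)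
  have j2 : Integrable (fun y => ‖v y‖ ^ 2) (ν.restrict {y | T.starProjection y ∈ K}) := by
    have hcpt := isCompact_slab T hK h
    obtain ⟨c, hc⟩ := hcpt.exists_bound_of_continuousOn (f := fun y => ‖v y‖ ^ 2)
      ((hv.continuous.norm.pow 2).continuousOn)
    refine Integrable.mono' (integrable_const c) (hv.continuous.norm.pow 2).aestronglyMeasurable ?_
    rw [ae_restrict_iff' hmK]
    filter_upwards [hC.slab] with y hy hyK
    exact hc y ⟨hyK, hy (hKG hyK)⟩
  have j3 : Integrable (fun y => ψ y ^ 2 * hess F (P y) y) ν :=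
    hC.integrable_prod₁ hφ.continuous (contDiff_grad hF2) hb
  have j4 : Integrable (fun y => fderiv ℝ (fun y => ψ y ^ 2) y (P y (grad F y))) ν :=
    hC.integrable_prod₂ hφ (contDiff_grad hF2).continuous hb
  -- pointwise inequality
  have hpt : ∀ᵐ y ∂ν, ψ y ^ 2 * gsq v (P y) y ≤ 2 * (ψ y ^ 2 * hess F (P y) y +
      fderiv ℝ (fun y => ψ y ^ 2) y (P y (grad F y))) +
      {y : E | T.starProjection y ∈ K}.indicator (fun y => (2 * B ^ 2 + 8 * A ^ 2) * ‖v y‖ ^ 2) y := by
    filter_upwards [hC.proj, hlap] with y hy hyl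
    obtain ⟨S, hS, hP⟩ := hy
    by_cases hyK : T.starProjection y ∈ K
    · rw [indicator_of_mem (show y ∈ {y : E | T.starProjection y ∈ K} from hyK)]
      have hyl := hyl (hKG hyK)
      rw [hP] at hyl ⊢
      set g := gsq v S.starProjection y with hg
      have hg0 : 0 ≤ g := gsq_nonneg v S y
      have e1 : hess F S.starProjection y = g + ⟪v y, lap v S.starProjection y⟫ := hess_half hv _ y
      have e2 : fderiv ℝ (fun y => ψ y ^ 2) y (S.starProjection (grad F y)) =
          2 * ψ y * ⟪v y, fderiv ℝ v y (S.starProjection (grad ψ y))⟫ := by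
        have h1 : fderiv ℝ (fun y => ψ y ^ 2) y = (2 * ψ y) • fderiv ℝ ψ y := by
          have := ((hψ.differentiable (by norm_num) y).hasFDerivAt.pow 2).fderiv
          rw [this]
          ext z
          simp
        rw [h1]
        have h2 : fderiv ℝ ψ y (S.starProjection (grad F y)) =
            fderiv ℝ F y (S.starProjection (grad ψ y)) := by
          rw [← inner_grad, ← inner_grad, real_inner_comm, Submodule.inner_starProjection_left_eq_right]
        rw [ContinuousLinearMap.smul_apply, h2, hFdef, fderiv_half hvd, smul_eq_mul]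
      have e3 : |⟪v y, fderiv ℝ v y (S.starProjection (grad ψ y))⟫| ≤ A * (‖v y‖ * √g) := by
        refine (abs_cross_le v S y (v y) (grad ψ y)).trans ?_
        gcongr
        refine (norm_star_le S _).trans ?_
        have : ‖grad ψ y‖ = ‖fderiv ℝ ψ y‖ := by
          unfold grad
          exact (InnerProductSpace.toDual ℝ E).symm.norm_map _
        rw [this]
        exact hA y
      have e4 : |⟪v y, lap v S.starProjection y⟫| ≤ ‖v y‖ * (B * √g) :=
        (abs_real_inner_le_norm _ _).trans (by gcongr)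
      have hs : √g ^ 2 = g := Real.sq_sqrt hg0
      have hA0 : 0 ≤ A := (norm_nonneg _).trans (hA y)
      rw [e1, e2]
      have a3 := neg_abs_le ⟪v y, fderiv ℝ v y (S.starProjection (grad ψ y))⟫
      have a3' := le_abs_self ⟪v y, fderiv ℝ v y (S.starProjection (grad ψ y))⟫
      have a4 := neg_abs_le ⟪v y, lap v S.starProjection y⟫
      set X := ⟪v y, fderiv ℝ v y (S.starProjection (grad ψ y))⟫ with hX
      set Y := ⟪v y, lap v S.starProjection y⟫ with hY
      set s := √g with hsdef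
      set a := ‖v y‖ with ha
      have ha0 : 0 ≤ a := norm_nonneg _
      have hs0 : 0 ≤ s := Real.sqrt_nonneg _
      have hp1 := hψ1 y
      set p := ψ y with hp
      have hp2 : p ^ 2 ≤ 1 := by
        rw [← sq_abs]; exact pow_le_one₀ (abs_nonneg _) hp1
      -- the two bad terms
      have b1 : p ^ 2 * Y ≥ -(p ^ 2 * s ^ 2 / 4 + B ^ 2 * a ^ 2) := by
        have h1 : -(a * (B * s)) ≤ Y := by linarith
        have h2 : p ^ 2 * (a * (B * s)) ≤ p ^ 2 * s ^ 2 / 4 + B ^ 2 * a ^ 2 := by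
          have h3 : 0 ≤ p ^ 2 * (s / 2 - B * a) ^ 2 := by positivity
          have h4 : p ^ 2 * (B ^ 2 * a ^ 2) ≤ B ^ 2 * a ^ 2 := by
            have : 0 ≤ B ^ 2 * a ^ 2 := by positivity
            nlinarith
          nlinarith
        have h5 : p ^ 2 * -(a * (B * s)) ≤ p ^ 2 * Y := by gcongr
        linarith
      have b2 : 2 * p * X ≥ -(p ^ 2 * s ^ 2 / 4 + 4 * A ^ 2 * a ^ 2) := by
        have h1 : |2 * p * X| ≤ 2 * |p| * (A * (a * s)) := by
          rw [abs_mul, abs_mul, abs_two]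
          gcongr
        have h2 : 2 * |p| * (A * (a * s)) ≤ p ^ 2 * s ^ 2 / 4 + 4 * A ^ 2 * a ^ 2 := by
          have h3 : 0 ≤ (|p| * s / 2 - 2 * A * a) ^ 2 := by positivity
          have h4 : |p| ^ 2 = p ^ 2 := sq_abs p
          nlinarith
        have := neg_abs_le (2 * p * X)
        linarith
      rw [← hs]
      nlinarith
    · rw [indicator_of_notMem (show y ∉ {y : E | T.starProjection y ∈ K} from hyK)]
      have hopen : IsOpen {z : E | T.starProjection z ∉ K} :=
        hK.isClosed.isOpen_compl.preimage T.starProjection.continuous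
      have h1 : (fun y => ψ y ^ 2) =ᶠ[𝓝 y] fun _ => (0 : ℝ) := by
        filter_upwards [hopen.mem_nhds hyK] with z hz
        simp [h0 z hz]
      rw [h1.fderiv_eq, h0 y hyK]
      simp
  -- integrate
  have i5 := (j3.add j4).const_mul 2
  have i6 : Integrable ({y : E | T.starProjection y ∈ K}.indicator
      (fun y => (2 * B ^ 2 + 8 * A ^ 2) * ‖v y‖ ^ 2)) ν := by
    rw [integrable_indicator_iff hmK]
    exact j2.const_mul _
  have h5 := integral_mono_ae j1 (i5.add i6) hpt
  have h7 : ∫ y, ψ y ^ 2 * hess F (P y) y ∂ν = -∫ y, fderiv ℝ (fun y => ψ y ^ 2) y (P y (grad F y)) ∂ν :=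
    key
  refine h5.trans (le_of_eq ?_)
  rw [integral_add' i5 i6, integral_indicator hmK, integral_const_mul, integral_const_mul,
    integral_add' j3 j4, h7]
  ring

/-! ### radial cut-off of the base variable -/

omit [MeasurableSpace E] [BorelSpace E] in
/-- cut-off: `1` over `closedBall z a`, `0` off `closedBall z b` -/
noncomputable def bcut (T : Submodule ℝ E) (z : E) (a b : ℝ) (y : E) : ℝ :=
  Real.smoothTransition ((b ^ 2 - ‖T.starProjection y - z‖ ^ 2) / (b ^ 2 - a ^ 2))

section cut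

omit [MeasurableSpace E] [BorelSpace E]

variable {z : E} {a b : ℝ}

lemma contDiff_bcut (n : ℕ∞) : ContDiff ℝ n (bcut T z a b) := by
  unfold bcut
  exact Real.smoothTransition.contDiff.comp
    ((contDiff_const.sub ((T.starProjection.contDiff.sub contDiff_const).norm_sq ℝ)).div_const _)

lemma bcut_nonneg (y : E) : 0 ≤ bcut T z a b y := Real.smoothTransition.nonneg _

lemma bcut_le_one (y : E) : bcut T z a b y ≤ 1 := Real.smoothTransition.le_one _

lemma abs_bcut_le (y : E) : |bcut T z a b y| ≤ 1 := by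
  rw [abs_of_nonneg (bcut_nonneg y)]; exact bcut_le_one y

lemma bcut_eq_one (h0 : 0 ≤ a) (hab : a < b) {y : E} (hy : ‖T.starProjection y - z‖ ≤ a) :
    bcut T z a b y = 1 := by
  refine Real.smoothTransition.one_of_one_le ?_
  have h1 : 0 < b ^ 2 - a ^ 2 := by nlinarith
  rw [le_div_iff₀ h1, one_mul]
  have : ‖T.starProjection y - z‖ ^ 2 ≤ a ^ 2 := by gcongr
  linarith

lemma bcut_eq_zero (h0 : 0 ≤ a) (hab : a < b) {y : E} (hy : b ≤ ‖T.starProjection y - z‖) :
    bcut T z a b y = 0 := by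
  refine Real.smoothTransition.zero_of_nonpos ?_
  have h1 : 0 < b ^ 2 - a ^ 2 := by nlinarith
  have h2 : b ^ 2 ≤ ‖T.starProjection y - z‖ ^ 2 := by
    have : 0 ≤ b := h0.trans hab.le
    gcongr
  exact div_nonpos_of_nonpos_of_nonneg (by linarith) h1.le

lemma norm_fderiv_bcut_le (h0 : 0 ≤ a) (hab : a < b) (y : E) :
    ‖fderiv ℝ (bcut T z a b) y‖ ≤ 2 * FM.cT / (b - a) := by
  have hcT : 0 ≤ FM.cT := FM.cT_nonneg
  have hba : 0 < b - a := sub_pos.2 hab
  by_cases hy : b < ‖T.starProjection y - z‖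
  · have h1 : bcut T z a b =ᶠ[𝓝 y] fun _ => (0 : ℝ) := by
      have hopen : IsOpen {x : E | b < ‖T.starProjection x - z‖} :=
        isOpen_lt continuous_const ((T.starProjection.continuous.sub continuous_const).norm)
      filter_upwards [hopen.mem_nhds hy] with x hx
      exact bcut_eq_zero h0 hab (le_of_lt hx)
    rw [h1.fderiv_eq]
    simp only [fderiv_fun_const, Pi.zero_apply, norm_zero]
    positivity
  · push Not at hy
    have h1 : 0 < b ^ 2 - a ^ 2 := by nlinarith
    refine ContinuousLinearMap.opNorm_le_bound _ (by positivity) fun v => ?_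
    have h2 : HasFDerivAt (fun y : E => (b ^ 2 - ‖T.starProjection y - z‖ ^ 2) / (b ^ 2 - a ^ 2))
        ((b ^ 2 - a ^ 2)⁻¹ • (-(2 • (innerSL ℝ (T.starProjection y - z)).comp T.starProjection) :
          E →L[ℝ] ℝ)) y := by
      have h3 : HasFDerivAt (fun y : E => T.starProjection y - z) T.starProjection y :=
        T.starProjection.hasFDerivAt.sub_const z
      have h4 := ((hasFDerivAt_const (b ^ 2) y).sub h3.norm_sq).const_mul ((b ^ 2 - a ^ 2)⁻¹)
      refine (h4.congr_fderiv ?_).congr_of_eventuallyEq (Eventually.of_forall fun y => ?_)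
      · rw [zero_sub]
      · simp only [Pi.sub_apply]
        rw [div_eq_inv_mul]
    have h5 : HasDerivAt Real.smoothTransition
        (deriv Real.smoothTransition ((b ^ 2 - ‖T.starProjection y - z‖ ^ 2) / (b ^ 2 - a ^ 2)))
        ((b ^ 2 - ‖T.starProjection y - z‖ ^ 2) / (b ^ 2 - a ^ 2)) :=
      ((Real.smoothTransition.contDiff (n := 1)).differentiable (by norm_num) _).hasDerivAt
    have h6 := (h5.comp_hasFDerivAt y h2).fderiv
    have h7 : fderiv ℝ (bcut T z a b) y = _ := h6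
    rw [h7]
    simp only [ContinuousLinearMap.smul_apply, ContinuousLinearMap.neg_apply,
      ContinuousLinearMap.comp_apply, innerSL_apply_apply, smul_eq_mul, nsmul_eq_mul, Nat.cast_ofNat]
    rw [norm_mul, Real.norm_eq_abs, Real.norm_eq_abs]
    have h8 := FM.abs_deriv_le_cT ((b ^ 2 - ‖T.starProjection y - z‖ ^ 2) / (b ^ 2 - a ^ 2))
    have h9 : |(b ^ 2 - a ^ 2)⁻¹ * -(2 * ⟪T.starProjection y - z, T.starProjection v⟫)| ≤
        2 / (b - a) * ‖v‖ := by
      rw [abs_mul, abs_neg, abs_mul, abs_two, abs_of_pos (inv_pos.2 h1)]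
      have h10 : |⟪T.starProjection y - z, T.starProjection v⟫| ≤ b * ‖v‖ :=
        (abs_real_inner_le_norm _ _).trans
          (mul_le_mul hy (norm_star_le T v) (norm_nonneg _) (h0.trans hab.le))
      calc (b ^ 2 - a ^ 2)⁻¹ * (2 * |⟪T.starProjection y - z, T.starProjection v⟫|)
          ≤ (b ^ 2 - a ^ 2)⁻¹ * (2 * (b * ‖v‖)) := by gcongr
        _ ≤ 2 / (b - a) * ‖v‖ := by
            have e : b ^ 2 - a ^ 2 = (b - a) * (b + a) := by ring
            rw [e]
            have hb : 0 < b := lt_of_le_of_lt h0 hab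
            have h11 : ((b - a) * (b + a))⁻¹ * (2 * (b * ‖v‖)) = 2 / (b - a) * ‖v‖ * (b / (b + a)) := by
              field_simp
            rw [h11]
            refine mul_le_of_le_one_right (by positivity) ?_
            rw [div_le_one (by linarith)]
            linarith
    calc |deriv Real.smoothTransition ((b ^ 2 - ‖T.starProjection y - z‖ ^ 2) / (b ^ 2 - a ^ 2))| *
          |(b ^ 2 - a ^ 2)⁻¹ * -(2 * ⟪T.starProjection y - z, T.starProjection v⟫)|
        ≤ FM.cT * (2 / (b - a) * ‖v‖) := by gcongr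
      _ = 2 * FM.cT / (b - a) * ‖v‖ := by ring

end cut

/-- **Caccioppoli over balls** -/
theorem cacc_ball {z : E} {r θ : ℝ} (hC : CylStat m T (ball z r) h ν P) {v : E → E}
    (hv : ContDiff ℝ 2 v) (hθ : 0 < θ) (hθr : θ < r) {B : ℝ}
    (hlap : ∀ᵐ y ∂ν, T.starProjection y ∈ ball z r → ‖lap v (P y) y‖ ≤ B * √(gsq v (P y) y)) :
    ∫ y in cylSet T z (r - θ), gsq v (P y) y ∂ν ≤
      (2 * B ^ 2 + 8 * (4 * FM.cT / θ) ^ 2) * ∫ y in cylSet T z r, ‖v y‖ ^ 2 ∂ν := by
  haveI := hC.fin
  set a := r - θ with ha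
  set b := r - θ / 2 with hb
  have ha0 : 0 ≤ a := by linarith
  have hab : a < b := by linarith
  have hbr : b < r := by linarith
  have hv1 : ContDiff ℝ 1 v := hv.of_le (by norm_num)
  have hKG : closedBall z b ⊆ ball z r := closedBall_subset_ball hbr
  have h0 : ∀ y, T.starProjection y ∉ closedBall z b → bcut T z a b y = 0 := by
    intro y hy
    rw [mem_closedBall, dist_eq_norm, not_le] at hy
    exact bcut_eq_zero ha0 hab hy.le
  have key := cacc hC hv (contDiff_bcut (T := T) (z := z) (a := a) (b := b) 1)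
    (isCompact_closedBall z b) hKG h0 (A := 4 * FM.cT / θ) (B := B) (fun y => by
      refine (norm_fderiv_bcut_le ha0 hab y).trans (le_of_eq ?_)
      rw [ha, hb]
      have : r - θ / 2 - (r - θ) = θ / 2 := by ring
      rw [this]
      field_simp
      ring) abs_bcut_le hlap
  have hm1 : MeasurableSet (cylSet T z a) :=
    (isOpen_ball.preimage T.starProjection.continuous).measurableSet
  have hm2 : MeasurableSet (cylSet T z r) :=
    (isOpen_ball.preimage T.starProjection.continuous).measurableSet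
  have hmK : MeasurableSet {y : E | T.starProjection y ∈ closedBall z b} :=
    (isClosed_closedBall.preimage T.starProjection.continuous).measurableSet
  have j1 : Integrable (fun y => bcut T z a b y ^ 2 * gsq v (P y) y) ν := by
    refine hC.integrable_gen (Φ := fun q => bcut T z a b q.2 ^ 2 * gsq v q.1 q.2) ?_
      (isCompact_closedBall z b) hKG fun B y hy => by simp [h0 y hy]
    exact (((contDiff_bcut (T := T) (z := z) (a := a) (b := b) 1).continuous.comp
      continuous_snd).pow 2).mul (continuous_gsq hv1)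
  have hg0 : ∀ᵐ y ∂ν, 0 ≤ gsq v (P y) y := by
    filter_upwards [hC.proj] with y hy
    obtain ⟨S, -, hP⟩ := hy
    rw [hP]
    exact gsq_nonneg v S y
  -- left side
  have e1 : ∫ y in cylSet T z a, gsq v (P y) y ∂ν ≤ ∫ y, bcut T z a b y ^ 2 * gsq v (P y) y ∂ν := by
    have h1 : ∫ y in cylSet T z a, gsq v (P y) y ∂ν =
        ∫ y in cylSet T z a, bcut T z a b y ^ 2 * gsq v (P y) y ∂ν := by
      refine setIntegral_congr_fun hm1 fun y hy => ?_
      have hy' : ‖T.starProjection y - z‖ ≤ a := by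
        have : T.starProjection y ∈ ball z a := hy
        rw [mem_ball, dist_eq_norm] at this
        exact this.le
      rw [bcut_eq_one ha0 hab hy', one_pow, one_mul]
    rw [h1]
    refine setIntegral_le_integral j1 ?_
    filter_upwards [hg0] with y hy
    have : 0 ≤ bcut T z a b y ^ 2 := by positivity
    exact mul_nonneg this hy
  -- right side
  have j2 : IntegrableOn (fun y => ‖v y‖ ^ 2) (cylSet T z r) ν := by
    have hcpt := isCompact_slab T (isCompact_closedBall z r) h
    obtain ⟨c, hc⟩ := hcpt.exists_bound_of_continuousOn (f := fun y => ‖v y‖ ^ 2)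
      ((hv.continuous.norm.pow 2).continuousOn)
    refine Integrable.mono' (integrable_const c) (hv.continuous.norm.pow 2).aestronglyMeasurable ?_
    rw [ae_restrict_iff' hm2]
    filter_upwards [hC.slab] with y hy hyK
    exact hc y ⟨ball_subset_closedBall hyK, hy hyK⟩
  have e2 : ∫ y in {y | T.starProjection y ∈ closedBall z b}, ‖v y‖ ^ 2 ∂ν ≤
      ∫ y in cylSet T z r, ‖v y‖ ^ 2 ∂ν := by
    refine setIntegral_mono_set j2 (Eventually.of_forall fun y => by positivity) ?_
    exact Eventually.of_forall fun y hy => hKG hy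
  calc _ ≤ _ := e1
    _ ≤ _ := key
    _ ≤ _ := by gcongr

/-- **(L4)** for the height relative to an exact reference -/
theorem cacc_rel {z : E} {r θ : ℝ} (hC : CylStat m T (ball z r) h ν P) {w : E → E}
    (hw : KMS.Ref T w) (hD : ∀ y, T.starProjection y ∈ ball z r → ‖fderiv ℝ w y‖ ≤ 1)
    (hDD : ∀ y, T.starProjection y ∈ ball z r → ‖fderiv ℝ (fderiv ℝ w) y‖ ≤ 1)
    (hex : ∀ y, T.starProjection y ∈ ball z r →
      lap w (KMS.gpl T (fderiv ℝ w y)).starProjection y = 0)
    (hθ : 0 < θ) (hθr : θ < r) (hr : r ≤ 1) :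
    ∫ y in cylSet T z (r - θ), gsq (KMS.rel T w) (P y) y ∂ν ≤
      (72 * m + 128 * FM.cT ^ 2) * θ⁻¹ ^ 2 * ∫ y in cylSet T z r, ‖KMS.rel T w y‖ ^ 2 ∂ν := by
  have hlap : ∀ᵐ y ∂ν, T.starProjection y ∈ ball z r →
      ‖lap (KMS.rel T w) (P y) y‖ ≤ (6 * √m) * √(gsq (KMS.rel T w) (P y) y) := by
    filter_upwards [hC.proj] with y hy hyr
    obtain ⟨S, hS, hP⟩ := hy
    rw [hP, hw.lap_rel, norm_neg]
    have h1 := KMS.norm_lap_le hw hS hC.dimT (hex y hyr)
    have h2 := hD y hyr
    have h3 := hDD y hyr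
    set g := gsq (KMS.rel T w) S.starProjection y with hg
    have hg0 : 0 ≤ g := gsq_nonneg _ S y
    have hg1 : g ≤ 4 * m := by
      rw [hg, hw.gsq_eq_ew]
      have h4 := KMS.ew_le T (fderiv ℝ w y) S
      rw [hS] at h4
      refine h4.trans ?_
      have : (1 + ‖fderiv ℝ w y‖) ^ 2 ≤ 4 := by nlinarith [norm_nonneg (fderiv ℝ w y)]
      gcongr
    have hs : √g ≤ 2 * √m := by
      rw [Real.sqrt_le_left (by positivity), mul_pow, Real.sq_sqrt (by positivity)]
      linarith
    have hs2 : g = √g * √g := (Real.mul_self_sqrt hg0).symm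
    have hs0 := Real.sqrt_nonneg g
    calc ‖lap w S.starProjection y‖ ≤ ‖fderiv ℝ (fderiv ℝ w) y‖ *
        (2 * g + 2 * ‖fderiv ℝ w y‖ * (√m * √g)) := h1
      _ ≤ 1 * (2 * g + 2 * 1 * (√m * √g)) := by gcongr
      _ = 2 * (√g * √g) + 2 * (√m * √g) := by rw [← hs2]; ring
      _ ≤ 2 * (2 * √m * √g) + 2 * (√m * √g) := by gcongr
      _ = 6 * √m * √g := by ring
  have key := cacc_ball hC (hw.contDiff_rel.of_le KMS.two_le_inf) hθ hθr hlap
  refine key.trans ?_
  have h0 : 0 ≤ ∫ y in cylSet T z r, ‖KMS.rel T w y‖ ^ 2 ∂ν := integral_nonneg fun y => by positivity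
  have hm : √(m : ℝ) ^ 2 = m := Real.sq_sqrt (by positivity)
  have h1 : 2 * (6 * √m) ^ 2 + 8 * (4 * FM.cT / θ) ^ 2 ≤ (72 * m + 128 * FM.cT ^ 2) * θ⁻¹ ^ 2 := by
    have h2 : (2 : ℝ) * (6 * √m) ^ 2 = 72 * m := by rw [mul_pow, hm]; ring
    have h3 : 8 * (4 * FM.cT / θ) ^ 2 = 128 * FM.cT ^ 2 * θ⁻¹ ^ 2 := by
      rw [div_pow, inv_pow, div_eq_mul_inv]
      ring
    rw [h2, h3, add_mul]
    have h4 : 1 ≤ θ⁻¹ ^ 2 := one_le_pow₀ ((one_le_inv₀ hθ).2 (by linarith))
    have h5 : (72 * m : ℝ) ≤ 72 * m * θ⁻¹ ^ 2 := le_mul_of_one_le_right (by positivity) h4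
    linarith
  gcongr

end Vale.Agent.P214.WIN
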