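import Vale.Agent.P214.WIN.Real
import Vale.Agent.P214.WIN.Props

/-!
# P214, section WIN: the list of inequalities between powers of `H` used in STEP
-/

open Filter Topology Set

namespace Vale.Agent.P214.WIN

variable {m n : ℕ} {C1 C2 C3 C4 C5 C6 M0 M ε c0 c1 c3 p : ℝ}

/-- the final sum of the estimate at a point -/
lemma final_sum {H : ℝ} (h0 : 0 < H) (h1 : H ≤ 1) (hC6 : 0 ≤ C6) (hM : 0 ≤ M) (hp0 : 0 < p)
    (hN : c3 * (m + sW m) = 1 / 8) (hc3 : 0 < c3) (hp : p ≤ c3 / 16) (hc3' : c3 ≤ 1 / 8) :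
    C6 * M * (H ^ (1 / 2 + c3) + (H ^ c3) ^ 2 * (H ^ (1 / 2 - 3 * p) + √(H ^ (1 - c3)))
    + H ^ (1 / 2 - 3 * p) * √(H ^ (1 - c3)) * Real.log (H ^ c3 / H ^ (1 / 2 + c3))
    + n * (H ^ (1 - p) * (C6 * (H ^ c3)⁻¹ ^ (m + sW m)))) ≤
    C6 * M * (3 + (p⁻¹ + n * C6)) * H ^ (1 / 2 + c3 / 2) := by
  have ht1 : √(H ^ (1 - c3)) = H ^ ((1 - c3) / 2) := by
    rw [Real.sqrt_eq_rpow, ← Real.rpow_mul h0.le]; congr 1; ring
  set e : ℝ := 1 / 2 + c3 / 2 with he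
  have hE0 : 0 ≤ H ^ e := Real.rpow_nonneg h0.le _
  have t1 : H ^ (1 / 2 + c3) ≤ H ^ e := rpow_anti h0 h1 (by rw [he]; linarith)
  have hsqc : (H ^ c3) ^ 2 = H ^ (2 * c3) := by
    rw [← Real.rpow_natCast, ← Real.rpow_mul h0.le]; congr 1; push_cast; ring
  have t2 : (H ^ c3) ^ 2 * H ^ (1 / 2 - 3 * p) ≤ H ^ e := by
    rw [hsqc, ← Real.rpow_add h0]
    exact rpow_anti h0 h1 (by rw [he]; linarith)
  have t3 : (H ^ c3) ^ 2 * √(H ^ (1 - c3)) ≤ H ^ e := by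
    rw [hsqc, ht1, ← Real.rpow_add h0]
    exact rpow_anti h0 h1 (by rw [he]; linarith)
  have t4 : H ^ (1 / 2 - 3 * p) * √(H ^ (1 - c3)) * Real.log (H ^ c3 / H ^ (1 / 2 + c3)) ≤
      p⁻¹ * H ^ e := by
    have hlog : Real.log (H ^ c3 / H ^ (1 / 2 + c3)) ≤ H ^ (-p) / p := by
      rw [← Real.rpow_sub h0, show c3 - (1 / 2 + c3) = -(1/2 : ℝ) by ring]
      rw [Real.log_rpow h0]
      have h19 := log_inv_le h0 hp0
      rw [Real.log_inv] at h19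
      have h20 : Real.log H ≤ 0 := Real.log_nonpos h0.le h1
      linarith
    have h21 : 0 ≤ H ^ (1 / 2 - 3 * p) * √(H ^ (1 - c3)) := by positivity
    refine (mul_le_mul_of_nonneg_left hlog h21).trans ?_
    rw [ht1, ← Real.rpow_add h0, ← mul_div_assoc, ← Real.rpow_add h0, div_eq_inv_mul]
    refine mul_le_mul_of_nonneg_left ?_ (by positivity)
    exact rpow_anti h0 h1 (by rw [he]; linarith)
  have t5 : n * (H ^ (1 - p) * (C6 * (H ^ c3)⁻¹ ^ (m + sW m))) ≤ n * C6 * H ^ e := by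
    have h22 : (H ^ c3)⁻¹ ^ (m + sW m) = H ^ (-(1 / 8 : ℝ)) := by
      rw [← Real.rpow_neg h0.le, ← Real.rpow_natCast, ← Real.rpow_mul h0.le]
      congr 1
      push_cast
      linarith
    rw [h22]
    have h23 : n * (H ^ (1 - p) * (C6 * H ^ (-(1 / 8 : ℝ)))) =
        n * C6 * (H ^ (1 - p) * H ^ (-(1 / 8 : ℝ))) := by ring
    rw [h23, ← Real.rpow_add h0]
    refine mul_le_mul_of_nonneg_left ?_ (by positivity)
    exact rpow_anti h0 h1 (by rw [he]; linarith)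
  have hCM : 0 ≤ C6 * M := by positivity
  calc _ ≤ C6 * M * (H ^ e + (H ^ e + H ^ e) + p⁻¹ * H ^ e + n * C6 * H ^ e) := by
        refine mul_le_mul_of_nonneg_left ?_ hCM
        have := mul_add ((H ^ c3) ^ 2) (H ^ (1 / 2 - 3 * p)) (√(H ^ (1 - c3)))
        linarith
    _ = _ := by ring

/-- first half of the conditions -/
structure CondA (m n : ℕ) (C1 C2 C4 C5 M0 ε c1 p H : ℝ) : Prop where
  one : H ≤ 1
  th : H ^ c1 / 16 ≤ 1 / 10240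
  a1 : C1 * (H ^ c1 / 16)⁻¹ ^ C1 * √H ≤ ε
  a2 : C2 * (H ^ c1 / 16)⁻¹ ^ C2 * (C1 * (H ^ c1 / 16)⁻¹ ^ C1 * √H) ≤ H ^ (1 / 2 - p)
  a2' : C1 * (H ^ c1 / 16)⁻¹ ^ C1 * √H ≤ H ^ (1 / 2 - p)
  a3 : H ^ (1 / 2 - p) ≤ ε
  a4 : C1 * (H ^ c1 / 16)⁻¹ ^ C1 * H ≤ H ^ (1 - p)
  a5 : 2 * H + 2 * (n * H ^ (1 / 2 - p)) ^ 2 * M0 ≤ H ^ (1 - 3 * p)
  a6 : C4 * (H ^ c1 / 16)⁻¹ ^ 2 * H ^ (1 - 3 * p) ≤ H ^ (1 - 6 * p)
  a7 : C5 * (H ^ c1 / 16)⁻¹ ^ m * H ^ (1 - 3 * p) ≤ (H ^ (1 / 2 - 3 * p)) ^ 2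

lemma ev_condA (hC1 : 0 ≤ C1) (hC2 : 0 ≤ C2) (hM0 : 0 ≤ M0) (hε : 0 < ε) (hc1 : 0 < c1)
    (hp : p ≤ 1 / 128) (hΛ : c1 * (C1 + C2 + m + 4) ≤ p) :
    ∀ᶠ H : ℝ in 𝓝[>] 0, CondA m n C1 C2 C4 C5 M0 ε c1 p H := by
  have hm0 : (0:ℝ) ≤ m := Nat.cast_nonneg m
  have hcC1 : 0 ≤ c1 * C1 := by positivity
  have hcC2 : 0 ≤ c1 * C2 := by positivity
  have hcm : 0 ≤ c1 * m := by positivity
  have hL : c1 * C1 + c1 * C2 + c1 * m + 4 * c1 ≤ p := by linarith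
  have hp0 : 0 < p := by linarith
  have e1 : ∀ᶠ H : ℝ in 𝓝[>] 0, H ≤ 1 := ev_lt one_pos
  have e2 := ev_small' (1/16) hc1 (c := 1 / 10240) (by norm_num)
  have e3 := ev_small' (C1 * 16 ^ C1) (a := 1 / 2 - c1 * C1) (by linarith) hε
  have e4 := ev_absorb (C2 * 16 ^ C2 * (C1 * 16 ^ C1)) (a := 1 / 2 - c1 * C1 - c1 * C2)
    (b := 1 / 2 - p) (by linarith)
  have e4' := ev_absorb (C1 * 16 ^ C1) (a := 1 / 2 - c1 * C1) (b := 1 / 2 - p) (by linarith)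
  have e5 := ev_small (a := 1 / 2 - p) (c := ε) (by linarith) hε
  have e6 := ev_absorb (C1 * 16 ^ C1) (a := 1 - c1 * C1) (b := 1 - p) (by linarith)
  have e7 := ev_absorb (2 + 2 * n ^ 2 * M0) (a := 1 - 2 * p) (b := 1 - 3 * p) (by linarith)
  have e8 := ev_absorb (C4 * 16 ^ 2) (a := 1 - 3 * p - c1 * 2) (b := 1 - 6 * p) (by linarith)
  have e9 := ev_absorb (C5 * 16 ^ m) (a := 1 - 3 * p - c1 * m) (b := 1 - 6 * p) (by linarith)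
  filter_upwards [e1, e2, e3, e4, e4', e5, e6, e7, e8, e9,
    self_mem_nhdsWithin] with H h1 h2 h3 h4 h4' h5 h6 h7 h8 h9 hpos
  have h0 : (0:ℝ) < H := hpos
  have hsq : √H = H ^ (1 / 2 : ℝ) := sqrt_eq h0
  have a1' : C1 * (H ^ c1 / 16)⁻¹ ^ C1 * √H = C1 * 16 ^ C1 * H ^ (1 / 2 - c1 * C1) := by
    rw [inv_rpow_theta h0, hsq, show (1:ℝ) / 2 - c1 * C1 = -(c1 * C1) + 1 / 2 by ring,
      Real.rpow_add h0]
    ring
  have hH1 : H ^ (1:ℝ) = H := Real.rpow_one H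
  refine ⟨h1, ?_, ?_, ?_, ?_, h5, ?_, ?_, ?_, ?_⟩
  · linarith
  · rw [a1']; exact h3
  · rw [a1', inv_rpow_theta h0]
    refine le_of_eq_of_le ?_ h4
    rw [show (1:ℝ) / 2 - c1 * C1 - c1 * C2 = -(c1 * C2) + (1 / 2 - c1 * C1) by ring,
      Real.rpow_add h0 (-(c1 * C2))]
    ring
  · rw [a1']; exact h4'
  · rw [inv_rpow_theta h0]
    refine le_of_eq_of_le ?_ h6
    rw [show (1:ℝ) - c1 * C1 = -(c1 * C1) + 1 by ring, Real.rpow_add h0, hH1]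
    ring
  · refine le_trans ?_ h7
    have hA : H ≤ H ^ (1 - 2 * p) := by
      conv_lhs => rw [← hH1]
      exact rpow_anti h0 h1 (by linarith)
    have hB : (H ^ (1 / 2 - p)) ^ 2 = H ^ (1 - 2 * p) := by
      rw [← Real.rpow_natCast, ← Real.rpow_mul h0.le]; congr 1; push_cast; ring
    rw [mul_pow, hB]
    linarith
  · rw [inv_pow_theta h0]
    refine le_of_eq_of_le ?_ h8
    rw [show (1:ℝ) - 3 * p - c1 * 2 = -(c1 * (2:ℕ)) + (1 - 3 * p) by push_cast; ring,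
      Real.rpow_add h0]
    ring
  · rw [inv_pow_theta h0]
    have hB : (H ^ (1 / 2 - 3 * p)) ^ 2 = H ^ (1 - 6 * p) := by
      rw [← Real.rpow_natCast, ← Real.rpow_mul h0.le]; congr 1; push_cast; ring
    rw [hB]
    refine le_of_eq_of_le ?_ h9
    rw [show (1:ℝ) - 3 * p - c1 * m = -(c1 * m) + (1 - 3 * p) by ring, Real.rpow_add h0]
    ring

/-- second half of the conditions -/
structure CondB (m n : ℕ) (C3 C6 M ε c0 c1 c3 p H : ℝ) : Prop where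
  a8 : H ^ (1 / 2 - 3 * p) ≤ ε * (H ^ c1 / 16)
  a9 : H ^ (1 - 6 * p) ≤ ε * (H ^ c1 / 16) ^ m
  a10 : C3 * (H ^ (1 - c3))⁻¹ * ((H ^ c1 / 16) ^ m)⁻¹ * H ^ (1 - 6 * p) ≤ H ^ c0
  a11 : H ^ (1 - c3) ≤ ε
  a12 : H ^ c3 ≤ H ^ c1 / 16 / 64
  a14 : C6 * M * (H ^ (1 / 2 + c3) + (H ^ c3) ^ 2 * (H ^ (1 / 2 - 3 * p) + √(H ^ (1 - c3)))
    + H ^ (1 / 2 - 3 * p) * √(H ^ (1 - c3)) * Real.log (H ^ c3 / H ^ (1 / 2 + c3))
    + n * (H ^ (1 - p) * (C6 * (H ^ c3)⁻¹ ^ (m + sW m)))) ≤ H ^ (1 / 2 + c0)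

lemma ev_condB (hC6 : 0 ≤ C6) (hM : 0 ≤ M) (hε : 0 < ε) (hc1 : 0 < c1)
    (hN : c3 * (m + sW m) = 1 / 8) (hc3 : 0 < c3) (hc01 : c0 ≤ c3 / 16) (hp : p ≤ c3 / 16)
    (hΛ : c1 * (m + 4) ≤ p) (hc3' : c3 ≤ 1 / 8) :
    ∀ᶠ H : ℝ in 𝓝[>] 0, CondB m n C3 C6 M ε c0 c1 c3 p H := by
  have hm0 : (0:ℝ) ≤ m := Nat.cast_nonneg m
  have hcm : 0 ≤ c1 * m := by positivity
  have hL : c1 * m + 4 * c1 ≤ p := by linarith
  have hp0 : 0 < p := by linarith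
  have e10 := ev_absorb (ε⁻¹ * 16) (a := 1 / 2 - 3 * p) (b := c1) (by linarith)
  have e11 := ev_absorb (ε⁻¹ * 16 ^ m) (a := 1 - 6 * p) (b := c1 * m) (by linarith)
  have e12 := ev_absorb (C3 * 16 ^ m) (a := c3 - c1 * m - 6 * p) (b := c0) (by linarith)
  have e13 := ev_small (a := 1 - c3) (c := ε) (by linarith) hε
  have e14 := ev_absorb (16 * 64) (a := c3) (b := c1) (by linarith)
  have e15 := ev_absorb (C6 * M * (3 + (p⁻¹ + n * C6))) (a := 1 / 2 + c3 / 2) (b := 1 / 2 + c0)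
    (by linarith)
  filter_upwards [ev_lt one_pos, e10, e11, e12, e13, e14, e15,
    self_mem_nhdsWithin] with H h1 h10 h11 h12 h13 h14 h15 hpos
  have h0 : (0:ℝ) < H := hpos
  refine ⟨?_, ?_, ?_, h13, ?_, ?_⟩
  · have := mul_le_mul_of_nonneg_left h10 hε.le
    have h16 : ε * (ε⁻¹ * 16 * H ^ (1 / 2 - 3 * p)) = 16 * H ^ (1 / 2 - 3 * p) := by
      field_simp
    rw [h16] at this
    linarith
  · have := mul_le_mul_of_nonneg_left h11 hε.le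
    have h16 : ε * (ε⁻¹ * 16 ^ m * H ^ (1 - 6 * p)) = 16 ^ m * H ^ (1 - 6 * p) := by
      field_simp
    rw [h16] at this
    have h17 : (H ^ c1 / 16) ^ m = H ^ (c1 * m) / 16 ^ m := by
      rw [div_pow, ← Real.rpow_natCast (H ^ c1), ← Real.rpow_mul h0.le]
    rw [h17, mul_div_assoc', le_div_iff₀ (by positivity)]
    linarith
  · refine le_of_eq_of_le ?_ h12
    have h17 : ((H ^ c1 / 16) ^ m)⁻¹ = 16 ^ m * H ^ (-(c1 * m)) := by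
      rw [← inv_pow, inv_pow_theta h0]
    rw [h17, ← Real.rpow_neg h0.le,
      show c3 - c1 * m - 6 * p = -(1 - c3) + (-(c1 * m)) + (1 - 6 * p) by ring,
      Real.rpow_add h0, Real.rpow_add h0]
    ring
  · have h18 : (16 * 64 : ℝ) * H ^ c3 ≤ H ^ c1 := h14
    linarith
  · exact (final_sum h0 h1 hC6 hM hp0 hN hc3 hp hc3').trans h15

end Vale.Agent.P214.WIN
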